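import Crest.Agent.R290.SysBasic

/-!
Row 290, task CMP: narrow derivations in the compressed system when the program accepts.
-/

set_option autoImplicit false

namespace Crest.Agent.R290

section General

variable {V : Type} {E : List (Eqn V)} {w : ℕ}

theorem cmp_add_self (F : V →₀ ZMod 2) : F + F = 0 := by
  ext v
  simp [CharTwo.add_self_eq_zero]

theorem cmp_card_add (F G : V →₀ ZMod 2) :
    (F + G).support.card ≤ F.support.card + G.support.card := by
  classical
  exact (Finset.card_le_card Finsupp.support_add).trans (Finset.card_union_le _ _)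

theorem cmp_card_single (v : V) : (Finsupp.single v (1 : ZMod 2)).support.card ≤ 1 :=
  (Finset.card_le_card Finsupp.support_single_subset).trans (by simp)

theorem cmp_card_sum {ι : Type} (t : Finset ι) (A : ι → V →₀ ZMod 2) (n : ℕ)
    (h : ∀ i ∈ t, (A i).support.card ≤ n) : (∑ i ∈ t, A i).support.card ≤ n * t.card := by
  classical
  induction t using Finset.induction_on with
  | empty => simp
  | insert a s ha ih =>
    rw [Finset.sum_insert ha, Finset.card_insert_of_notMem ha]
    refine (cmp_card_add _ _).trans ?_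
    have h1 := h a (Finset.mem_insert_self a s)
    have h2 := ih fun i hi => h i (Finset.mem_insert_of_mem hi)
    rw [Nat.mul_succ]
    omega

theorem Der.cast {F F' : V →₀ ZMod 2} {c c' : ZMod 2} (h : Der E w F c) (hF : F = F')
    (hc : c = c') : Der E w F' c' := hF ▸ hc ▸ h

/-- Exchange the summands one at a time. -/
theorem der_swap {ι : Type} (t : Finset ι) (A B : ι → V →₀ ZMod 2) (d : ι → ZMod 2)
    (hA : ∀ i ∈ t, (A i).support.card ≤ 2) (hB : ∀ i ∈ t, (B i).support.card ≤ 2)
    (hd : ∀ i ∈ t, Der E w (A i + B i) (d i)) (G : V →₀ ZMod 2) (c : ZMod 2)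
    (hw : G.support.card + 2 * t.card ≤ w) (h : Der E w (G + ∑ i ∈ t, A i) c) :
    Der E w (G + ∑ i ∈ t, B i) (c + ∑ i ∈ t, d i) := by
  classical
  induction t using Finset.induction_on generalizing G c with
  | empty => simpa using h
  | insert a s ha ih =>
    rw [Finset.card_insert_of_notMem ha] at hw
    rw [Finset.sum_insert ha] at h
    rw [Finset.sum_insert ha, Finset.sum_insert ha]
    have e : G + (A a + ∑ i ∈ s, A i) + (A a + B a) = G + B a + ∑ i ∈ s, A i := by
      have : G + (A a + ∑ i ∈ s, A i) + (A a + B a) =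
          (A a + A a) + (G + B a + ∑ i ∈ s, A i) := by abel
      rw [this, cmp_add_self, zero_add]
    have hBa := hB a (Finset.mem_insert_self a s)
    have c1 := cmp_card_add G (B a)
    have c2 := cmp_card_sum s A 2 fun i hi => hA i (Finset.mem_insert_of_mem hi)
    have c3 := cmp_card_add (G + B a) (∑ i ∈ s, A i)
    have h1 : Der E w (G + B a + ∑ i ∈ s, A i) (c + d a) :=
      (Der.add h (hd a (Finset.mem_insert_self a s)) (by rw [e]; omega)).cast e rfl
    have h2 := ih (fun i hi => hA i (Finset.mem_insert_of_mem hi))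
      (fun i hi => hB i (Finset.mem_insert_of_mem hi))
      (fun i hi => hd i (Finset.mem_insert_of_mem hi)) (G + B a) (c + d a) (by omega) h1
    exact h2.cast (by abel) (by abel)

/-- Two of the three variables of a homogeneous axiom vanish. -/
theorem der_third {a b c : V} (hq : (a, b, c, false) ∈ E) (hw : 3 ≤ w)
    (ha : Der E w (Finsupp.single a 1) 0) (hb : Der E w (Finsupp.single b 1) 0) :
    Der E w (Finsupp.single c 1) 0 := by
  have h0 : Der E w (Finsupp.single a 1 + Finsupp.single b 1 + Finsupp.single c 1) 0 :=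
    Der.ax (a, b, c, false) hq
  have h1 : Der E w (Finsupp.single a 1 + Finsupp.single b 1) 0 :=
    (Der.add ha hb (by
      have := cmp_card_add (Finsupp.single a (1 : ZMod 2)) (Finsupp.single b 1)
      have := cmp_card_single a
      have := cmp_card_single b
      omega)).cast rfl (add_zero 0)
  have e : Finsupp.single a (1 : ZMod 2) + Finsupp.single b 1 + Finsupp.single c 1 +
      (Finsupp.single a 1 + Finsupp.single b 1) = Finsupp.single c 1 := by
    rw [add_right_comm, cmp_add_self, zero_add]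
  exact (Der.add h0 h1 (by rw [e]; have := cmp_card_single c; omega)).cast e (add_zero 0)

theorem cmp_telescope (a : ℕ → V →₀ ZMod 2) (n : ℕ) :
    ∑ j ∈ Finset.range n, (a j + a (j + 1)) = a 0 + a n := by
  induction n with
  | zero => simp [cmp_add_self]
  | succ n ih =>
    rw [Finset.sum_range_succ, ih, add_assoc, ← add_assoc (a n), cmp_add_self, zero_add]

end General

namespace Par

variable {Q : Par}

/-- The form saying that signal `s` holds at index `m`, on wire `e`. -/
noncomputable def fact (Q : Par) (s e m : ℕ) : Var →₀ ZMod 2 :=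
  ∑ i ∈ Finset.range Q.R, Finsupp.single (Var.x s e i (m % Q.md i)) 1

/-- `o = 0` is the first axiom (`form (o, o, o, false) = single o 1`). -/
theorem der_o (tw : Bool) (w : ℕ) : Der (Q.sys tw) w (Finsupp.single Var.o 1) 0 := by
  have h : Der (Q.sys tw) w
      (Finsupp.single Var.o 1 + Finsupp.single Var.o 1 + Finsupp.single Var.o 1) 0 :=
    Der.ax (Var.o, Var.o, Var.o, false) (mem_sys.mpr (Or.inl rfl))
  rwa [cmp_add_self, zero_add] at h

theorem der_sum_o {ι : Type} (tw : Bool) {w : ℕ} (hw : 1 ≤ w) (t : Finset ι) :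
    Der (Q.sys tw) w (∑ _i ∈ t, Finsupp.single Var.o 1) 0 :=
  (Der.sum_of_subset t (c := fun _ => 0) (fun _ _ => der_o tw w) (S := {Var.o}) (by simpa using hw)
    fun _ _ => Finsupp.support_single_subset).cast rfl (by simp)

theorem cmp_bl_pos (hQ : Q.Ok) : 0 < Q.bl := by
  have := hQ.L_pos
  unfold bl
  positivity

theorem cmp_len_pos (hQ : Q.Ok) : 0 < Q.len := by
  have := cmp_bl_pos hQ
  unfold len
  omega

theorem cmp_div_lt (hQ : Q.Ok) {j : ℕ} (hj : j < Q.len) : j / Q.bl < 3 := by
  rw [Nat.div_lt_iff_lt_mul (cmp_bl_pos hQ)]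
  exact hj

theorem cmp_wire_lt (hQ : Q.Ok) {π j : ℕ} (hπ : π < Q.NP) (hj : j < Q.len) :
    Q.wire (3 * π + j / Q.bl) (Q.upos (j % Q.bl)) < Q.mu :=
  wire_lt hπ (cmp_div_lt hQ hj) (upos_lt (Nat.mod_lt _ (cmp_bl_pos hQ)))

theorem cmp_Y_len (hQ : Q.Ok) (π i r : ℕ) : Q.Y π Q.len i r = .o := by
  have := cmp_len_pos hQ
  unfold Y
  rw [if_neg (by omega), if_pos rfl]

theorem cmp_Y_zero (π i r : ℕ) : Q.Y π 0 i r = Q.pout π i r := by
  unfold Y
  rw [if_pos rfl]

theorem der_path_aux (hQ : Q.Ok) (tw : Bool) {π m : ℕ} (hπ : π < Q.NP)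
    (h : ∀ l < 3, ∀ e < Q.mu, Der (Q.sys tw) (2 * Q.R + 4) (Q.fact (Q.psig π l) e m) 0)
    {j : ℕ} (hj : j < Q.len)
    (ih : Der (Q.sys tw) (2 * Q.R + 4)
      (∑ i ∈ Finset.range Q.R, Finsupp.single (Q.Y π (j + 1) i (m % Q.md i)) 1) 0) :
    Der (Q.sys tw) (2 * Q.R + 4)
      (∑ i ∈ Finset.range Q.R, Finsupp.single (Q.Y π j i (m % Q.md i)) 1)
      (bz2 (tw && decide (π = 0 ∧ j = 0 ∧ m % Q.md 0 = 0))) := by
  have hin : Der (Q.sys tw) (2 * Q.R + 4)
      (∑ i ∈ Finset.range Q.R, Finsupp.single (Q.inp π j i (m % Q.md i)) 1) 0 :=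
    h _ (cmp_div_lt hQ hj) _ (cmp_wire_lt hQ hπ hj)
  have hA : ∀ i ∈ Finset.range Q.R, (Finsupp.single (Q.inp π j i (m % Q.md i)) (1 : ZMod 2) +
      Finsupp.single (Q.Y π (j + 1) i (m % Q.md i)) 1).support.card ≤ 2 := fun i _ =>
    (cmp_card_add _ _).trans (Nat.add_le_add (cmp_card_single _) (cmp_card_single _))
  have h1 : Der (Q.sys tw) (2 * Q.R + 4) (0 + ∑ i ∈ Finset.range Q.R,
      (Finsupp.single (Q.inp π j i (m % Q.md i)) 1 +
        Finsupp.single (Q.Y π (j + 1) i (m % Q.md i)) 1)) 0 := by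
    refine (Der.add hin ih ?_).cast (by rw [zero_add, Finset.sum_add_distrib]) (add_zero 0)
    rw [← Finset.sum_add_distrib]
    have := cmp_card_sum _ _ 2 hA
    rw [Finset.card_range] at this
    omega
  have h2 := der_swap (Finset.range Q.R) _
    (fun i => Finsupp.single (Q.Y π j i (m % Q.md i)) (1 : ZMod 2))
    (fun i => bz2 (tw && decide (π = 0 ∧ j = 0 ∧ i = 0 ∧ m % Q.md i = 0))) hA
    (fun i _ => (cmp_card_single _).trans (by norm_num))
    (fun i hi => (Der.ax (Q.step tw π j i (m % Q.md i)) (mem_sys.mpr (Or.inr (Or.inr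
      ⟨π, hπ, j, hj, i, Finset.mem_range.mp hi, _, Nat.mod_lt _ (hQ.md_pos i), rfl⟩)))).cast
        (by simp only [form, step]; abel) rfl)
    0 0 (by simp) h1
  refine h2.cast (zero_add _) ?_
  rw [zero_add, Finset.sum_eq_single 0]
  · simp
  · intro i _ hi
    simp [hi, bz2]
  · intro h0
    exact absurd (Finset.mem_range.mpr hQ.R_pos) h0

/-- Walking back along a path in all coordinates at once: if the facts for the three premises at
index `m` are derived on all wires, then so is `∑ i, single (Y π j i (m % md i)) 1 = c` for every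
`j ≤ len` by downward induction (at `j = len` all are `o`; a step adds the fact for the input wire,
then the `R` step equations one at a time: the form then has at most `2 R + 1` variables), where
`c = 1` iff `tw`, `π = 0`, `j = 0`, `m % md 0 = 0`. Stated for `j = 0`. -/
theorem der_path (hQ : Q.Ok) (tw : Bool) {π m : ℕ} (hπ : π < Q.NP)
    (h : ∀ l < 3, ∀ e < Q.mu, Der (Q.sys tw) (2 * Q.R + 4) (Q.fact (Q.psig π l) e m) 0) :
    Der (Q.sys tw) (2 * Q.R + 4)
      (∑ i ∈ Finset.range Q.R, Finsupp.single (Q.pout π i (m % Q.md i)) 1)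
      (bz2 (tw && decide (π = 0 ∧ m % Q.md 0 = 0))) := by
  have key : ∀ j ≤ Q.len, 0 < j → Der (Q.sys tw) (2 * Q.R + 4)
      (∑ i ∈ Finset.range Q.R, Finsupp.single (Q.Y π j i (m % Q.md i)) 1) 0 := by
    intro j hj
    induction hj using Nat.decreasingInduction with
    | self =>
      intro _
      simp only [cmp_Y_len hQ]
      exact der_sum_o tw (by omega) _
    | of_succ j hj ih =>
      intro h0
      refine (der_path_aux hQ tw hπ h hj (ih (Nat.succ_pos j))).cast rfl ?_
      simp [h0.ne', bz2]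
  have := der_path_aux hQ tw hπ h (cmp_len_pos hQ) (key 1 (cmp_len_pos hQ) Nat.one_pos)
  simp only [cmp_Y_zero] at this
  refine this.cast rfl ?_
  simp

/-- Induction on `Holds`: the initial chains for `init`, `exists_reg` and `der_path` for a rule. -/
theorem der_fact (hQ : Q.Ok) (tw : Bool) {s m : ℕ} (h : Holds Q.P s m) :
    ∀ e < Q.mu, Der (Q.sys tw) (2 * Q.R + 4) (Q.fact s e m) 0 := by
  induction h with
  | init =>
    intro e he
    have key : ∀ n ≤ Q.R, Der (Q.sys tw) (2 * Q.R + 4)
        (∑ i ∈ Finset.range n, Finsupp.single (Var.x 0 e i 0) 1 + Finsupp.single (Q.Z e n) 1) 0 := by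
      intro n hn
      induction n with
      | zero => simpa [Z] using der_o tw _
      | succ n ih =>
        have hax : Der (Q.sys tw) (2 * Q.R + 4) (Finsupp.single (Q.Z e n) 1 +
            Finsupp.single (Var.x 0 e n 0) 1 + Finsupp.single (Q.Z e (n + 1)) 1) 0 :=
          Der.ax (Q.link e n) (mem_sys.mpr (Or.inr (Or.inl ⟨e, he, n, hn, rfl⟩)))
        have eq : ∑ i ∈ Finset.range n, Finsupp.single (Var.x 0 e i 0) (1 : ZMod 2) +
            Finsupp.single (Q.Z e n) 1 + (Finsupp.single (Q.Z e n) 1 +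
            Finsupp.single (Var.x 0 e n 0) 1 + Finsupp.single (Q.Z e (n + 1)) 1) =
            ∑ i ∈ Finset.range (n + 1), Finsupp.single (Var.x 0 e i 0) 1 +
              Finsupp.single (Q.Z e (n + 1)) 1 := by
          rw [Finset.sum_range_succ, add_assoc, add_assoc, ← add_assoc (Finsupp.single (Q.Z e n) _),
            cmp_add_self, zero_add, add_assoc]
        refine (Der.add (ih (by omega)) hax ?_).cast eq (add_zero 0)
        rw [eq]
        refine (cmp_card_add _ _).trans ?_
        have c1 := cmp_card_sum (Finset.range (n + 1))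
          (fun i => Finsupp.single (Var.x 0 e i 0) (1 : ZMod 2)) 1 fun i _ => cmp_card_single _
        have c2 := cmp_card_single (Q.Z e (n + 1))
        rw [Finset.card_range] at c1
        omega
    have h1 := key Q.R le_rfl
    have hZ : Q.Z e Q.R = .o := by simp [Z]
    rw [hZ] at h1
    have eq : ∑ i ∈ Finset.range Q.R, Finsupp.single (Var.x 0 e i 0) (1 : ZMod 2) +
        Finsupp.single Var.o 1 + Finsupp.single Var.o 1 = Q.fact 0 e 0 := by
      rw [add_assoc, cmp_add_self, add_zero]
      simp [fact]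
    refine (Der.add h1 (der_o tw _) ?_).cast eq (add_zero 0)
    rw [eq]
    have c1 := cmp_card_sum (Finset.range Q.R)
      (fun i => Finsupp.single (Var.x 0 e i (0 % Q.md i)) (1 : ZMod 2)) 1
      fun i _ => cmp_card_single _
    rw [Finset.card_range] at c1
    exact c1.trans (by omega)
  | rule ρ m hρ _ _ _ i0 i1 i2 =>
    intro e he
    obtain ⟨π, hπ, hreg, hrule, hgw⟩ := exists_reg hQ hρ he
    have h := der_path hQ tw (m := m) hπ (by
      intro l hl
      have : Q.psig π l = ρ.sig l := by simp [psig, hreg, hrule]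
      rw [this]
      interval_cases l
      exacts [i0, i1, i2])
    refine h.cast ?_ (by simp [hreg.1, bz2])
    unfold fact
    refine Finset.sum_congr rfl fun i _ => ?_
    simp [pout, hreg.1, hreg, hd, hrule, hgw]

/-- Path `0` at an index `m ≥ m₀` divisible by `md 0`; remove the multiples of `o`. -/
theorem yes_refute (hQ : Q.Ok) (h : ∃ m₀, ∀ m ≥ m₀, Holds Q.P 1 m) :
    Der (Q.sys true) (2 * Q.R + 4) 0 1 := by
  obtain ⟨m₀, h⟩ := h
  have hm : m₀ * Q.md 0 ≥ m₀ := Nat.le_mul_of_pos_right _ (hQ.md_pos 0)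
  have h1 := der_path hQ true (π := 0) (m := m₀ * Q.md 0) (Nat.succ_pos _) (by
    intro l _
    have : Q.psig 0 l = 1 := by simp [psig, Reg]
    rw [this]
    exact der_fact hQ true (h _ hm))
  have h2 : Der (Q.sys true) (2 * Q.R + 4)
      (∑ _i ∈ Finset.range Q.R, Finsupp.single Var.o 1) 1 :=
    h1.cast (by simp [pout]) (by simp [bz2])
  refine (Der.add h2 (der_sum_o true (by omega) (Finset.range Q.R)) ?_).cast (cmp_add_self _)
    (add_zero 1)
  rw [cmp_add_self]
  simp

theorem yes_wire (hQ : Q.Ok) (h : ∃ m₀, ∀ m ≥ m₀, Holds Q.P 1 m) {s e i r : ℕ} (hs : s < Q.S)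
    (he : e < Q.mu) (hi : i < Q.R) (hr : r < Q.md i) :
    Der (Q.sys false) (2 * Q.R + 4) (Finsupp.single (Var.x s e i r) 1) 0 := by
  obtain ⟨m₀, h⟩ := h
  obtain ⟨π, hπ, h0, hreg, hhd, hpc, hgw⟩ := exists_proj hQ hs hi he
  have hm : r + m₀ * Q.md i ≥ m₀ :=
    (Nat.le_mul_of_pos_right _ (hQ.md_pos i)).trans (Nat.le_add_left _ _)
  have h1 := der_path hQ false (π := π) (m := r + m₀ * Q.md i) hπ (by
    intro l _
    have : Q.psig π l = 1 := by simp [psig, hreg]
    rw [this]
    exact der_fact hQ false (h _ hm))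
  have h2 : Der (Q.sys false) (2 * Q.R + 4) (Finsupp.single (Var.x s e i r) 1 +
      ∑ _i ∈ (Finset.range Q.R).erase i, Finsupp.single Var.o 1) 0 := by
    refine h1.cast ?_ (by simp [bz2])
    rw [← Finset.add_sum_erase _ _ (Finset.mem_range.mpr hi)]
    congr 1
    · simp [pout, h0, hreg, hhd, hpc, hgw, Nat.mod_eq_of_lt hr]
    · refine Finset.sum_congr rfl fun i' hi' => ?_
      simp [pout, h0, hreg, hpc, Finset.ne_of_mem_erase hi']
  have eq : Finsupp.single (Var.x s e i r) (1 : ZMod 2) +
      ∑ _i ∈ (Finset.range Q.R).erase i, Finsupp.single Var.o 1 +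
      ∑ _i ∈ (Finset.range Q.R).erase i, Finsupp.single Var.o 1 =
      Finsupp.single (Var.x s e i r) 1 := by
    rw [add_assoc, cmp_add_self, add_zero]
  refine (Der.add h2 (der_sum_o false (by omega) ((Finset.range Q.R).erase i)) ?_).cast eq
    (add_zero 0)
  rw [eq]
  exact (cmp_card_single _).trans (by omega)

/-- Wires `x s e i r` (`s < S`, `e < mu`, `i < R`, `r < md i`) by the projection paths at an index
`m ≥ m₀` with `m % md i = r`; then `Y π j i r` by induction on `j` and `Z e i` by induction on `i`. -/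
theorem yes_zero (hQ : Q.Ok) (h : ∃ m₀, ∀ m ≥ m₀, Holds Q.P 1 m) :
    AllZero (Q.sys false) (2 * Q.R + 4) := by
  have hS : 0 < Q.S := by have := hQ.two; omega
  have hZ : ∀ e < Q.mu, ∀ i ≤ Q.R,
      Der (Q.sys false) (2 * Q.R + 4) (Finsupp.single (Q.Z e i) 1) 0 := by
    intro e he i hi
    induction i with
    | zero => simpa [Z] using der_o false _
    | succ i ih =>
      exact der_third (mem_sys.mpr (Or.inr (Or.inl ⟨e, he, i, hi, rfl⟩))) (by omega)
        (ih (by omega)) (yes_wire hQ h hS he hi (hQ.md_pos i))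
  have hinp : ∀ π < Q.NP, ∀ j < Q.len, ∀ i < Q.R, ∀ r < Q.md i,
      Der (Q.sys false) (2 * Q.R + 4) (Finsupp.single (Q.inp π j i r) 1) 0 :=
    fun π hπ j hj i hi r hr => yes_wire hQ h (psig_lt hQ _ _) (cmp_wire_lt hQ hπ hj) hi hr
  have hY : ∀ π < Q.NP, ∀ i < Q.R, ∀ r < Q.md i, ∀ j ≤ Q.len,
      Der (Q.sys false) (2 * Q.R + 4) (Finsupp.single (Q.Y π j i r) 1) 0 := by
    intro π hπ i hi r hr j hj
    induction j with
    | zero =>
      rw [cmp_Y_zero]
      unfold pout
      split_ifs with h0 h1 h2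
      · exact der_o false _
      · exact yes_wire hQ h (hd_lt hQ hπ h0) (gw_lt hQ π) hi (Nat.mod_lt _ (hQ.md_pos i))
      · exact yes_wire hQ h (hd_lt hQ hπ h0) (gw_lt hQ π) hi hr
      · exact der_o false _
    | succ j ih =>
      exact der_third (mem_sys.mpr (Or.inr (Or.inr ⟨π, hπ, j, hj, i, hi, r, hr, rfl⟩))) (by omega)
        (ih (by omega)) (hinp π hπ j hj i hi r hr)
  intro q hq
  rcases mem_sys.mp hq with rfl | ⟨e, he, i, hi, rfl⟩ | ⟨π, hπ, j, hj, i, hi, r, hr, rfl⟩
  · exact ⟨der_o false _, der_o false _, der_o false _⟩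
  · exact ⟨hZ e he i hi.le, yes_wire hQ h hS he hi (hQ.md_pos i), hZ e he (i + 1) hi⟩
  · exact ⟨hY π hπ i hi r hr j hj.le, hinp π hπ j hj i hi r hr, hY π hπ i hi r hr (j + 1) hj⟩

/-- The steps of the copy `(0, 0)` of path `0` add up to `0 = 1` (telescoping, `sum_len`, every input
occurs twice, `Y 0 0 = Y 0 len = o`); any finite sum of axioms is derivable at a large width
(`Der.sum_of_subset`). -/
theorem always_refute (hQ : Q.Ok) : ∃ w, Der (Q.sys true) w 0 1 := by
  classical
  refine ⟨((Finset.range Q.len).biUnion fun j => (form (Q.step true 0 j 0 0)).support).card, ?_⟩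
  refine (Der.sum_of_subset (Finset.range Q.len) (F := fun j => form (Q.step true 0 j 0 0))
    (c := fun j => bz2 (Q.step true 0 j 0 0).2.2.2)
    (fun j hj => Der.ax _ (mem_sys.mpr (Or.inr (Or.inr ⟨0, Nat.succ_pos _, j,
      Finset.mem_range.mp hj, 0, hQ.R_pos, 0, hQ.md_pos 0, rfl⟩)))) le_rfl
    (fun j hj => Finset.subset_biUnion_of_mem
      (fun j => (form (Q.step true 0 j 0 0)).support) hj)).cast ?_ ?_
  · have e : ∀ j, form (Q.step true 0 j 0 0) =
        (Finsupp.single (Q.Y 0 j 0 0) 1 + Finsupp.single (Q.Y 0 (j + 1) 0 0) 1) +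
          Finsupp.single (Q.inp 0 j 0 0) 1 := by
      intro j
      simp only [form, step]
      abel
    simp only [e]
    rw [Finset.sum_add_distrib, cmp_telescope fun j => Finsupp.single (Q.Y 0 j 0 0) (1 : ZMod 2),
      cmp_Y_len hQ, cmp_Y_zero, sum_len]
    have : Q.pout 0 0 0 = .o := by simp [pout]
    rw [this, cmp_add_self, zero_add]
    refine Finset.sum_eq_zero fun l _ => Finset.sum_eq_zero fun u hu => ?_
    rw [inp_left (Finset.mem_range.mp hu), inp_right (Finset.mem_range.mp hu), cmp_add_self]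
  · rw [Finset.sum_eq_single 0]
    · simp [step, bz2]
    · intro j _ hj
      simp [step, bz2, hj]
    · intro h0
      exact absurd (Finset.mem_range.mpr (cmp_len_pos hQ)) h0

end Par

end Crest.Agent.R290
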