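import Crest.Agent.R290.Game

/-!
Row 290, task CONE: adding a universal vertex.
-/

set_option autoImplicit false

namespace Crest.Agent.R290

open Crest.WLRefine

variable {n m : ℕ} {g h : ℕ → ℕ → Bool}

/-- the cone on `Option` -/
def coneO {V : Type} (G : V → V → Bool) : Option V → Option V → Bool
  | some a, some b => G a b
  | none, none => false
  | none, some _ => true
  | some _, none => true

theorem cone_eq_coneO (n : ℕ) (g : ℕ → ℕ → Bool) (a b : Fin (n + 1)) :
    coneO (cut n g) (finSuccEquivLast a) (finSuccEquivLast b) = cut (n + 1) (cone n g) a b := by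
  induction a using Fin.lastCases <;> induction b using Fin.lastCases
  · simp [coneO, cut, cone]
  · rename_i i
    have := i.2.ne
    simp [coneO, cut, cone, this.symm]
  · rename_i i
    have := i.2.ne
    simp [coneO, cut, cone, this]
  · rename_i i j
    have h1 := i.2.ne
    have h2 := j.2.ne
    simp [coneO, cut, cone, h1, h2]

theorem game_coneO {V W : Type} [DecidableEq V] [DecidableEq W] {G : V → V → Bool}
    {H : W → W → Bool} (hG : Game m G H) : Game m (coneO G) (coneO H) := by
  classical
  obtain ⟨P, hP⟩ := hG
  have hinj : Function.Injective (Prod.map some some : V × W → Option V × Option W) :=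
    (Option.some_injective V).prodMap (Option.some_injective W)
  let dn : Finset (Option V × Option W) → Finset (V × W) := fun s =>
    s.preimage (Prod.map some some) hinj.injOn
  have hdn : ∀ s p, p ∈ dn s ↔ (some p.1, some p.2) ∈ s := fun s p => Finset.mem_preimage
  refine ⟨fun s => (∀ p ∈ s, p.1 = none ↔ p.2 = none) ∧ P (dn s), ⟨by simp, ?_⟩, ?_, ?_, ?_, ?_⟩
  · exact hP.sub _ _ hP.empty fun p hp => by simpa [hdn] using hp
  · rintro s t ⟨h1, h2⟩ hst
    exact ⟨fun p hp => h1 p (hst hp), hP.sub _ _ h2 fun p hp => (hdn _ _).2 (hst ((hdn _ _).1 hp))⟩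
  · rintro s ⟨h1, h2⟩ ⟨a, b⟩ hp ⟨a', b'⟩ hq
    have e1 := h1 _ hp
    have e2 := h1 _ hq
    cases a <;> cases b <;> cases a' <;> cases b' <;> simp at e1 e2 ⊢
    exact hP.eq _ h2 (_, _) ((hdn _ _).2 hp) (_, _) ((hdn _ _).2 hq)
  · rintro s ⟨h1, h2⟩ ⟨a, b⟩ hp ⟨a', b'⟩ hq
    have e1 := h1 _ hp
    have e2 := h1 _ hq
    cases a <;> cases b <;> cases a' <;> cases b' <;> simp [coneO] at e1 e2 ⊢
    exact hP.adj _ h2 (_, _) ((hdn _ _).2 hp) (_, _) ((hdn _ _).2 hq)
  · rintro s ⟨h1, h2⟩ hc
    have hcard : (dn s).card ≤ s.card :=
      Finset.card_le_card_of_injOn (Prod.map some some) (fun p hp => (hdn _ _).1 hp) hinj.injOn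
    obtain ⟨e, he⟩ := hP.ext _ h2 (lt_of_le_of_lt hcard hc)
    refine ⟨e.optionCongr, fun z => ⟨?_, ?_⟩⟩
    · intro p hp
      rcases Finset.mem_insert.1 hp with rfl | hp
      · cases z <;> simp
      · exact h1 p hp
    · cases z with
      | none =>
        refine hP.sub _ _ h2 fun p hp => ?_
        rw [hdn] at hp ⊢
        simpa using hp
      | some z =>
        refine hP.sub _ _ (he z) fun p hp => ?_
        rw [hdn] at hp
        rw [Finset.mem_insert, hdn]
        rcases Finset.mem_insert.1 hp with h | h
        · left
          simp only [Equiv.optionCongr_apply, Option.map_some, Prod.mk.injEq,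
            Option.some.injEq] at h
          exact Prod.ext h.1 h.2
        · exact Or.inr h

theorem coneO_deg_none (G : Fin n → Fin n → Bool) :
    Nat.card {z // coneO G none z = true} = n := by
  have : Nat.card {z // coneO G none z = true} = Nat.card (Fin n) := by
    refine (Nat.card_congr (Equiv.ofBijective (fun a : Fin n => ⟨some a, rfl⟩) ⟨?_, ?_⟩)).symm
    · intro a b h; simpa using h
    · rintro ⟨z, hz⟩
      cases z with
      | none => simp [coneO] at hz
      | some a => exact ⟨a, rfl⟩
  simpa using this

theorem coneO_deg_some {G : Fin n → Fin n → Bool} (hG : MaxDegLeThree G) (a : Fin n) :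
    Nat.card {z // coneO G (some a) z = true} ≤ 4 := by
  rw [Nat.card_eq_fintype_card, Fintype.card_subtype]
  have hsub : (Finset.univ.filter fun z => coneO G (some a) z = true) ⊆
      insert none ((Finset.univ.filter fun w => G a w = true).image some) := by
    intro z hz
    cases z with
    | none => simp
    | some b => simpa [coneO] using hz
  refine (Finset.card_le_card hsub).trans ((Finset.card_insert_le _ _).trans ?_)
  have := hG a
  have h2 := Finset.card_image_le (s := Finset.univ.filter fun w => G a w = true) (f := some)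
  omega

theorem game_of_coneO (hm : 2 ≤ m) (hn : 5 ≤ n) {G H : Fin n → Fin n → Bool}
    (hh : MaxDegLeThree H) (hG : Game m (coneO G) (coneO H)) : Game m G H := by
  obtain ⟨P, hP⟩ := hG
  refine ⟨fun s => P (s.image (Prod.map some some)), by simpa using hP.empty, ?_, ?_, ?_, ?_⟩
  · exact fun s t ht hst => hP.sub _ _ ht (Finset.image_subset_image hst)
  · intro s hs p hp q hq
    have := hP.eq _ hs _ (Finset.mem_image_of_mem _ hp) _ (Finset.mem_image_of_mem _ hq)
    simpa using this
  · intro s hs p hp q hq
    exact hP.adj _ hs _ (Finset.mem_image_of_mem _ hp) _ (Finset.mem_image_of_mem _ hq)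
  · intro s hs hc
    obtain ⟨e, he⟩ := hP.ext _ hs (lt_of_le_of_lt Finset.card_image_le hc)
    have hnone : e none = none := by
      have h1 := hP.deg hm (hP.sub {(none, e none)} _ (he none) (by simp))
      rw [coneO_deg_none] at h1
      cases h : e none with
      | none => rfl
      | some b =>
        rw [h] at h1
        have := coneO_deg_some hh b
        omega
    refine ⟨e.removeNone, fun z => ?_⟩
    have h2 : some (e.removeNone z) = e (some z) := by
      apply Equiv.removeNone_some
      cases h : e (some z) with
      | none => rw [← hnone] at h; simpa using e.injective h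
      | some b => exact ⟨b, rfl⟩
    have := he (some z)
    rw [← h2] at this
    simpa [Finset.image_insert] using this

theorem cone_diam (hg : IsSimple (cut n g)) : SimpleConnDiamTwo (cut (n + 1) (cone n g)) := by
  have hs : IsSimple (cut (n + 1) (cone n g)) := by
    refine ⟨fun v w => ?_, fun v => ?_⟩
    · rw [← cone_eq_coneO, ← cone_eq_coneO]
      cases finSuccEquivLast v <;> cases finSuccEquivLast w <;> simp [coneO]
      exact hg.1 _ _
    · rw [← cone_eq_coneO]
      cases finSuccEquivLast v <;> simp [coneO]
      exact hg.2 _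
  have hl : ∀ v : Fin (n + 1), v ≠ Fin.last n → cut (n + 1) (cone n g) v (Fin.last n) = true := by
    intro v hv
    have : (v : ℕ) ≠ n := fun h => hv (Fin.ext h)
    simp [cut, cone, this]
  refine ⟨hs, ?_, fun v w hvw => ?_⟩
  · refine (SimpleGraph.connected_iff_exists_forall_reachable _).2 ⟨Fin.last n, fun w => ?_⟩
    by_cases hw : w = Fin.last n
    · rw [hw]
    · refine SimpleGraph.Adj.reachable ?_
      rw [adjGraph, SimpleGraph.fromRel_adj]
      exact ⟨fun h => hw h.symm, Or.inr (hl w hw)⟩
  · by_cases hw : w = Fin.last n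
    · subst hw; exact Or.inl (hl v hvw)
    · by_cases hv : v = Fin.last n
      · subst hv; left; rw [hs.1]; exact hl w hw
      · right; exact ⟨Fin.last n, hl v hv, by rw [hs.1]; exact hl w hw⟩

/-- Map the apex to the apex: `P' s` says every pair of `s` is `(last, last)` or comes from a pair of
a position of `P` (via `Fin.castSucc`); extend `e` by `finSuccEquivLast`/`Equiv.optionCongr`. -/
theorem game_cone (hG : Game m (cut n g) (cut n h)) :
    Game m (cut (n + 1) (cone n g)) (cut (n + 1) (cone n h)) := by
  exact (Game.congr finSuccEquivLast finSuccEquivLast (cone_eq_coneO n g) (cone_eq_coneO n h)).2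
    (game_coneO hG)

/-- The apex has degree `n ≥ 5`, the other vertices at most `4`; so by `Strat.deg` every bijection
given by `ext` fixes the apex and restricts. -/
theorem game_of_cone (hm : 2 ≤ m) (hn : 5 ≤ n) (hg : MaxDegLeThree (cut n g))
    (hh : MaxDegLeThree (cut n h))
    (hG : Game m (cut (n + 1) (cone n g)) (cut (n + 1) (cone n h))) :
    Game m (cut n g) (cut n h) := by
  have _ := hg
  exact game_of_coneO hm hn hh
    ((Game.congr finSuccEquivLast finSuccEquivLast (cone_eq_coneO n g) (cone_eq_coneO n h)).1 hG)

end Crest.Agent.R290
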