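import Crest.Agent.R290.Defs

/-!
Row 290, task LIN: narrow derivations and local assignments.
-/

set_option autoImplicit false

namespace Crest.Agent.R290

variable {V : Type} {E : List (Eqn V)} {w : ℕ}

theorem mem_support_form {q : Eqn V} {v : V} (hv : v ∈ (form q).support) :
    v = q.1 ∨ v = q.2.1 ∨ v = q.2.2.1 := by
  by_contra h
  push Not at h
  rw [Finsupp.mem_support_iff] at hv
  apply hv
  simp only [form, Finsupp.add_apply]
  rw [Finsupp.single_eq_of_ne h.1, Finsupp.single_eq_of_ne h.2.1, Finsupp.single_eq_of_ne h.2.2]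
  simp

theorem mem_support_add_or {F F' : V →₀ ZMod 2} {v : V} (hv : v ∈ (F + F').support) :
    v ∈ F.support ∨ v ∈ F'.support := by
  classical
  exact Finset.mem_union.1 (Finsupp.support_add hv)

theorem form_card_le (q : Eqn V) : (form q).support.card ≤ 3 := by
  classical
  refine le_trans (Finset.card_le_card (t := {q.1, q.2.1, q.2.2.1}) fun v hv => ?_)
    Finset.card_le_three
  simpa using mem_support_form hv

theorem Der.mono {w' : ℕ} {F : V →₀ ZMod 2} {c : ZMod 2} (h : Der E w F c) (hw : w ≤ w') :
    Der E w' F c := by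
  induction h with
  | zero => exact Der.zero
  | ax q hq => exact Der.ax q hq
  | add _ _ hc ih ih' => exact ih.add ih' (hc.trans hw)

theorem Der.card_le {F : V →₀ ZMod 2} {c : ZMod 2} (h : Der E w F c) (hw : 3 ≤ w) :
    F.support.card ≤ w := by
  cases h with
  | zero => simp
  | ax q hq => exact (form_card_le q).trans hw
  | add _ _ hc => exact hc

/-- Every variable of a derived equation occurs in the system. -/
theorem Der.mem_support {F : V →₀ ZMod 2} {c : ZMod 2} (h : Der E w F c) {v : V}
    (hv : v ∈ F.support) : ∃ q ∈ E, v = q.1 ∨ v = q.2.1 ∨ v = q.2.2.1 := by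
  induction h with
  | zero => simp at hv
  | ax q hq => exact ⟨q, hq, mem_support_form hv⟩
  | add _ _ _ ih ih' => exact (mem_support_add_or hv).elim ih ih'

/-- Adding inside a small set of variables. -/
theorem Der.add_of_subset {F F' : V →₀ ZMod 2} {c c' : ZMod 2} (h : Der E w F c)
    (h' : Der E w F' c') {S : Finset V} (hS : S.card ≤ w) (hF : F.support ⊆ S)
    (hF' : F'.support ⊆ S) : Der E w (F + F') (c + c') :=
  h.add h' ((Finset.card_le_card fun _ hv =>
    (mem_support_add_or hv).elim (fun h1 => hF h1) (fun h1 => hF' h1)).trans hS)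

/-- Finite sums inside a small set of variables. -/
theorem Der.sum_of_subset {ι : Type} (t : Finset ι) {F : ι → V →₀ ZMod 2} {c : ι → ZMod 2}
    (h : ∀ i ∈ t, Der E w (F i) (c i)) {S : Finset V} (hS : S.card ≤ w)
    (hF : ∀ i ∈ t, (F i).support ⊆ S) : Der E w (∑ i ∈ t, F i) (∑ i ∈ t, c i) := by
  classical
  have key : Der E w (∑ i ∈ t, F i) (∑ i ∈ t, c i) ∧ (∑ i ∈ t, F i).support ⊆ S := by
    induction t using Finset.induction_on with
    | empty => simpa using Der.zero
    | insert a t ha ih =>
      obtain ⟨h1, h2⟩ := ih (fun i hi => h i (Finset.mem_insert_of_mem hi))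
        (fun i hi => hF i (Finset.mem_insert_of_mem hi))
      have h3 := hF a (Finset.mem_insert_self _ _)
      rw [Finset.sum_insert ha, Finset.sum_insert ha]
      exact ⟨(h a (Finset.mem_insert_self _ _)).add_of_subset h1 hS h3 h2, fun _ hv =>
        (mem_support_add_or hv).elim (fun h4 => h3 h4) (fun h4 => h2 h4)⟩
  exact key.1

/-- Value of a form under an assignment. -/
noncomputable def ev (F : V →₀ ZMod 2) (δ : V → ZMod 2) : ZMod 2 := F.sum fun v a => a * δ v

theorem ev_add (F F' : V →₀ ZMod 2) (δ : V → ZMod 2) : ev (F + F') δ = ev F δ + ev F' δ :=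
  Finsupp.sum_add_index' (fun _ => zero_mul _) (fun _ _ _ => add_mul _ _ _)

theorem ev_single (v : V) (a : ZMod 2) (δ : V → ZMod 2) : ev (Finsupp.single v a) δ = a * δ v :=
  Finsupp.sum_single_index (zero_mul _)

theorem ev_zero (δ : V → ZMod 2) : ev 0 δ = 0 := Finsupp.sum_zero_index

theorem ev_form (q : Eqn V) (δ : V → ZMod 2) :
    ev (form q) δ = δ q.1 + δ q.2.1 + δ q.2.2.1 := by
  simp only [form, ev_add, ev_single, one_mul]

theorem ev_congr (F : V →₀ ZMod 2) {δ δ' : V → ZMod 2} (h : ∀ v ∈ F.support, δ v = δ' v) :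
    ev F δ = ev F δ' :=
  Finset.sum_congr rfl fun v hv => congrArg (F v * ·) (h v hv)

/-- `δ` satisfies all derived equations supported in `S`. -/
def Sat (E : List (Eqn V)) (w : ℕ) (S : Finset V) (δ : V → ZMod 2) : Prop :=
  ∀ F c, Der E w F c → F.support ⊆ S → ev F δ = c

theorem Sat.subset {S S' : Finset V} {δ : V → ZMod 2} (h : Sat E w S' δ) (hS : S ⊆ S') :
    Sat E w S δ := fun F c hF hs => h F c hF (hs.trans hS)

theorem sat_empty (h : ¬ Der E w 0 1) (δ : V → ZMod 2) : Sat E w ∅ δ := by
  intro F c hF hs
  have h0 : F = 0 := Finsupp.support_eq_empty.1 (Finset.subset_empty.1 hs)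
  subst h0
  rw [ev_zero]
  by_contra hc
  have h1 : c = 1 := by
    revert hc; generalize c = c'; revert c'; decide
  exact h (h1 ▸ hF)

/-- Changing the value of one variable. -/
theorem ev_update [DecidableEq V] (F : V →₀ ZMod 2) (δ : V → ZMod 2) (v : V) (a : ZMod 2) :
    ev F (Function.update δ v a) = ev (F.erase v) δ + F v * a := by
  conv_lhs => rw [← Finsupp.erase_add_single v F, ev_add, ev_single, Function.update_self]
  congr 1
  refine ev_congr _ fun u hu => Function.update_of_ne ?_ _ _
  rw [Finsupp.support_erase] at hu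
  exact (Finset.mem_erase.1 hu).1

theorem Sat.insert_one [DecidableEq V] {S : Finset V} {δ : V → ZMod 2} (h : Sat E w S δ) {v : V}
    (hv : v ∉ S) (hw : (insert v S).card ≤ w) :
    ∃ a, Sat E w (insert v S) (Function.update δ v a) := by
  by_contra hcon
  push Not at hcon
  -- a violated equation contains `v`
  have key : ∀ a, ∃ F c, Der E w F c ∧ F.support ⊆ insert v S ∧ F v = 1 ∧
      ev (F.erase v) δ + a ≠ c := by
    intro a
    have h1 := hcon a
    unfold Sat at h1
    push Not at h1
    obtain ⟨F, c, hF, hs, hne⟩ := h1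
    rw [ev_update] at hne
    have h2 : F v = 1 := by
      by_contra h3
      have h4 : F v = 0 := by
        revert h3; generalize F v = c'; revert c'; decide
      have h5 : v ∉ F.support := by simp [h4]
      rw [h4, zero_mul, add_zero, Finsupp.erase_of_notMem_support h5] at hne
      refine hne (h F c hF fun u hu => ?_)
      rcases Finset.mem_insert.1 (hs hu) with rfl | h6
      · exact absurd hu h5
      · exact h6
    rw [h2, one_mul] at hne
    exact ⟨F, c, hF, hs, h2, hne⟩
  obtain ⟨F, c, hF, hs, h1, hne⟩ := key 0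
  obtain ⟨F', c', hF', hs', h1', hne'⟩ := key 1
  have h2 : (F + F') v = 0 := by rw [Finsupp.add_apply, h1, h1']; decide
  have h5 : v ∉ (F + F').support := by simp only [Finsupp.mem_support_iff, h2]; simp
  have h3 := h _ _ (hF.add_of_subset hF' hw hs hs') fun u hu => by
    have h6 : u ∈ insert v S := (mem_support_add_or hu).elim (fun h7 => hs h7) (fun h7 => hs' h7)
    rcases Finset.mem_insert.1 h6 with rfl | h6
    · exact absurd hu h5
    · exact h6
  rw [← Finsupp.erase_of_notMem_support h5, Finsupp.erase_add, ev_add] at h3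
  have _ := hv
  revert h3 hne hne'
  generalize ev (F.erase v) δ = x
  generalize ev (F'.erase v) δ = y
  clear hF hF'
  revert x y c c'
  decide

/-- Extension. It suffices to add one variable `v` at a time (induction on `S' \ S`): if both values
fail, there are derived `(F, c)`, `(F', c')` supported in `insert v S`, violated by the value `0`
resp. `1`; both contain `v` (else `δ` violates them on `S`), so `F + F'` is derived
(`add_of_subset`), supported in `S`, and violated by `δ`. -/
theorem Sat.extend [DecidableEq V] {S S' : Finset V} {δ : V → ZMod 2} (h : Sat E w S δ)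
    (hS : S ⊆ S') (hw : S'.card ≤ w) : ∃ δ', (∀ v ∈ S, δ' v = δ v) ∧ Sat E w S' δ' := by
  have key : ∀ D : Finset V, (S ∪ D).card ≤ w →
      ∃ δ', (∀ v ∈ S, δ' v = δ v) ∧ Sat E w (S ∪ D) δ' := by
    intro D
    induction D using Finset.induction_on with
    | empty => intro _; exact ⟨δ, fun _ _ => rfl, by simpa using h⟩
    | insert v D _ ih =>
      intro hc
      rw [Finset.union_insert] at hc ⊢
      obtain ⟨δ', h1, h2⟩ := ih ((Finset.card_le_card (Finset.subset_insert _ _)).trans hc)
      by_cases hv : v ∈ S ∪ D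
      · rw [Finset.insert_eq_of_mem hv]
        exact ⟨δ', h1, h2⟩
      · obtain ⟨a, ha⟩ := h2.insert_one hv hc
        refine ⟨_, fun u hu => ?_, ha⟩
        rw [Function.update_of_ne, h1 u hu]
        rintro rfl
        exact hv (Finset.mem_union_left _ hu)
  have := key S' (by rwa [Finset.union_eq_right.2 hS])
  rwa [Finset.union_eq_right.2 hS] at this

end Crest.Agent.R290
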