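import Crest.Agent.R290.GrLoc
import Crest.Agent.R290.Lin

/-!
Row 290, task GRD: narrow derivations are visible in the game.
-/

set_option autoImplicit false

namespace Crest.Agent.R290

open Crest.WLRefine

variable {V : Type} [DecidableEq V] [Inhabited V]

namespace Grd

theorem loc_x {v : Vx} {o : ℕ} {β : Bool} (h : (Vx.x o β).loc = v.loc) : ∃ γ, v = .x o γ := by
  cases v <;> simp [Vx.loc] at h
  exact ⟨_, by rw [h]⟩

theorem loc_p {v : Vx} {o : ℕ} {β : Bool} (h : (Vx.p o β).loc = v.loc) : ∃ γ, v = .p o γ := by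
  cases v <;> simp [Vx.loc] at h
  exact ⟨_, by rw [h]⟩

theorem loc_a {v : Vx} {o : ℕ} {β : Bool} (h : (Vx.a o β).loc = v.loc) : ∃ γ, v = .a o γ := by
  cases v <;> simp [Vx.loc] at h
  exact ⟨_, by rw [h]⟩

theorem loc_g {v : Vx} {e : ℕ} {β β' : Bool} (h : (Vx.g e β β').loc = v.loc) :
    ∃ γ γ', v = .g e γ γ' := by
  cases v <;> simp [Vx.loc] at h
  exact ⟨_, _, by rw [h]⟩

theorem adj_px (E : List (Eqn V)) {o o' : ℕ} (h : o' = o ∨ Nxt E o o') (β γ : Bool) :
    adjV E (.p o β) (.x o' γ) = decide (γ = β) := by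
  simp [adjV, edge, h]

theorem adj_xa (E : List (Eqn V)) (o : ℕ) (β γ : Bool) :
    adjV E (.x o β) (.a o γ) = decide (γ = β) := by
  simp [adjV, edge]

theorem adj_ag (E : List (Eqn V)) (e l : ℕ) (hl : l < 3) (β β₀ β₁ : Bool) :
    adjV E (.a (3 * e + l) β) (.g e β₀ β₁) = decide (β = gbit E e β₀ β₁ l) := by
  have h1 : (3 * e + l) / 3 = e := by omega
  have h2 : (3 * e + l) % 3 = l := by omega
  simp [adjV, edge, h1, h2]

omit [DecidableEq V] in
theorem exists_eqn {E : List (Eqn V)} {q : Eqn V} (h : q ∈ E) : ∃ e < E.length, eqn E e = q := by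
  obtain ⟨i, hi, rfl⟩ := List.getElem_of_mem h
  exact ⟨i, hi, by simp [eqn, List.getD_eq_getElem?_getD, hi]⟩

omit [DecidableEq V] in
theorem eqn_mem {E : List (Eqn V)} {e : ℕ} (h : e < E.length) : eqn E e ∈ E := by
  have : eqn E e = E[e] := by simp [eqn, List.getD_eq_getElem?_getD, h]
  rw [this]; exact List.getElem_mem h

omit [DecidableEq V] in
theorem occ0 (E : List (Eqn V)) (e : ℕ) : occ E (3 * e + 0) = (eqn E e).1 := by
  have h1 : (3 * e + 0) / 3 = e := by omega
  have h2 : (3 * e + 0) % 3 = 0 := by omega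
  simp only [occ, h1, h2, if_true]

omit [DecidableEq V] in
theorem occ1 (E : List (Eqn V)) (e : ℕ) : occ E (3 * e + 1) = (eqn E e).2.1 := by
  have h1 : (3 * e + 1) / 3 = e := by omega
  have h2 : (3 * e + 1) % 3 = 1 := by omega
  simp [occ, h1, h2]

omit [DecidableEq V] in
theorem occ2 (E : List (Eqn V)) (e : ℕ) : occ E (3 * e + 2) = (eqn E e).2.2.1 := by
  have h1 : (3 * e + 2) / 3 = e := by omega
  have h2 : (3 * e + 2) % 3 = 2 := by omega
  simp [occ, h1, h2]

omit [DecidableEq V] in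
theorem occurs {E : List (Eqn V)} {q : Eqn V} (h : q ∈ E) {y : V}
    (hy : y = q.1 ∨ y = q.2.1 ∨ y = q.2.2.1) : ∃ o < 3 * E.length, occ E o = y := by
  obtain ⟨e, he, rfl⟩ := exists_eqn h
  rcases hy with rfl | rfl | rfl
  · exact ⟨_, by omega, occ0 E e⟩
  · exact ⟨_, by omega, occ1 E e⟩
  · exact ⟨_, by omega, occ2 E e⟩

/-- The standing hypotheses. -/
structure Ctx (E : List (Eqn V)) (N n m : ℕ) (P : Finset (VV N n × VV N n) → Prop) : Prop where
  hE : E.length = N
  hN : 0 < N
  hn : 31 * N + 1 ≤ n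
  hm : 6 ≤ m
  hP : Strat m (adjS (hom E) N n) (adjS E N n) P

variable {E : List (Eqn V)} {N n m : ℕ} {P : Finset (VV N n × VV N n) → Prop}

theorem Ctx.loc (C : Ctx E N n m P) {s : Finset (VV N n × VV N n)} (hs : P s)
    {p : VV N n × VV N n} (hp : p ∈ s) : p.1.1.loc = p.2.1.loc :=
  gr_loc (E := hom E) (E' := E) ((length_hom E).trans C.hE) (hom_hom E) C.hN C.hn
    (by have := C.hm; omega) C.hP (C.hP.sub _ _ hs (by simpa using hp))

theorem Ctx.place (C : Ctx E N n m P) {s : Finset (VV N n × VV N n)} (hs : P s) (hc : s.card < m)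
    (u : Vx) (hu : u.Valid N n) :
    ∃ p : VV N n × VV N n, P (insert p s) ∧ p.1.1 = u ∧ u.loc = p.2.1.loc := by
  obtain ⟨e, he⟩ := C.hP.ext s hs hc
  exact ⟨_, he ⟨u, hu⟩, rfl, C.loc (he ⟨u, hu⟩) (Finset.mem_insert_self _ _)⟩

theorem Ctx.adj (C : Ctx E N n m P) {s : Finset (VV N n × VV N n)} (hs : P s)
    {p q : VV N n × VV N n} (hp : p ∈ s) (hq : q ∈ s) :
    adjV (hom E) p.1.1 q.1.1 = adjV E p.2.1 q.2.1 := C.hP.adj s hs p hp q hq

theorem xor_eq {β β' γ γ' : Bool} (h : decide (γ = β) = decide (γ' = β')) :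
    xor β β' = xor γ γ' := by
  revert h; cases β <;> cases β' <;> cases γ <;> cases γ' <;> simp

theorem Ctx.same_le (C : Ctx E N n m P) (k : ℕ) : ∀ (o o' : ℕ), o' - o = k → o ≤ o' →
    occ E o' = occ E o → ∀ (s : Finset (VV N n × VV N n)), P s → ∀ p ∈ s, ∀ q ∈ s,
    ∀ β β' γ γ' : Bool, p.1.1 = .x o β → p.2.1 = .x o β' → q.1.1 = .x o' γ → q.2.1 = .x o' γ' →
    xor β β' = xor γ γ' := by
  induction k using Nat.strong_induction_on with
  | _ k ih =>
    intro o o' hk hle hocc s hs p hp q hq β β' γ γ' h1 h2 h3 h4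
    rcases hle.eq_or_lt with rfl | hlt
    · have := C.hP.eq s hs p hp q hq
      rw [Subtype.ext_iff, Subtype.ext_iff, h1, h2, h3, h4] at this
      revert this
      cases β <;> cases β' <;> cases γ <;> cases γ' <;> simp
    · have hv : o' < 3 * N := by have := q.1.2; rwa [h3] at this
      obtain ⟨i, hi, hnx⟩ := exists_nxt hlt (by rw [C.hE]; exact hv) hocc
      have hm := C.hm
      have hs2 : P {p, q} := C.hP.sub _ _ hs (by
        intro z hz
        simp only [Finset.mem_insert, Finset.mem_singleton] at hz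
        rcases hz with rfl | rfl <;> assumption)
      obtain ⟨r, hr, hr1, hr2⟩ := C.place hs2 (lt_of_le_of_lt Finset.card_le_two (by omega))
        (.p o false) (show o < 3 * N by omega)
      obtain ⟨δ, hδ⟩ := loc_p hr2
      obtain ⟨t, ht, ht1, ht2⟩ := C.place hr (lt_of_le_of_lt Finset.card_le_three (by omega))
        (.x i false) (show i < 3 * N by omega)
      obtain ⟨ε, hε⟩ := loc_x ht2
      have e1 := C.adj ht (p := r) (q := p) (by simp) (by simp)
      rw [hr1, h1, hδ, h2, adj_px _ (Or.inl rfl), adj_px _ (Or.inl rfl)] at e1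
      have e2 := C.adj ht (p := r) (q := t) (by simp) (by simp)
      rw [hr1, ht1, hδ, hε, adj_px _ (Or.inr ((nxt_hom E _ _).2 hnx)), adj_px _ (Or.inr hnx)] at e2
      have e3 := ih (o' - i) (by have := hnx.1; omega) i o' rfl hi (hocc.trans hnx.2.2.1.symm) _ ht
        t (by simp) q (by simp) _ _ _ _ ht1 hε h3 h4
      rw [← xor_eq e1, xor_eq e2, e3]

theorem Ctx.same (C : Ctx E N n m P) {o o' : ℕ} (hocc : occ E o' = occ E o)
    {s : Finset (VV N n × VV N n)} (hs : P s) {p q : VV N n × VV N n} (hp : p ∈ s) (hq : q ∈ s)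
    {β β' γ γ' : Bool} (h1 : p.1.1 = .x o β) (h2 : p.2.1 = .x o β') (h3 : q.1.1 = .x o' γ)
    (h4 : q.2.1 = .x o' γ') : xor β β' = xor γ γ' := by
  rcases le_total o o' with h | h
  · exact C.same_le _ o o' rfl h hocc s hs p hp q hq _ _ _ _ h1 h2 h3 h4
  · exact (C.same_le _ o' o rfl h hocc.symm s hs q hq p hp _ _ _ _ h3 h4 h1 h2).symm

/-- The variables of `S` are pebbled in `s` with differences `δ`. -/
def Lab (E : List (Eqn V)) (s : Finset (VV N n × VV N n)) (S : Finset V) (δ : V → Bool) : Prop :=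
  ∀ y ∈ S, ∃ p ∈ s, ∃ o β β', occ E o = y ∧ p.1.1 = .x o β ∧ p.2.1 = .x o β' ∧ δ y = xor β β'

omit [DecidableEq V] in
theorem Lab.mono {s s' : Finset (VV N n × VV N n)} {S S' : Finset V} {δ : V → Bool}
    (h : Lab E s S δ) (hs : s ⊆ s') (hS : S' ⊆ S) : Lab E s' S' δ := fun y hy =>
  let ⟨p, hp, h'⟩ := h y (hS hy); ⟨p, hs hp, h'⟩

theorem Ctx.restrict (C : Ctx E N n m P) {s : Finset (VV N n × VV N n)} (hs : P s) {T : Finset V}
    {δ : V → Bool} (h : Lab E s T δ) : ∃ s', P s' ∧ s'.card ≤ T.card ∧ Lab E s' T δ := by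
  choose f hf hf' using h
  refine ⟨T.attach.image fun y => f y.1 y.2, C.hP.sub _ _ hs ?_, ?_, fun y hy => ⟨f y hy, ?_, hf' y hy⟩⟩
  · intro z hz
    obtain ⟨y, _, rfl⟩ := Finset.mem_image.1 hz
    exact hf _ _
  · exact Finset.card_image_le.trans (by simp)
  · exact Finset.mem_image.2 ⟨⟨y, hy⟩, Finset.mem_attach _ _, rfl⟩

theorem Ctx.extend (C : Ctx E N n m P) {s : Finset (VV N n × VV N n)} (hs : P s) {T : Finset V}
    {δ : V → Bool} (h : Lab E s T δ) (U : Finset V) : (T ∪ U).card ≤ m →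
    (∀ y ∈ U, ∃ o < 3 * E.length, occ E o = y) →
    ∃ s' δ', P s' ∧ s'.card ≤ (T ∪ U).card ∧ Lab E s' (T ∪ U) δ' ∧ ∀ y ∈ T, δ' y = δ y := by
  induction U using Finset.induction_on with
  | empty =>
    intro _ _
    obtain ⟨s', h1, h2, h3⟩ := C.restrict hs h
    exact ⟨s', δ, h1, by simpa using h2, by simpa using h3, fun _ _ => rfl⟩
  | insert y U _ ih =>
    intro hc ho
    rw [Finset.union_insert] at hc ⊢
    obtain ⟨s', δ', h1, h2, h3, h4⟩ := ih
      ((Finset.card_le_card (Finset.subset_insert _ _)).trans hc)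
      (fun z hz => ho z (Finset.mem_insert_of_mem hz))
    by_cases hy : y ∈ T ∪ U
    · rw [Finset.insert_eq_of_mem hy]
      exact ⟨s', δ', h1, h2, h3, h4⟩
    · rw [Finset.card_insert_of_notMem hy] at hc ⊢
      obtain ⟨o, ho1, ho2⟩ := ho y (Finset.mem_insert_self _ _)
      obtain ⟨r, hr, hr1, hr2⟩ := C.place h1 (by omega) (.x o false)
        (show o < 3 * N by rw [← C.hE]; exact ho1)
      obtain ⟨d, hd⟩ := loc_x hr2
      refine ⟨insert r s', Function.update δ' y d, hr, (Finset.card_insert_le _ _).trans (by omega),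
        ?_, ?_⟩
      · intro z hz
        rcases Finset.mem_insert.1 hz with rfl | hz'
        · exact ⟨r, Finset.mem_insert_self _ _, o, false, d, ho2, hr1, hd, by simp⟩
        · obtain ⟨p, hp, o', β, β', g1, g2, g3, g4⟩ := h3 z hz'
          refine ⟨p, Finset.mem_insert_of_mem hp, o', β, β', g1, g2, g3, ?_⟩
          rw [Function.update_of_ne (by rintro rfl; exact hy hz'), g4]
      · intro z hz
        rw [Function.update_of_ne (by rintro rfl; exact hy (Finset.mem_union_left _ hz)), h4 z hz]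

theorem Ctx.slot (C : Ctx E N n m P) {s : Finset (VV N n × VV N n)} (hs : P s) (hc : s.card ≤ 4)
    {e l : ℕ} (hl : l < 3) {r : VV N n × VV N n} (hr : r ∈ s) {β₀ β₁ : Bool}
    (hr1 : r.1.1 = .g e false false) (hr2 : r.2.1 = .g e β₀ β₁) {S : Finset V} {δ : V → Bool}
    (h : Lab E s S δ) (hy : occ E (3 * e + l) ∈ S) :
    δ (occ E (3 * e + l)) = gbit E e β₀ β₁ l := by
  have he : e < N := by have := r.1.2; rwa [hr1] at this
  have hm := C.hm
  obtain ⟨a, ha, ha1, ha2⟩ := C.place hs (by omega) (.a (3 * e + l) false)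
    (show 3 * e + l < 3 * N by omega)
  obtain ⟨d, hd⟩ := loc_a ha2
  obtain ⟨x, hx, hx1, hx2⟩ := C.place ha (lt_of_le_of_lt (Finset.card_insert_le _ _) (by omega))
    (.x (3 * e + l) false) (show 3 * e + l < 3 * N by omega)
  obtain ⟨d', hd'⟩ := loc_x hx2
  have e1 := C.adj hx (p := a) (q := r) (by simp) (by simp [hr])
  rw [ha1, hr1, hd, hr2, adj_ag _ _ _ hl, adj_ag _ _ _ hl] at e1
  have e1' : gbit (hom E) e false false l = false := by
    simp [gbit, eqn_hom]
  rw [e1'] at e1
  have e2 := C.adj hx (p := x) (q := a) (by simp) (by simp)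
  rw [hx1, ha1, hd', hd, adj_xa, adj_xa] at e2
  obtain ⟨p, hp, o, β, β', g1, g2, g3, g4⟩ := h _ hy
  have e3 := C.same g1 hx (p := x) (q := p) (by simp) (by simp [hp]) hx1 hd' g2 g3
  rw [g4, ← e3]
  have e4 : d = gbit E e β₀ β₁ l := by simpa using e1
  have e5 : d = d' := by simpa using e2
  rw [← e4, e5]
  simp

omit [DecidableEq V] [Inhabited V] in
theorem form_support [DecidableEq V] (q : Eqn V) :
    (form q).support ⊆ {q.1, q.2.1, q.2.2.1} := by
  intro y hy
  by_contra hne
  simp only [Finset.mem_insert, Finset.mem_singleton, not_or] at hne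
  obtain ⟨h1, h2, h3⟩ := hne
  rw [Finsupp.mem_support_iff] at hy
  apply hy
  simp [form, h1, h2, h3]

theorem Ctx.der (C : Ctx E N n m P) {w : ℕ} (hw : 3 ≤ w) (hm : 2 * w ≤ m) {F : V →₀ ZMod 2}
    {c : ZMod 2} (hF : Der E w F c) : ∀ (s : Finset (VV N n × VV N n)), P s → ∀ δ : V → Bool,
    Lab E s F.support δ → ev F (fun y => bz2 (δ y)) = c := by
  induction hF with
  | zero => intro _ _ _ _; simp [ev]
  | ax q hq =>
    intro s hs δ h
    have hsub := form_support q
    have hU : (form q).support ∪ {q.1, q.2.1, q.2.2.1} = {q.1, q.2.1, q.2.2.1} :=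
      Finset.union_eq_right.2 hsub
    obtain ⟨s', δ', h1, h2, h3, h4⟩ := C.extend hs h {q.1, q.2.1, q.2.2.1}
      (by rw [hU]; exact Finset.card_le_three.trans (by omega))
      (fun y hy => occurs hq (by simpa using hy))
    rw [hU] at h2 h3
    have h2' : s'.card ≤ 3 := h2.trans Finset.card_le_three
    rw [ev_congr (δ' := fun y => bz2 (δ' y)) _ (fun y hy => by rw [h4 y hy]), ev_form]
    obtain ⟨e, he, rfl⟩ := exists_eqn hq
    obtain ⟨r, hr, hr1, hr2⟩ := C.place h1 (by omega) (.g e false false)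
      (show e < N by rw [← C.hE]; exact he)
    obtain ⟨β₀, β₁, hb⟩ := loc_g hr2
    have hc : (insert r s').card ≤ 4 := (Finset.card_insert_le _ _).trans (by omega)
    have h3' := h3.mono (Finset.subset_insert r s') subset_rfl
    have k0 := C.slot hr hc (l := 0) (by omega) (Finset.mem_insert_self _ _) hr1 hb h3'
      (by rw [occ0]; simp)
    have k1 := C.slot hr hc (l := 1) (by omega) (Finset.mem_insert_self _ _) hr1 hb h3'
      (by rw [occ1]; simp)
    have k2 := C.slot hr hc (l := 2) (by omega) (Finset.mem_insert_self _ _) hr1 hb h3'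
      (by rw [occ2]; simp)
    rw [occ0] at k0
    rw [occ1] at k1
    rw [occ2] at k2
    simp only [k0, k1, k2, gbit]
    generalize (eqn E e).2.2.2 = b
    cases β₀ <;> cases β₁ <;> cases b <;> decide
  | @add F F' c c' hF hF' _ ih ih' =>
    intro s hs δ h
    have hU : (F + F').support ∪ (F.support ∪ F'.support) = F.support ∪ F'.support :=
      Finset.union_eq_right.2 Finsupp.support_add
    have c1 := hF.card_le hw
    have c2 := hF'.card_le hw
    obtain ⟨s', δ', h1, _, h3, h4⟩ := C.extend hs h (F.support ∪ F'.support)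
      (by rw [hU]; exact (Finset.card_union_le _ _).trans (by omega))
      (fun y hy => by
        rcases Finset.mem_union.1 hy with hy | hy
        · obtain ⟨q, hq, h⟩ := hF.mem_support hy
          exact occurs hq h
        · obtain ⟨q, hq, h⟩ := hF'.mem_support hy
          exact occurs hq h)
    rw [hU] at h3
    rw [ev_congr (δ' := fun y => bz2 (δ' y)) _ (fun y hy => by rw [h4 y hy]), ev_add,
      ih s' h1 δ' (h3.mono subset_rfl Finset.subset_union_left),
      ih' s' h1 δ' (h3.mono subset_rfl Finset.subset_union_right)]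

omit [DecidableEq V] [Inhabited V] in
theorem der_nil {w : ℕ} {F : V →₀ ZMod 2} {c : ZMod 2} (h : Der ([] : List (Eqn V)) w F c) :
    c = 0 := by
  induction h with
  | zero => rfl
  | ax q hq => simp at hq
  | add _ _ _ h1 h2 => rw [h1, h2, add_zero]

theorem Ctx.rigid_x (C : Ctx E N n m P) {w : ℕ} (hw : 3 ≤ w) (hm : 2 * w ≤ m)
    (hZ : AllZero E w) {s : Finset (VV N n × VV N n)} (hs : P s) {p : VV N n × VV N n}
    (hp : p ∈ s) {o : ℕ} {β β' : Bool} (h1 : p.1.1 = .x o β) (h2 : p.2.1 = .x o β') : β = β' := by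
  have ho : o < 3 * N := by have := p.1.2; rwa [h1] at this
  have hd : Der E w (Finsupp.single (occ E o) 1) 0 := by
    obtain ⟨z1, z2, z3⟩ := hZ _ (eqn_mem (E := E) (e := o / 3) (by rw [C.hE]; omega))
    unfold occ
    split_ifs <;> assumption
  have := C.der hw hm hd s hs (fun _ => xor β β') (fun y hy => by
    have hy' := Finset.mem_singleton.1 (Finsupp.support_single_subset hy)
    exact ⟨p, hp, o, β, β', hy'.symm, h1, h2, rfl⟩)
  rw [ev, Finsupp.sum_single_index (by simp), one_mul] at this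
  revert this
  cases β <;> cases β' <;> decide

theorem Ctx.rigid_a (C : Ctx E N n m P) {w : ℕ} (hw : 3 ≤ w) (hm : 2 * w ≤ m)
    (hZ : AllZero E w) {s : Finset (VV N n × VV N n)} (hs : P s) {p : VV N n × VV N n}
    (hp : p ∈ s) {o : ℕ} {β β' : Bool} (h1 : p.1.1 = .a o β) (h2 : p.2.1 = .a o β') : β = β' := by
  have ho : o < 3 * N := by have := p.1.2; rwa [h1] at this
  have hs1 : P {p} := C.hP.sub _ _ hs (by simpa using hp)
  obtain ⟨x, hx, hx1, hx2⟩ := C.place hs1 (by simp; omega) (.x o β) ho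
  obtain ⟨d, hd⟩ := loc_x hx2
  have e1 := C.rigid_x hw hm hZ hx (Finset.mem_insert_self _ _) hx1 hd
  have e2 := C.adj hx (p := x) (q := p) (by simp) (by simp)
  rw [hx1, h1, hd, h2, adj_xa, adj_xa, ← e1] at e2
  have : β' = β := by simpa using e2
  exact this.symm

theorem Ctx.rigid (C : Ctx E N n m P) {w : ℕ} (hw : 3 ≤ w) (hm : 2 * w ≤ m)
    (hZ : AllZero E w) {a b : VV N n} (h : P {(a, b)}) : a = b := by
  have hl := C.loc h (Finset.mem_singleton_self _)
  have hmem := Finset.mem_singleton_self (a, b)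
  apply Subtype.ext
  simp only at hl
  rcases ha : a.1 with o | o | o | ⟨o, β⟩ | ⟨o, β⟩ | ⟨o, β⟩ | ⟨e, β₀, β₁⟩ | j <;> rw [ha] at hl
  · rcases hb : b.1 with _ | _ | _ | _ | _ | _ | _ | _ <;> simp [hb, Vx.loc] at hl ⊢; exact hl
  · rcases hb : b.1 with _ | _ | _ | _ | _ | _ | _ | _ <;> simp [hb, Vx.loc] at hl ⊢; exact hl
  · rcases hb : b.1 with _ | _ | _ | _ | _ | _ | _ | _ <;> simp [hb, Vx.loc] at hl ⊢; exact hl
  · obtain ⟨γ, hγ⟩ := loc_p hl
    have ho : o < 3 * N := by have := a.2; rwa [ha] at this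
    obtain ⟨x, hx, hx1, hx2⟩ := C.place h (by simp; omega) (.x o β) ho
    obtain ⟨d, hd⟩ := loc_x hx2
    have e1 := C.rigid_x hw hm hZ hx (Finset.mem_insert_self _ _) hx1 hd
    have e2 := C.adj hx (p := (a, b)) (q := x) (by simp) (by simp)
    simp only at e2
    rw [hx1, ha, hd, hγ, adj_px _ (Or.inl rfl), adj_px _ (Or.inl rfl), ← e1] at e2
    have : β = γ := by simpa using e2
    rw [hγ, this]
  · obtain ⟨γ, hγ⟩ := loc_x hl
    rw [hγ, C.rigid_x hw hm hZ h hmem ha hγ]
  · obtain ⟨γ, hγ⟩ := loc_a hl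
    rw [hγ, C.rigid_a hw hm hZ h hmem ha hγ]
  · obtain ⟨γ₀, γ₁, hγ⟩ := loc_g hl
    have he : e < N := by have := a.2; rwa [ha] at this
    have key : ∀ l < 3, gbit (hom E) e β₀ β₁ l = gbit E e γ₀ γ₁ l := by
      intro l hl
      obtain ⟨x, hx, hx1, hx2⟩ := C.place h (by simp; omega)
        (.a (3 * e + l) (gbit (hom E) e β₀ β₁ l)) (show 3 * e + l < 3 * N by omega)
      obtain ⟨d, hd⟩ := loc_a hx2
      have e1 := C.rigid_a hw hm hZ hx (Finset.mem_insert_self _ _) hx1 hd
      have e2 := C.adj hx (p := x) (q := (a, b)) (by simp) (by simp)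
      simp only at e2
      rw [hx1, ha, hd, hγ, adj_ag _ _ _ hl, adj_ag _ _ _ hl, ← e1] at e2
      simpa using e2
    have k0 := key 0 (by omega)
    have k1 := key 1 (by omega)
    simp only [gbit, if_true, one_ne_zero, if_false] at k0 k1
    rw [hγ, k0, k1]
  · rcases hb : b.1 with _ | _ | _ | _ | _ | _ | _ | _ <;> simp [hb, Vx.loc] at hl ⊢; exact hl

end Grd

/-- Main lemma. For a position `s` of the strategy and a labelling of the variables `y` of `F` by
pebbled pairs `(x (o y) (β y), x (o y) (β' y))` with `occ E (o y) = y`, the differences of the bits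
satisfy the equation. Steps: (1) along an edge between two pair locations (`p o — x o`,
`p o — x o'` with `Nxt`, `x o — a o`) pebbled simultaneously the difference is the same (locations
by `gr_loc`, adjacency by `Strat.adj`); (2) hence two pebbled `x`-vertices of the same variable have
the same difference (induction along `exists_nxt`, keeping two pebbles and moving two more, using
`Strat.sub` to drop and `Strat.ext` to place); (3) axiom: restrict to the at most three given pairs,
pebble `g e false false`, then for each slot the neighbour `a (3e+l) _` and `x (3e+l) _`, the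
differences of the three slots add up to the right-hand side; (4) sum: restrict `s` to the pairs
for `(F + F').support`, place pebbles on `x (first occurrence) false` for the remaining variables of
`F.support ∪ F'.support` (`Der.mem_support`; at most `2 w` pebbles), apply both hypotheses. -/
theorem gr_der {E : List (Eqn V)} {N n m w : ℕ} (hE : E.length = N) (hN : 0 < N)
    (hn : 31 * N + 1 ≤ n) (hw : 3 ≤ w) (hm : 2 * w + 8 ≤ m)
    {P : Finset (VV N n × VV N n) → Prop}
    (hP : Strat m (adjS (hom E) N n) (adjS E N n) P) {F : V →₀ ZMod 2} {c : ZMod 2}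
    (hF : Der E w F c) (s : Finset (VV N n × VV N n)) (hs : P s) (o : V → ℕ) (β β' : V → Bool)
    (ho : ∀ y ∈ F.support, occ E (o y) = y ∧
      ∃ p ∈ s, p.1.1 = .x (o y) (β y) ∧ p.2.1 = .x (o y) (β' y)) :
    ev F (fun y => bz2 (xor (β y) (β' y))) = c :=
  (Grd.Ctx.mk hE hN hn (by omega) hP).der hw (by omega) hF s hs (fun y => xor (β y) (β' y))
    fun y hy => let ⟨h1, p, hp, h2, h3⟩ := ho y hy; ⟨p, hp, _, _, _, h1, h2, h3, rfl⟩

/-- Apply `gr_der` to `F = 0`, `s = ∅` (`E ≠ []` since something nonzero is derived). -/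
theorem gam_nogame {E : List (Eqn V)} {w m n : ℕ} (h : Der E w 0 1) (hw : 3 ≤ w)
    (hm : 2 * w + 8 ≤ m) (hn : 31 * E.length + 1 ≤ n) :
    ¬ Game m (gam (hom E) n) (gam E n) := by
  intro hG
  have hN : 0 < E.length := by
    rw [List.length_pos_iff]
    rintro rfl
    exact one_ne_zero (Grd.der_nil h)
  have hn' : 31 * E.length ≤ n := by omega
  obtain ⟨P, hP⟩ := (Game.congr (decE _ n hn') (decE _ n hn') (adjS_decE (length_hom E) hn')
    (adjS_decE rfl hn')).1 hG
  have := (Grd.Ctx.mk rfl hN hn (by omega) hP).der hw (by omega) h ∅ hP.empty (fun _ => false)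
    (fun y hy => by simp at hy)
  simp [ev] at this

/-- `gr_der` for `hom E` and `F = single y 1` gives difference `0` at every `x o`; then at `p o`, `a o`
(neighbours), at `g e` (its neighbours `a (3e)`, `a (3e+1)` determine its bits); the other locations
are single vertices (`gr_loc`). -/
theorem gam_rigid {E : List (Eqn V)} {w m n : ℕ} (hE : E ≠ []) (h : AllZero (hom E) w)
    (hw : 3 ≤ w) (hm : 2 * w + 8 ≤ m) (hn : 31 * E.length + 1 ≤ n) :
    Rigid m (gam (hom E) n) := by
  have hN : 0 < E.length := List.length_pos_iff.2 hE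
  have hn' : 31 * E.length ≤ n := by omega
  refine Rigid.congr (G := adjS (hom E) E.length n) (decE _ n hn').symm (fun a b => ?_) ?_
  · rw [← adjS_decE (length_hom E) hn', Equiv.apply_symm_apply, Equiv.apply_symm_apply]
  · intro P hP a b hab
    exact (Grd.Ctx.mk (E := hom E) (m := m) (length_hom E) hN hn (by omega)
      (by rw [hom_hom]; exact hP)).rigid hw (by omega) h hab

theorem gam_noiso {E : List (Eqn V)} {w n : ℕ} (h : Der E w 0 1)
    (hn : 31 * E.length + 1 ≤ n) : ¬ AdjIso (gam (hom E) n) (gam E n) := fun hi =>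
  gam_nogame (h.mono (Nat.le_add_right w 3)) (by omega) le_rfl hn (game_of_iso _ hi)

end Crest.Agent.R290
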