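import Crest.Agent.R290.Defs

/-!
Row 290, task PRM: the moduli.
-/

set_option autoImplicit false

namespace Crest.Agent.R290

theorem prm_count (N : ℕ) (hN : 2 ≤ N) : N ≤ Nat.count Nat.Prime (N ^ 3) + 2 := by
  have h3 : 8 ≤ N ^ 3 := by
    calc 8 = 2 ^ 3 := by norm_num
      _ ≤ N ^ 3 := Nat.pow_le_pow_left hN 3
  obtain ⟨n, hn⟩ : ∃ n, N ^ 3 = n + 1 := ⟨N ^ 3 - 1, by omega⟩
  have h1 := Chebyshev.pi_ge n
  have hN' : (2 : ℝ) ≤ N := by exact_mod_cast hN
  have hn' : (n : ℝ) + 1 = (N : ℝ) ^ 3 := by exact_mod_cast hn.symm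
  have hn1 : (1 : ℝ) < n := by exact_mod_cast (show 1 < n by omega)
  have hlog : 0 < Real.log n := Real.log_pos hn1
  have h2 : Real.log n ≤ 3 * Real.log N := by
    have : Real.log n ≤ Real.log ((N : ℝ) ^ 3) := Real.log_le_log (by linarith) (by linarith)
    rwa [Real.log_pow] at this
  have h4 : Real.log N ≤ N - 1 := Real.log_le_sub_one_of_pos (by linarith)
  have h5 := Real.log_two_gt_d9
  have h6 : (N : ℝ) - 2 ≤ (n * Real.log 2 - Real.log (n + 1)) / Real.log n := by
    rw [le_div_iff₀ hlog, hn', Real.log_pow]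
    have h7 : ((N : ℝ) - 2) * Real.log n ≤ ((N : ℝ) - 2) * (3 * Real.log N) :=
      mul_le_mul_of_nonneg_left h2 (by linarith)
    have h8 : ((N : ℝ) - 1) * Real.log N ≤ ((N : ℝ) - 1) * (N - 1) :=
      mul_le_mul_of_nonneg_left h4 (by linarith)
    have h9 : (n : ℝ) * 0.6 ≤ n * Real.log 2 := mul_le_mul_of_nonneg_left (by linarith) (by linarith)
    have h10 : 0 ≤ ((N : ℝ) - 1) * (N - 2) ^ 2 := mul_nonneg (by linarith) (sq_nonneg _)
    push_cast
    nlinarith
  have h7 : (N : ℝ) ≤ (Nat.primeCounting n : ℝ) + 2 := by linarith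
  rw [hn]
  exact_mod_cast h7

/-- There are at least `B + R` primes below `(B + R + 2) ^ 3` (a Chebyshev-type bound, e.g. from
`Nat.four_pow_lt_mul_centralBinom` with `Nat.factorization_choose_le_log`/
`Nat.prod_pow_factorization_centralBinom`, giving `4 ^ n ≤ n * (2 n) ^ π(2 n)`, or from
`Mathlib/NumberTheory/Chebyshev.lean`), and fewer than `B` of them are below `B`. -/
theorem length_primesFrom (B R : ℕ) : (primesFrom B R).length = R := by
  rw [primesFrom, List.length_take, ← List.countP_eq_length_filter]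
  refine min_eq_left ?_
  have h1 := prm_count (B + R + 2) (by omega)
  have h2 : Nat.count Nat.Prime ((B + R + 2) ^ 3) ≤
      B + Nat.count (fun q => B ≤ q ∧ q.Prime) ((B + R + 2) ^ 3) := by
    rw [Nat.count_eq_card_filter_range, Nat.count_eq_card_filter_range]
    refine le_trans (Finset.card_le_card (t := Finset.range B ∪
      (Finset.range ((B + R + 2) ^ 3)).filter fun q => B ≤ q ∧ q.Prime) ?_)
      ((Finset.card_union_le _ _).trans (by rw [Finset.card_range]))
    intro q hq
    simp only [Finset.mem_filter, Finset.mem_union, Finset.mem_range] at hq ⊢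
    by_cases hB : q < B
    · exact Or.inl hB
    · exact Or.inr ⟨hq.1, by omega, hq.2⟩
  have h3 : Nat.count (fun q => B ≤ q ∧ q.Prime) ((B + R + 2) ^ 3) =
      List.countP (fun q => decide (B ≤ q ∧ q.Prime)) (List.range ((B + R + 2) ^ 3)) := rfl
  omega

theorem nodup_primesFrom (B R : ℕ) : (primesFrom B R).Nodup := by
  exact ((List.nodup_range).filter _).sublist (List.take_sublist _ _)

theorem mem_primesFrom {B R q : ℕ} (h : q ∈ primesFrom B R) :
    B ≤ q ∧ q.Prime ∧ q < (B + R + 2) ^ 3 := by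
  have h1 := List.mem_filter.1 (List.mem_of_mem_take h)
  have h2 := of_decide_eq_true h1.2
  exact ⟨h2.1, h2.2, List.mem_range.1 h1.1⟩

theorem cmp_card_le (Q : Par) (ζ : ℕ →₀ ZMod 2) :
    (Q.cmp ζ).support.card ≤ ζ.support.card * Q.R := by
  classical
  have h1 : ∀ m, (Q.chi m).support.card ≤ Q.R := by
    intro m
    refine (Finset.card_le_card Finsupp.support_finsetSum).trans
      (Finset.card_biUnion_le.trans ?_)
    refine (Finset.sum_le_card_nsmul _ _ 1 fun i _ =>
      (Finset.card_le_card Finsupp.support_single_subset).trans (by simp)).trans (by simp)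
  rw [Par.cmp, Finsupp.linearCombination_apply, Finsupp.sum]
  refine (Finset.card_le_card Finsupp.support_finsetSum).trans (Finset.card_biUnion_le.trans ?_)
  exact (Finset.sum_le_card_nsmul _ _ Q.R fun m _ =>
    (Finset.card_le_card Finsupp.support_smul).trans (h1 m)).trans (by simp)

/-- A nonzero difference `δ < B ^ r` is divisible by fewer than `r` of the primes (their product
divides `δ`); at most `10 ^ 6 * r ≤ R / 2` coordinates divide some difference of two elements of the
support; on every other coordinate `i` the positions `(i, m % md i)` are distinct and all in the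
support of `cmp ζ`. -/
theorem spread_of_primes (Q : Par) {B r M : ℕ} (hB : 2 ≤ B) (hp : Q.p = primesFrom B Q.R)
    (hM : M ≤ B ^ r) (hr : 2000000 * r ≤ Q.R) : Q.Spread M := by
  classical
  intro ζ hζ hc
  have hlen : Q.p.length = Q.R := by rw [hp, length_primesFrom]
  have hmd : ∀ i (hi : i < Q.R), Q.md i = Q.p[i]'(by omega) := fun i hi => by
    rw [Par.md, List.getD_eq_getElem]
  have hmem : ∀ i < Q.R, B ≤ Q.md i ∧ (Q.md i).Prime := fun i hi => by
    have : Q.md i ∈ primesFrom B Q.R := by rw [hmd i hi, ← hp]; exact List.getElem_mem _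
    exact ⟨(mem_primesFrom this).1, (mem_primesFrom this).2.1⟩
  have hinj : ∀ i < Q.R, ∀ j < Q.R, Q.md i = Q.md j → i = j := fun i hi j hj h => by
    rw [hmd i hi, hmd j hj] at h
    exact (List.Nodup.getElem_inj_iff (by rw [hp]; exact nodup_primesFrom _ _)).1 h
  have hpair : ∀ m m', m < m' → m' < M →
      ((Finset.range Q.R).filter fun i => m % Q.md i = m' % Q.md i).card ≤ r := by
    intro m m' hlt hM'
    set S := (Finset.range Q.R).filter fun i => m % Q.md i = m' % Q.md i with hS
    have hSR : ∀ i ∈ S, i < Q.R := fun i hi => Finset.mem_range.1 (Finset.mem_filter.1 hi).1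
    have h1 : ∏ i ∈ S, Q.md i ∣ m' - m := by
      refine Finset.prod_dvd_of_isRelPrime (fun i hi j hj hij => ?_) fun i hi => ?_
      · exact Nat.coprime_iff_isRelPrime.1 ((Nat.coprime_primes (hmem i (hSR i hi)).2
          (hmem j (hSR j hj)).2).2 fun h => hij (hinj i (hSR i hi) j (hSR j hj) h))
      · exact (Nat.modEq_iff_dvd' hlt.le).1 (Finset.mem_filter.1 hi).2
    have h2 : B ^ S.card ≤ ∏ i ∈ S, Q.md i :=
      Finset.pow_card_le_prod S _ _ fun i hi => (hmem i (hSR i hi)).1
    have h3 : B ^ S.card < B ^ r := by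
      have := Nat.le_of_dvd (by omega) h1
      omega
    exact ((Nat.pow_lt_pow_iff_right (by omega)).1 h3).le
  set bad := (ζ.support ×ˢ ζ.support).biUnion fun p =>
    (Finset.range Q.R).filter fun i => p.1 < p.2 ∧ p.1 % Q.md i = p.2 % Q.md i with hbad
  have hbc : bad.card ≤ 1000000 * r := by
    refine Finset.card_biUnion_le.trans ((Finset.sum_le_card_nsmul _ _ r fun p hp' => ?_).trans ?_)
    · by_cases hlt : p.1 < p.2
      · refine le_trans (Finset.card_le_card fun i hi => ?_)
          (hpair p.1 p.2 hlt (hζ _ (Finset.mem_product.1 hp').2))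
        exact Finset.mem_filter.2 ⟨(Finset.mem_filter.1 hi).1, (Finset.mem_filter.1 hi).2.2⟩
      · simp [hlt]
    · rw [Finset.card_product, smul_eq_mul]
      exact Nat.mul_le_mul_right _ (Nat.mul_le_mul hc hc)
  set good := Finset.range Q.R \ bad with hgood
  have hgc : Q.R ≤ 2 * good.card := by
    have := Finset.le_card_sdiff bad (Finset.range Q.R)
    rw [Finset.card_range, ← hgood] at this
    omega
  have hg : ∀ i ∈ good, ∀ m ∈ ζ.support, ∀ m' ∈ ζ.support, m % Q.md i = m' % Q.md i → m = m' := by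
    intro i hi m hm m' hm' h
    obtain ⟨hi1, hi2⟩ := Finset.mem_sdiff.1 hi
    by_contra hne
    rcases Nat.lt_or_gt_of_ne hne with hlt | hlt
    · exact hi2 (Finset.mem_biUnion.2 ⟨(m, m'), Finset.mem_product.2 ⟨hm, hm'⟩,
        Finset.mem_filter.2 ⟨hi1, hlt, h⟩⟩)
    · exact hi2 (Finset.mem_biUnion.2 ⟨(m', m), Finset.mem_product.2 ⟨hm', hm⟩,
        Finset.mem_filter.2 ⟨hi1, hlt, h.symm⟩⟩)
  have hchi : ∀ i < Q.R, ∀ m a, Q.chi m (i, a) = if m % Q.md i = a then 1 else 0 := by
    intro i hi m a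
    rw [Par.chi, Finsupp.finsetSum_apply, Finset.sum_eq_single_of_mem i (Finset.mem_range.2 hi)]
    · simp [Finsupp.single_apply]
    · intro j _ hj
      simp [hj]
  have hcard : (good ×ˢ ζ.support).card ≤ (Q.cmp ζ).support.card := by
    refine Finset.card_le_card_of_injOn (fun p => (p.1, p.2 % Q.md p.1)) (fun p hp' => ?_) ?_
    · obtain ⟨h1, h2⟩ := Finset.mem_product.1 (Finset.mem_coe.1 hp')
      have hi : p.1 < Q.R := Finset.mem_range.1 (Finset.mem_sdiff.1 h1).1
      refine Finset.mem_coe.2 (Finsupp.mem_support_iff.2 ?_)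
      rw [Par.cmp, Finsupp.linearCombination_apply, Finsupp.sum, Finsupp.finsetSum_apply,
        Finset.sum_eq_single_of_mem p.2 h2]
      · simpa [hchi _ hi] using h2
      · intro m hm hne
        have : m % Q.md p.1 ≠ p.2 % Q.md p.1 := fun h => hne (hg _ h1 _ hm _ h2 h)
        simp [hchi _ hi, this]
    · intro p hp' q hq h
      obtain ⟨h1, h2⟩ := Finset.mem_product.1 (Finset.mem_coe.1 hp')
      obtain ⟨-, h4⟩ := Finset.mem_product.1 (Finset.mem_coe.1 hq)
      simp only [Prod.mk.injEq] at h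
      refine Prod.ext h.1 (hg _ h1 _ h2 _ h4 ?_)
      rw [h.2, h.1]
  rw [Finset.card_product] at hcard
  calc ζ.support.card * Q.R ≤ ζ.support.card * (2 * good.card) := Nat.mul_le_mul_left _ hgc
    _ = 2 * (good.card * ζ.support.card) := by ring
    _ ≤ _ := Nat.mul_le_mul_left _ hcard

end Crest.Agent.R290
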