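import Crest.Agent.R290.SBas

/-!
Row 290, task S-AX: the axioms satisfy the invariant; the invariant excludes `0 = 1`.
-/

set_option autoImplicit false

namespace Crest.Agent.R290

theorem Fx_zero (s e : ℕ) : Fx 0 s e = 0 := by ext α; simp

theorem Fy_zero (π j : ℕ) : Fy 0 π j = 0 := by ext α; simp

theorem Fx_single_x (s' e' i r s e : ℕ) : Fx (Finsupp.single (Var.x s' e' i r) 1) s e =
    if s' = s ∧ e' = e then Finsupp.single (i, r) 1 else 0 := by
  ext ⟨a, b⟩
  split_ifs with h
  · obtain ⟨rfl, rfl⟩ := h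
    simp [Finsupp.single_apply]
  · simp only [Fx_apply, Finsupp.coe_zero, Pi.zero_apply]
    refine Finsupp.single_eq_of_ne' fun h' => h ?_
    simp only [Var.x.injEq] at h'
    exact ⟨h'.1, h'.2.1⟩

theorem Fy_single_y (π' j' i r π j : ℕ) : Fy (Finsupp.single (Var.y π' j' i r) 1) π j =
    if π = π' ∧ j = j' then Finsupp.single (i, r) 1 else 0 := by
  ext ⟨a, b⟩
  split_ifs with h
  · obtain ⟨rfl, rfl⟩ := h
    simp [Finsupp.single_apply]
  · simp only [Fy_apply, Finsupp.coe_zero, Pi.zero_apply]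
    refine Finsupp.single_eq_of_ne' fun h' => h ?_
    simp only [Var.y.injEq] at h'
    exact ⟨h'.1.symm, h'.2.1.symm⟩

theorem Fx_single_o (s e : ℕ) : Fx (Finsupp.single Var.o 1) s e = 0 := by ext α; simp

theorem Fx_single_y (π j i r s e : ℕ) : Fx (Finsupp.single (Var.y π j i r) 1) s e = 0 := by
  ext α; simp

theorem Fx_single_z (e' i s e : ℕ) : Fx (Finsupp.single (Var.z e' i) 1) s e = 0 := by
  ext α; simp

theorem Fy_single_o (π j : ℕ) : Fy (Finsupp.single Var.o 1) π j = 0 := by ext α; simp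

theorem Fy_single_x (s e i r π j : ℕ) : Fy (Finsupp.single (Var.x s e i r) 1) π j = 0 := by
  ext α; simp

theorem Fy_single_z (e i π j : ℕ) : Fy (Finsupp.single (Var.z e i) 1) π j = 0 := by
  ext α; simp

namespace Par

variable {Q : Par} {M w : ℕ}

theorem inb_zero (s e : ℕ) : Q.inb (fun _ _ => 0) s e = 0 := by
  simp [inb, two]

theorem chn_zero (s e : ℕ) : Q.chn (fun _ _ => 0) s e = 0 := by
  simp [chn]

theorem near_zero (s b : ℕ) : Q.Near s 0 b := ⟨0, Tr.zero s, (map_zero _).symm, by simp⟩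

/-- The inputs, position by position. -/
theorem inb_eq (T : ℕ → ℕ → Pv) (s e : ℕ) : Q.inb T s e =
    ∑ π ∈ Finset.range Q.NP, ∑ j ∈ Finset.range Q.len,
      if Q.psig π (j / Q.bl) = s ∧ Q.wire (3 * π + j / Q.bl) (Q.upos (j % Q.bl)) = e then T π j
      else 0 := by
  unfold inb
  refine Finset.sum_congr rfl fun π _ => ?_
  rw [sum_len]
  refine Finset.sum_congr rfl fun l _ => Finset.sum_congr rfl fun u hu => ?_
  have h1 := Q.inp_left (π := π) (l := l) (i := 0) (r := 0) (Finset.mem_range.1 hu)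
  have h2 := Q.inp_right (π := π) (l := l) (i := 0) (r := 0) (Finset.mem_range.1 hu)
  simp only [inp, Var.x.injEq, and_true] at h1 h2
  rw [h1.1, h1.2, h2.1, h2.2]
  split_ifs
  · rfl
  · simp

theorem Fy_Y (π j i r : ℕ) {π' j' : ℕ} (h0 : 0 < j') (h1 : j' < Q.len) :
    Fy (Finsupp.single (Q.Y π j i r) 1) π' j' =
      if π' = π ∧ j' = j then Finsupp.single (i, r) 1 else 0 := by
  unfold Y
  by_cases hj : j = 0
  · rw [if_pos hj, if_neg (by omega)]
    unfold pout
    split_ifs
    · exact Fy_single_o ..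
    · exact Fy_single_x ..
    · exact Fy_single_x ..
    · exact Fy_single_o ..
  · rw [if_neg hj]
    by_cases hj' : j = Q.len
    · rw [if_pos hj', if_neg (by omega), Fy_single_o]
    · rw [if_neg hj', Fy_single_y]

theorem Y_ne_z (π j i r e i' : ℕ) : Q.Y π j i r ≠ Var.z e i' := by
  unfold Y pout
  split_ifs <;> simp

theorem Fx_Y_pos (π i r s e : ℕ) {j : ℕ} (hj : j ≠ 0) :
    Fx (Finsupp.single (Q.Y π j i r) 1) s e = 0 := by
  unfold Y
  rw [if_neg hj]
  split_ifs
  · exact Fx_single_o ..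
  · exact Fx_single_y ..

theorem Fx_pout (π i r s e : ℕ) :
    Fx (Finsupp.single (Q.pout π i r) 1) s e = Q.om π s e (Finsupp.single (i, r) 1) := by
  unfold pout om
  by_cases h0 : π = 0
  · rw [if_pos h0, if_neg (fun h => h.1 h0), Fx_single_o]
  · rw [if_neg h0]
    by_cases hr : Q.Reg π
    · simp only [if_pos hr, Fx_single_x, Finsupp.mapDomain_single, shf, ne_eq, h0,
        not_false_eq_true, true_and]
    · simp only [if_neg hr, ne_eq, h0, not_false_eq_true, true_and]
      by_cases hi : i = Q.pc π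
      · rw [if_pos hi, Fx_single_x, Finsupp.filter_single_of_pos]
        exact hi
      · rw [if_neg hi, Fx_single_o, Finsupp.filter_single_of_neg]
        · simp
        · exact hi

theorem single_Z (e i : ℕ) {e' i' : ℕ} (h0 : 0 < i') (h1 : i' < Q.R) :
    (Finsupp.single (Q.Z e i) (1 : ZMod 2)) (Var.z e' i') = if e' = e ∧ i' = i then 1 else 0 := by
  unfold Z
  by_cases h : i = 0 ∨ i = Q.R
  · rw [if_pos h, if_neg (by omega)]
    simp
  · rw [if_neg h, Finsupp.single_apply]
    simp only [Var.z.injEq, eq_comm]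

theorem inv_zero (Q : Par) (w : ℕ) : Q.Inv w 0 0 := by
  refine ⟨fun _ _ => 0, fun _ _ => 0, fun _ _ => 0, ⟨fun π _ j _ _ => ?_, fun e i _ _ => ?_,
    fun s e => ?_, rfl⟩, fun s e => ⟨Tr.zero s, by simp⟩, fun π _ l _ => ?_⟩
  · simp [Fy_zero]
  · simp
  · simp [Fx_zero, om_zero, inb_zero, chn_zero]
  · simp [near_zero]

/-- `T = 0`, `t = 0`, `η = 0`. -/
theorem cert_o (Q : Par) :
    Q.Cert (form (Var.o, Var.o, Var.o, false)) 0 (fun _ _ => 0) (fun _ _ => 0) (fun _ _ => 0) := by
  refine ⟨fun π _ j _ _ => ?_, fun e i _ _ => ?_, fun s e => ?_, rfl⟩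
  · simp [form, Fy_add, Fy_single_o]
  · simp [form]
  · simp [form, Fx_add, Fx_single_o, om_zero, inb_zero, chn_zero]

theorem cert_link {e i : ℕ} (hi : i < Q.R) :
    Q.Cert (form (Q.link e i)) 0 (fun _ _ => 0) (fun e' i' => if e' = e ∧ i' = i then 1 else 0)
      (fun _ _ => 0) := by
  have hy : ∀ i' π j, Fy (Finsupp.single (Q.Z e i') 1) π j = 0 := by
    intro i' π j
    unfold Z
    split_ifs
    · exact Fy_single_o ..
    · exact Fy_single_z ..
  have hx : ∀ i' s e', Fx (Finsupp.single (Q.Z e i') 1) s e' = 0 := by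
    intro i' s e'
    unfold Z
    split_ifs
    · exact Fx_single_o ..
    · exact Fx_single_z ..
  refine ⟨fun π _ j _ _ => ?_, fun e' i' h0 h1 => ?_, fun s e' => ?_, rfl⟩
  · simp only [form, link, Fy_add, hy, Fy_single_x]
    simp
  · simp only [form, link, Finsupp.add_apply, single_Z _ _ h0 h1]
    have h2 : (i' - 1 = i) ↔ (i' = i + 1) := by omega
    simp only [h2]
    rw [Finsupp.single_eq_of_ne (by simp), add_zero, add_comm]
  · simp only [form, link, Fx_add, hx, Fx_single_x, map_zero, om_zero, Finset.sum_const_zero,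
      inb_zero, zero_add, add_zero, chn]
    by_cases hs : s = 0
    · subst hs
      by_cases he : e' = e
      · subst he
        simp only [true_and, if_true]
        rw [Finset.sum_eq_single i]
        · simp
        · intro b _ hb; simp [hb]
        · intro h; exact absurd (Finset.mem_range.2 hi) h
      · simp [he, Ne.symm he]
    · simp [hs, Ne.symm hs]

/-- Position `j` is `bl * l + u` or `bl * l + (L ^ 2 + tr u)` for exactly one `(l, u)` (`inp_left`,
`inp_right`, or evaluate `inb` through `sum_len`); the output variable enters only for `j = 0`. -/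
theorem cert_step (hQ : Q.Ok) {π j i r : ℕ} (hπ : π < Q.NP) (hj : j < Q.len) :
    Q.Cert (form (Q.step true π j i r)) (bz2 (Q.step true π j i r).2.2.2)
      (fun π' j' => if π' = π ∧ j' = j then Finsupp.single (i, r) 1 else 0) (fun _ _ => 0)
      (fun _ _ => 0) := by
  have _ := hQ
  refine ⟨fun π' _ j' h0 h1 => ?_, fun e i' _ _ => ?_, fun s e => ?_, ?_⟩
  · simp only [form, step, Fy_add, Fy_Y _ _ _ _ h0 h1, inp, Fy_single_x, add_zero]
    have h2 : (j' - 1 = j) ↔ (j' = j + 1) := by omega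
    simp only [h2]
    rw [add_comm]
  · simp only [form, step, Finsupp.add_apply, inp]
    rw [Finsupp.single_eq_of_ne' (Y_ne_z _ _ _ _ _ _), Finsupp.single_eq_of_ne' (Y_ne_z _ _ _ _ _ _),
      Finsupp.single_eq_of_ne (by simp)]
    simp
  · simp only [form, step, Fx_add, Fx_Y_pos _ _ _ _ _ (Nat.succ_ne_zero j), map_zero, zero_add,
      add_zero, chn_zero]
    congr 1
    · rw [Finset.sum_eq_single π]
      · by_cases hj0 : j = 0
        · subst hj0
          simp only [and_self, if_true, Y, Fx_pout]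
        · rw [Fx_Y_pos _ _ _ _ _ hj0, if_neg (fun h => hj0 h.2.symm), om_zero]
      · intro b _ hb
        rw [if_neg (fun h => hb h.1), om_zero]
      · intro h; exact absurd (Finset.mem_range.2 hπ) h
    · rw [inb_eq, Finset.sum_eq_single π, Finset.sum_eq_single j]
      · simp only [inp, Fx_single_x, and_self, if_true]
      · intro b _ hb
        rw [if_neg (fun h : π = π ∧ b = j => hb h.2), ite_self]
      · intro h; exact absurd (Finset.mem_range.2 hj) h
      · intro b _ hb
        refine Finset.sum_eq_zero fun j' _ => ?_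
        rw [if_neg (fun h : b = π ∧ j' = j => hb h.1), ite_self]
      · intro h; exact absurd (Finset.mem_range.2 hπ) h
  · simp only [step, Bool.true_and, bz2, decide_eq_true_eq]
    by_cases h : π = 0 ∧ j = 0
    · obtain ⟨rfl, rfl⟩ := h
      simp [Finsupp.single_apply]
    · rw [if_neg (fun h' => h ⟨h'.1, h'.2.1⟩), if_neg (fun h' => h ⟨h'.1.symm, h'.2.symm⟩)]
      rfl

/-- At most one position of a block is exceptional and `1 ≤ theta w`. -/
theorem inv_ax (hQ : Q.Ok) (w : ℕ) {q : Eqn Var} (hq : q ∈ Q.sys true) :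
    Q.Inv w (form q) (bz2 q.2.2.2) := by
  classical
  rcases mem_sys.1 hq with rfl | ⟨e, _, i, hi, rfl⟩ | ⟨π, hπ, j, hj, i, _, r, _, rfl⟩
  · exact ⟨_, _, _, cert_o Q, fun s e => ⟨Tr.zero s, by simp⟩, fun π _ l _ => by simp [near_zero]⟩
  · exact ⟨_, _, _, cert_link hi, fun s e => ⟨Tr.zero s, by simp⟩,
      fun π _ l _ => by simp [near_zero]⟩
  · refine ⟨_, _, _, cert_step hQ hπ hj, fun s e => ⟨Tr.zero s, by simp⟩, fun π' _ l _ => ?_⟩
    have h1 : 1 ≤ theta w := by
      unfold theta
      have : 0 < (w + 2) ^ 2 := by positivity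
      omega
    refine le_trans (Finset.card_le_card (t := {j - Q.bl * l}) fun j' hj' => ?_) (by simpa using h1)
    have h2 := (Finset.mem_filter.1 hj').2
    by_contra h3
    rw [Finset.mem_singleton] at h3
    rw [if_neg (fun h => h3 (by omega))] at h2
    exact h2 (near_zero _ _)

/-- For `F = 0` path `0` is constant, and a good position of its first block gives `T 0 _ = 0`
(`psig 0 0 = 1`, `theta w < bl`). -/
theorem not_inv (H : Q.Hyp M w) : ¬ Q.Inv w 0 1 := by
  classical
  rintro ⟨T, t, η, hc, -, hb⟩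
  have hNP : 0 < Q.NP := Nat.succ_pos _
  have hJ : Q.J 0 0 = 0 := by simp [J, Fy_zero]
  have hlt : theta w < Q.bl := by
    have := H.hL
    have h2 : Q.L ≤ Q.L ^ 2 := Nat.le_self_pow (by norm_num) _
    unfold bl; omega
  have h1 := hb 0 hNP 0 (by omega)
  have h2 : ∃ j ∈ Finset.range Q.bl, Q.Near (Q.psig 0 0) (T 0 (Q.bl * 0 + j)) (6 * Q.J 0 0) := by
    by_contra hcon
    push Not at hcon
    rw [Finset.filter_true_of_mem hcon, Finset.card_range] at h1
    omega
  obtain ⟨j, hj, ζ, h3, h4, -⟩ := h2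
  have h5 : Q.psig 0 0 = 1 := if_neg (fun h => h.1 rfl)
  rw [h5] at h3
  rw [H.tr_one h3, map_zero] at h4
  have hj' := pos_lt (Q := Q) (l := 0) (by omega) (Finset.mem_range.1 hj)
  have h6 := hc.const hNP hJ (Nat.zero_lt_of_lt hj') hj'
  have h7 := hc.c
  rw [h6, h4] at h7
  exact one_ne_zero h7

end Par

end Crest.Agent.R290
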