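import Crest.Agent.R290.SAdd
import Crest.Agent.R290.SAx

/-!
Row 290: no narrow refutation when the program does not accept.
-/

set_option autoImplicit false

namespace Crest.Agent.R290

theorem Par.inv_of_der {Q : Par} {M w : ℕ} (H : Q.Hyp M w) {F : Var →₀ ZMod 2} {c : ZMod 2}
    (h : Der (Q.sys true) w F c) : Q.Inv w F c := by
  induction h with
  | zero => exact Par.inv_zero Q w
  | ax q hq => exact Par.inv_ax H.ok w hq
  | add h1 h2 hs ih1 ih2 => exact Par.inv_add H ih1 ih2 (h1.card_le H.w3) (h2.card_le H.w3) hs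

theorem Par.no_refute {Q : Par} (hQ : Q.Ok) {M w : ℕ} (hM : ∀ s m, Holds Q.P s m → s ≠ 1 ∧ m < M)
    (hS : Q.Spread M) (hw3 : 3 ≤ w) (hw : w ≤ 13 * Q.R) (hL : 2 * theta w < Q.L) :
    ¬ Der (Q.sys true) w 0 1 := fun h =>
  have H : Q.Hyp M w := ⟨hQ, hM, hS, hw3, hw, hL⟩
  Par.not_inv H (Par.inv_of_der H h)

end Crest.Agent.R290
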