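import Crest.Agent.R290.GrEq
import Crest.Agent.R290.GrDer
import Crest.Agent.R290.Comp
import Crest.Agent.R290.Primes
import Crest.Agent.R290.Sound

/-!
Row 290, task CORE: the reduction.
-/

set_option autoImplicit false

namespace Crest.Agent.R290

open Crest.WLRefine Crest.Agent.PT Crest.Agent.QC Crest.Agent.R317

theorem md_mkPar (code : Code) (x : List Bool) (k B i : ℕ) :
    0 < (mkPar code x k B).md i ∧ (mkPar code x k B).md i ≤ (B + (k - 16) / 4 + 2) ^ 3 := by
  unfold Par.md
  rw [List.getD_eq_getElem?_getD]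
  cases h : (mkPar code x k B).p[i]? with
  | none => exact ⟨by simp, Nat.one_le_pow _ _ (by omega)⟩
  | some q =>
    have hq : q ∈ primesFrom B ((k - 16) / 4) := List.mem_of_getElem? h
    have := mem_primesFrom hq
    exact ⟨this.2.1.pos, this.2.2.le⟩

theorem sig_le (ρ : Rule) (S : ℕ) (h0 : ρ.2.1 < S) (h1 : ρ.2.2.1 < S) (h2 : ρ.2.2.2.1 < S) (l : ℕ) :
    ρ.sig l < S := by
  unfold Rule.sig; split_ifs <;> assumption

theorem mkPar_ok {τ : Type} {M : Mach (Option τ)} {code : Code} (hc : CodeOf M code)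
    (x : List Bool) {k : ℕ} (hk : C0 ≤ k) (B : ℕ) : (mkPar code x k B).Ok := by
  obtain ⟨h10, hb, -⟩ := hc
  refine ⟨?_, by simp [mkPar], ?_, by simp [mkPar], fun i => (md_mkPar code x k B i).1⟩
  · intro ρ hρ
    change ρ ∈ horn code x _ at hρ
    change ρ.1 < code.1 + x.length + 2 ∧ ∀ l, ρ.sig l < code.1 + x.length + 2
    unfold horn at hρ
    rcases List.mem_append.mp hρ with h | h
    · obtain ⟨σ, hσ, rfl⟩ := List.mem_map.mp h
      obtain ⟨a, b, c, d⟩ := hb σ hσ
      exact ⟨by simp only [inst]; omega, sig_le _ _ (by simp only [inst]; omega)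
        (by simp only [inst]; omega) (by simp only [inst]; omega)⟩
    · unfold inRules at h
      obtain ⟨j, hj, h⟩ := List.mem_flatMap.mp h
      have hj' := List.mem_range.mp hj
      have e1 : inS code.1 j < code.1 + x.length + 2 := by unfold inS; split_ifs <;> omega
      have e2 : inS code.1 (j + 1) < code.1 + x.length + 2 := by unfold inS; split_ifs <;> omega
      simp only [List.mem_cons, List.not_mem_nil, or_false] at h
      rcases h with rfl | rfl | rfl | rfl | rfl
      all_goals refine ⟨?_, sig_le _ _ e1 e1 e1⟩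
      all_goals simp only [rule1]
      · exact e2
      · split_ifs <;> omega
      · omega
      · split_ifs <;> omega
      · split_ifs <;> omega
  · change 0 < (k - 16) / 4
    unfold C0 at hk; omega

theorem length_horn (code : Code) (x : List Bool) (W : ℕ) :
    (horn code x W).length = code.2.length + 5 * (x.length + 1) := by
  simp [horn, inRules, List.length_flatMap, Nat.mul_comm]

theorem le_pow_add {a b B i j n : ℕ} (ha : a ≤ B ^ i) (hb : b ≤ B ^ j) (h : i + j = n) :
    a * b ≤ B ^ n := by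
  rw [← h, pow_add]; exact Nat.mul_le_mul ha hb

theorem le_pow_succ {a B i n c d : ℕ} (ha : a ≤ B ^ i) (hB : c + d ≤ B) (h : i + 1 = n) :
    c * a + d ≤ B ^ n := by
  rcases Nat.eq_zero_or_pos B with rfl | h0
  · have h1 : c = 0 := by omega
    have h2 : d = 0 := by omega
    simp [h1, h2]
  have h1 : 1 ≤ B ^ i := Nat.one_le_pow _ _ h0
  rw [← h, pow_succ]
  calc c * a + d ≤ c * B ^ i + d * B ^ i :=
        Nat.add_le_add (Nat.mul_le_mul_left _ ha) (Nat.le_mul_of_pos_right _ h1)
    _ = (c + d) * B ^ i := by ring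
    _ ≤ B * B ^ i := Nat.mul_le_mul_right _ hB
    _ = _ := by ring

theorem mkPar_size (code : Code) (x : List Bool) {k B : ℕ} (hk : C0 ≤ k)
    (hB : sz code + x.length + k ≤ B) (tw : Bool) :
    31 * ((mkPar code x k B).sys tw).length + 1 ≤ B ^ 50 := by
  set Q := mkPar code x k B with hQ
  unfold C0 at hk
  have hsz : sz code = 2 * code.1 + sz code.2 + 1 := by
    obtain ⟨a, b⟩ := code
    rw [sz_pair, sz_nat]
  have hl := length_le_sz code.2
  have hP : Q.P.length = code.2.length + 5 * (x.length + 1) := length_horn _ _ _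
  have hS : Q.S = code.1 + x.length + 2 := rfl
  have hR : Q.R = (k - 16) / 4 := rfl
  have hL : Q.L = 2 * theta (3 * (k + 1)) + 1 := rfl
  have hR1 : Q.R ≤ B ^ 1 := by rw [pow_one]; omega
  have hS1 : Q.S ≤ B ^ 1 := by rw [pow_one]; omega
  have hB2 : B ≤ B ^ 2 := Nat.le_self_pow (by norm_num) _
  have hK : Q.P.length + Q.S * Q.R ≤ B ^ 3 := by
    have e1 := le_pow_add hS1 hR1 (n := 2) rfl
    have e2 := le_pow_succ (a := B ^ 2) (c := 7) (d := 0) (n := 3) le_rfl (by omega) rfl
    omega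
  have hL3 : Q.L ≤ B ^ 3 := by
    have e1 : 3 * (k + 1) + 2 ≤ 4 * B := by omega
    have e2 : (3 * (k + 1) + 2) ^ 2 ≤ 16 * B ^ 2 := by
      calc _ ≤ (4 * B) ^ 2 := Nat.pow_le_pow_left e1 2
        _ = _ := by ring
    have e3 := le_pow_succ (a := B ^ 2) (c := 200) (d := 0) (n := 3) le_rfl (by omega) rfl
    rw [hL]; unfold theta
    omega
  have hL12 : Q.L ^ 4 ≤ B ^ 12 := by
    calc _ ≤ (B ^ 3) ^ 4 := Nat.pow_le_pow_left hL3 4
      _ = _ := by ring
  have hL6 : Q.L ^ 2 ≤ B ^ 6 := by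
    calc _ ≤ (B ^ 3) ^ 2 := Nat.pow_le_pow_left hL3 2
      _ = _ := by ring
  have hA : Q.A ≤ B ^ 16 := by
    have e1 := le_pow_add hK hL12 (n := 15) rfl
    have e2 := le_pow_succ (c := 3) (d := 3) (n := 16) e1 (by omega) rfl
    unfold Par.A
    rw [Nat.mul_assoc]; exact e2
  have hmu : Q.mu ≤ B ^ 28 := le_pow_add hL12 hA rfl
  have hNP : Q.NP ≤ B ^ 32 := by
    have e1 := le_pow_add hK hmu (n := 31) rfl
    have e2 := le_pow_succ (c := 1) (d := 1) (n := 32) e1 (by omega) rfl
    unfold Par.NP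
    omega
  have hlen : Q.len ≤ B ^ 7 := by
    have e2 := le_pow_succ (c := 6) (d := 0) (n := 7) hL6 (by omega) rfl
    unfold Par.len Par.bl
    omega
  have hmd : ∀ i < Q.R, Q.md i ≤ B ^ 4 := by
    intro i _
    refine (md_mkPar code x k B i).2.trans ?_
    have e1 : B + (k - 16) / 4 + 2 ≤ 2 * B := by omega
    have e3 := le_pow_succ (a := B ^ 3) (c := 8) (d := 0) (n := 4) le_rfl (by omega) rfl
    calc _ ≤ (2 * B) ^ 3 := Nat.pow_le_pow_left e1 3
      _ = 8 * B ^ 3 + 0 := by ring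
      _ ≤ _ := e3
  have h1 := Par.length_sys_le hmd tw
  have h2 : Q.NP * Q.len * Q.R * B ^ 4 ≤ B ^ 44 :=
    le_pow_add (le_pow_add (le_pow_add hNP hlen (n := 39) rfl) hR1 (n := 40) rfl) le_rfl rfl
  have h3 : Q.mu * Q.R ≤ B ^ 44 :=
    (le_pow_add hmu hR1 (n := 29) rfl).trans (Nat.pow_le_pow_right (by omega) (by norm_num))
  have h4 := le_pow_succ (a := B ^ 44) (c := 62) (d := 32) (n := 45) le_rfl (by omega) rfl
  have h5 : B ^ 45 ≤ B ^ 50 := Nat.pow_le_pow_right (by omega) (by norm_num)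
  omega

/-- `W = B ^ (k / C0)`, `R = (k - 16) / 4`. Accepting: width `2 R + 4`, `2 (2 R + 4) + 8 ≤ k`.
Rejecting: `M = (T + 1) W ≤ B ^ (2 (k / C0))`, `spread_of_primes`, `no_refute` at width
`3 (k + 1) ≤ 13 R`, `gam_game`, `always_refute` and `gam_noiso`. `hom_sys` identifies the first graph. -/
theorem core {τ : Type} {M : Mach (Option τ)} {code : Code} (hc : CodeOf M code)
    {x : List Bool} {k B n T : ℕ} {β : Bool} (hk : C0 ≤ k) (hB : sz code + x.length + k ≤ B)
    (hn : B ^ 50 ≤ n) (hM : M.Runs (st x) (st [β]) T) (hT : T + x.length + 3 ≤ B ^ (k / C0)) :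
    Outcome k n (grN code x k B false) (grN code x k B true) β := by
  have hok := mkPar_ok hc x hk B
  have hs0 := (mkPar_size code x hk hB false).trans hn
  have hs1 := (mkPar_size code x hk hB true).trans hn
  obtain ⟨hyes, hno⟩ := hc.2.2 x _ T β hM hT
  set Q := mkPar code x k B with hQ
  have hR : Q.R = (k - 16) / 4 := rfl
  have hL : Q.L = 2 * theta (3 * (k + 1)) + 1 := rfl
  have hk' := hk
  unfold C0 at hk'
  have e0 : cut n (grN code x k B false) = gam (hom (Q.sys true)) n := by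
    rw [Par.hom_sys]; rfl
  have e1 : cut n (grN code x k B true) = gam (Q.sys true) n := rfl
  refine ⟨gam_basic _ hs0, gam_basic _ hs1, fun hβ => ⟨?_, ?_⟩, fun hβ => ⟨?_, ?_⟩⟩
  · rw [e0, e1]
    exact gam_nogame (Par.yes_refute hok (hyes hβ)) (by omega) (by omega) hs1
  · rw [e0]
    refine gam_rigid (w := 2 * Q.R + 4) (by simp [Par.sys]) ?_ (by omega) (by omega) hs1
    rw [Par.hom_sys]
    exact Par.yes_zero hok (hyes hβ)
  · rw [e0, e1]
    refine gam_game (w := 3 * (k + 1)) ?_ le_rfl hs1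
    refine Par.no_refute hok (hno hβ) ?_ (by omega) (by omega) (by omega)
    refine spread_of_primes Q (B := B) (r := 2 * (k / C0)) (by omega) rfl ?_ ?_
    · rw [two_mul, pow_add]
      exact Nat.mul_le_mul_right _ (by omega)
    · unfold C0; omega
  · rw [e0, e1]
    obtain ⟨w, hw⟩ := Par.always_refute hok
    exact gam_noiso hw hs1

end Crest.Agent.R290
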