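import Crest.Agent.R290.Time
import Crest.Prelude.Def_WL
import Crest.Prelude.Def_ExpTime
import Crest.Prelude.Def_WordRAM

/-!
Row 290 (Weisfeiler-Leman equivalence): shared definitions.

Pipeline: machine run -> Horn program with shifts (`Holds`) -> system of three-term equations over
`ZMod 2` (`Par.sys`) -> pair of subcubic graphs (`gam`), compared through the bijective pebble game
(`Game`).
-/

set_option autoImplicit false

namespace Crest.Agent.R290

open Crest.WLRefine Crest.Agent.PT Crest.Agent.QC Crest.Agent.R317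

/-! ### The bijective pebble game -/

/-- `P` is a winning strategy of the second player in the bijective game with `m` pebble pairs:
a family of positions (finite sets of pebbled pairs), closed under subsets, consisting of partial
isomorphisms, with the bijective extension property below `m` pairs. -/
structure Strat {V W : Type} [DecidableEq V] [DecidableEq W] (m : ℕ) (G : V → V → Bool)
    (H : W → W → Bool) (P : Finset (V × W) → Prop) : Prop where
  empty : P ∅
  sub : ∀ s t, P t → s ⊆ t → P s
  eq : ∀ s, P s → ∀ p ∈ s, ∀ q ∈ s, (p.1 = q.1 ↔ p.2 = q.2)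
  adj : ∀ s, P s → ∀ p ∈ s, ∀ q ∈ s, G p.1 q.1 = H p.2 q.2
  ext : ∀ s, P s → s.card < m → ∃ e : V ≃ W, ∀ z, P (insert (z, e z) s)

/-- The second player wins the bijective game with `m` pebble pairs. -/
def Game {V W : Type} [DecidableEq V] [DecidableEq W] (m : ℕ) (G : V → V → Bool)
    (H : W → W → Bool) : Prop := ∃ P, Strat m G H P

/-- In the `m`-pebble game of `G` against itself the second player can only copy. -/
def Rigid {V : Type} [DecidableEq V] (m : ℕ) (G : V → V → Bool) : Prop :=
  ∀ P, Strat m G G P → ∀ a b, P {(a, b)} → a = b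

/-- A matrix on `ℕ` cut down to `Fin n`. -/
def cut (n : ℕ) (g : ℕ → ℕ → Bool) : Fin n → Fin n → Bool := fun v w => g v w

/-- Add the vertex `n`, adjacent to all others. -/
def cone (n : ℕ) (g : ℕ → ℕ → Bool) (v w : ℕ) : Bool :=
  if v = n ∨ w = n then decide (v ≠ w) else g v w

/-- The code of the graph `cut n g`. -/
def matCode (n : ℕ) (g : ℕ → ℕ → Bool) : Raw := ⟨adjMatrixCode (cut n g)⟩

/-! ### Three-term equations and narrow derivations -/

/-- The equation `a + b + c = β` (repeated variables allowed). -/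
abbrev Eqn (V : Type) : Type := V × V × V × Bool

/-- A bit as an element of `ZMod 2`. -/
def bz2 (β : Bool) : ZMod 2 := if β then 1 else 0

/-- The left-hand side of an equation as a linear form. -/
noncomputable def form {V : Type} (q : Eqn V) : V →₀ ZMod 2 :=
  Finsupp.single q.1 1 + Finsupp.single q.2.1 1 + Finsupp.single q.2.2.1 1

/-- `Der E w F c`: the equation `F = c` is derived from `E` by adding equations two at a time, every
sum having at most `w` variables. -/
inductive Der {V : Type} (E : List (Eqn V)) (w : ℕ) : (V →₀ ZMod 2) → ZMod 2 → Prop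
  | zero : Der E w 0 0
  | ax (q : Eqn V) : q ∈ E → Der E w (form q) (bz2 q.2.2.2)
  | add {F F' : V →₀ ZMod 2} {c c' : ZMod 2} : Der E w F c → Der E w F' c' →
      (F + F').support.card ≤ w → Der E w (F + F') (c + c')

/-- The homogeneous system with the same left-hand sides. -/
def hom {V : Type} (E : List (Eqn V)) : List (Eqn V) := E.map fun q => (q.1, q.2.1, q.2.2.1, false)

/-- Every variable of the system is derivably zero. -/
def AllZero {V : Type} (E : List (Eqn V)) (w : ℕ) : Prop :=
  ∀ q ∈ E, Der E w (Finsupp.single q.1 1) 0 ∧ Der E w (Finsupp.single q.2.1 1) 0 ∧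
    Der E w (Finsupp.single q.2.2.1 1) 0

/-! ### The graph of a system -/

/-- Vertices. Occurrence `o = 3 e + slot` has the single vertices `s o`, `b o`, `c o` and the pairs
`p o _`, `x o _`, `a o _`; equation `e` has the four vertices `g e _ _`; `t j` is the tail. -/
inductive Vx : Type
  | s (o : ℕ)
  | b (o : ℕ)
  | c (o : ℕ)
  | p (o : ℕ) (β : Bool)
  | x (o : ℕ) (β : Bool)
  | a (o : ℕ) (β : Bool)
  | g (e : ℕ) (β₀ β₁ : Bool)
  | t (j : ℕ)
  deriving DecidableEq

/-- The location of a vertex: forget the bits. -/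
def Vx.loc : Vx → Vx
  | .p o _ => .p o false
  | .x o _ => .x o false
  | .a o _ => .a o false
  | .g e _ _ => .g e false false
  | u => u

/-- The vertices present for `N` equations and `n` vertices in total. -/
def Vx.Valid (N n : ℕ) : Vx → Prop
  | .s o => o < 3 * N
  | .b o => o < 3 * N
  | .c o => o < 3 * N
  | .p o _ => o < 3 * N
  | .x o _ => o < 3 * N
  | .a o _ => o < 3 * N
  | .g e _ _ => e < N
  | .t j => 31 * N + j < n

/-- The vertex with role `r < 9` of the occurrence `o`. -/
def role (o r : ℕ) : Vx :=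
  if r = 0 then .s o else if r = 1 then .b o else if r = 2 then .c o
  else if r = 3 then .p o false else if r = 4 then .p o true
  else if r = 5 then .x o false else if r = 6 then .x o true
  else if r = 7 then .a o false else .a o true

/-- Numbering of the vertices: 31 for each of the `N` equations, then the tail. -/
def dec (N v : ℕ) : Vx :=
  if v < 31 * N then
    if v % 31 < 27 then role (3 * (v / 31) + v % 31 / 9) (v % 31 % 9)
    else .g (v / 31) (decide ((v % 31 - 27) % 2 = 1)) (decide ((v % 31 - 27) / 2 = 1))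
  else .t (v - 31 * N)

section Graph

variable {V : Type} [DecidableEq V] [Inhabited V]

/-- Equation number `e`. -/
def eqn (E : List (Eqn V)) (e : ℕ) : Eqn V := E.getD e (default, default, default, false)

/-- The variable of the occurrence `o`. -/
def occ (E : List (Eqn V)) (o : ℕ) : V :=
  if o % 3 = 0 then (eqn E (o / 3)).1 else if o % 3 = 1 then (eqn E (o / 3)).2.1
  else (eqn E (o / 3)).2.2.1

/-- `o'` is the next occurrence after `o` of the same variable. -/
def Nxt (E : List (Eqn V)) (o o' : ℕ) : Prop :=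
  o < o' ∧ o' < 3 * E.length ∧ occ E o' = occ E o ∧ ∀ i < o', o < i → occ E i ≠ occ E o

instance (E : List (Eqn V)) (o o' : ℕ) : Decidable (Nxt E o o') := by unfold Nxt; infer_instance

/-- The bit that the vertex `g e β₀ β₁` gives to slot `l` of equation `e`. -/
def gbit (E : List (Eqn V)) (e : ℕ) (β₀ β₁ : Bool) (l : ℕ) : Bool :=
  if l = 0 then β₀ else if l = 1 then β₁ else xor (xor β₀ β₁) (eqn E e).2.2.2

/-- Oriented edges. -/
def edge (E : List (Eqn V)) : Vx → Vx → Bool
  | .s o, .b o' => decide (o' = o)
  | .b o, .s o' => decide (o' = o + 1)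
  | .b o, .c o' => decide (o' = o)
  | .c o, .p o' _ => decide (o' = o)
  | .p o β, .x o' β' => decide ((o' = o ∨ Nxt E o o') ∧ β' = β)
  | .x o β, .a o' β' => decide (o' = o ∧ β' = β)
  | .a o β, .g e β₀ β₁ => decide (o / 3 = e ∧ β = gbit E e β₀ β₁ (o % 3))
  | .t j, .t j' => decide (j' = j + 1)
  | .t j, .s o => decide (j = 0 ∧ o = 0)
  | _, _ => false

theorem edge_anchor : True := by
  have := @edge.eq_def
  have := @edge.eq_1
  have := @edge.eq_2
  have := @edge.eq_3
  have := @edge.eq_4
  have := @edge.eq_5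
  have := @edge.eq_6
  have := @edge.eq_7
  have := @edge.eq_8
  have := @edge.eq_9
  have := @edge.eq_10
  have := @Vx.loc.eq_def
  have := @Vx.loc.eq_1
  have := @Vx.loc.eq_2
  have := @Vx.loc.eq_3
  have := @Vx.loc.eq_4
  have := @Vx.loc.eq_5
  have := @Vx.Valid.eq_def
  have := @Vx.Valid.eq_1
  have := @Vx.Valid.eq_2
  have := @Vx.Valid.eq_3
  have := @Vx.Valid.eq_4
  have := @Vx.Valid.eq_5
  have := @Vx.Valid.eq_6
  have := @Vx.Valid.eq_7
  have := @Vx.Valid.eq_8
  trivial

/-- Adjacency of vertices. -/
def adjV (E : List (Eqn V)) (u v : Vx) : Bool := edge E u v || edge E v u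

/-- The adjacency matrix on `ℕ`. -/
def gamN (E : List (Eqn V)) (v w : ℕ) : Bool := adjV E (dec E.length v) (dec E.length w)

/-- The graph of the system on `n` vertices (`n > 31 * E.length`). -/
def gam (E : List (Eqn V)) (n : ℕ) : Fin n → Fin n → Bool := cut n (gamN E)

end Graph

/-! ### Horn programs with shifts -/

/-- The rule `(h, s₀, s₁, s₂, d)`: signal `h` holds at `m + d` when `s₀`, `s₁`, `s₂` hold at `m`. -/
abbrev Rule : Type := ℕ × ℕ × ℕ × ℕ × Bin

/-- Premise number `l < 3`. -/
def Rule.sig (ρ : Rule) (l : ℕ) : ℕ := if l = 0 then ρ.2.1 else if l = 1 then ρ.2.2.1 else ρ.2.2.2.1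

/-- The shift. -/
def Rule.sh (ρ : Rule) : ℕ := ρ.2.2.2.2.val

/-- The least model: signal `0` holds at index `0`; signal `1` means acceptance. -/
inductive Holds (P : List Rule) : ℕ → ℕ → Prop
  | init : Holds P 0 0
  | rule (ρ : Rule) (m : ℕ) : ρ ∈ P → Holds P (ρ.sig 0) m → Holds P (ρ.sig 1) m →
      Holds P (ρ.sig 2) m → Holds P ρ.1 (m + ρ.sh)

/-- All signals of the program are below `S`. -/
def Bounded (P : List Rule) (S : ℕ) : Prop := ∀ ρ ∈ P, ρ.1 < S ∧ ∀ l, ρ.sig l < S

/-- A rule with a shift tag in place of the shift. -/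
abbrev TRule : Type := ℕ × ℕ × ℕ × ℕ × ℕ

/-- Shift tags `0, 1, 2, 3, 4` stand for `0, 1, W - 1, W, W + 1`. -/
def shiftOf (W τ : ℕ) : ℕ :=
  if τ = 0 then 0 else if τ = 1 then 1 else if τ = 2 then W - 1 else if τ = 3 then W else W + 1

/-- Instantiate the tag. -/
def inst (W : ℕ) (ρ : TRule) : Rule := (ρ.1, ρ.2.1, ρ.2.2.1, ρ.2.2.2.1, ⟨shiftOf W ρ.2.2.2.2⟩)

/-- A machine table: a bound for its signals and the tagged rules. -/
abbrev Code : Type := ℕ × List TRule

/-- The signal marking position `j` of the first row. -/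
def inS (S₀ j : ℕ) : ℕ := if j = 0 then 0 else S₀ + j

/-- A rule with one premise. -/
def rule1 (h s d : ℕ) : Rule := (h, s, s, s, ⟨d⟩)

/-- Rules writing the input `x` into the first row. Fixed signals: `2` left end, `3` not left end,
`4` not right end, `5` right end, `6` first row, `7, 8, 9` the input register shows nothing, `false`,
`true`. -/
def inRules (S₀ : ℕ) (x : List Bool) : List Rule :=
  (List.range (x.length + 1)).flatMap fun j =>
    [rule1 (inS S₀ (j + 1)) (inS S₀ j) 1,
     rule1 (if j < x.length then (if x.getD j false = true then 9 else 8) else 7) (inS S₀ j) 0,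
     rule1 6 (inS S₀ j) 0,
     rule1 (if j = 0 then 2 else 3) (inS S₀ j) 0,
     rule1 (if j < x.length then 4 else 5) (inS S₀ j) 0]

/-- The Horn program of a table on an input, for rows of width `W`. -/
def horn (code : Code) (x : List Bool) (W : ℕ) : List Rule :=
  code.2.map (inst W) ++ inRules code.1 x

/-! ### The compressed system -/

/-- Variables: the constant `o`, wires `x s e i r`, partial sums `y π j i r` along paths and
`z e i` along the initial chains. `(i, r)` is a position: coordinate `i`, residue `r`. -/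
inductive Var : Type
  | o
  | x (s e i r : ℕ)
  | y (π j i r : ℕ)
  | z (e i : ℕ)
  deriving DecidableEq

instance : Inhabited Var := ⟨Var.o⟩

/-- A variable as a tuple of numbers. -/
def Var.tup : Var → ℕ × ℕ × ℕ × ℕ × ℕ
  | .o => (0, 0, 0, 0, 0)
  | .x s e i r => (1, s, e, i, r)
  | .y π j i r => (2, π, j, i, r)
  | .z e i => (3, e, i, 0, 0)

instance encVar : Enc Var := ⟨fun v => enc v.tup⟩

/-- Parameters: program, number of signals, number of coordinates, grid side, moduli. -/
structure Par : Type where
  /-- the program -/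
  P : List Rule
  /-- bound for the signals -/
  S : ℕ
  /-- number of coordinates -/
  R : ℕ
  /-- side of the grids -/
  L : ℕ
  /-- the moduli -/
  p : List ℕ

instance encPar : Enc Par := ⟨fun Q => enc (Q.P, Q.S, Q.R, Q.L, Q.p)⟩

namespace Par

variable (Q : Par)

/-- Modulus of coordinate `i`. -/
def md (i : ℕ) : ℕ := Q.p.getD i 1

/-- Range of the line parameters. -/
def A : ℕ := 3 * (Q.P.length + Q.S * Q.R) * Q.L ^ 4 + 3

/-- Number of wires of each signal. -/
def mu : ℕ := Q.L ^ 4 * Q.A

/-- Number of paths: path `0` is twisted, path `1 + ρ * mu + g` belongs to rule index `ρ` and output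
wire `g`; rule indices from `Q.P.length` on are the projections `(s, i)`. -/
def NP : ℕ := (Q.P.length + Q.S * Q.R) * Q.mu + 1

/-- Length of a block. -/
def bl : ℕ := 2 * Q.L ^ 2

/-- Length of a path (three blocks). -/
def len : ℕ := 3 * Q.bl

/-- Rule index of a path. -/
def ridx (π : ℕ) : ℕ := (π - 1) / Q.mu

/-- Output wire of a path. -/
def gw (π : ℕ) : ℕ := (π - 1) % Q.mu

/-- The path belongs to a rule of the program. -/
def Reg (π : ℕ) : Prop := π ≠ 0 ∧ Q.ridx π < Q.P.length

instance (π : ℕ) : Decidable (Q.Reg π) := by unfold Reg; infer_instance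

/-- The rule of a regular path. -/
def rule (π : ℕ) : Rule := Q.P.getD (Q.ridx π) (0, 0, 0, 0, ⟨0⟩)

/-- Premise signal of block `l` of path `π`. -/
def psig (π l : ℕ) : ℕ := if Q.Reg π then (Q.rule π).sig l else 1

/-- Output signal of a path other than `0`. -/
def hd (π : ℕ) : ℕ := if Q.Reg π then (Q.rule π).1 else (Q.ridx π - Q.P.length) / Q.R

/-- The coordinate kept by a projection path. -/
def pc (π : ℕ) : ℕ := (Q.ridx π - Q.P.length) % Q.R

/-- Output variable of the copy `(i, r)` of path `π`. -/
def pout (π i r : ℕ) : Var :=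
  if π = 0 then .o
  else if Q.Reg π then .x (Q.hd π) (Q.gw π) i ((r + (Q.rule π).sh) % Q.md i)
  else if i = Q.pc π then .x (Q.hd π) (Q.gw π) i r else .o

/-- Transposition of the grid `L × L`. -/
def tr (u : ℕ) : ℕ := u % Q.L * Q.L + u / Q.L

/-- The grid point read at position `j < bl` of a block: row by row, then column by column. -/
def upos (j : ℕ) : ℕ := if j < Q.L ^ 2 then j else Q.tr (j - Q.L ^ 2)

/-- The wire at grid point `u` of block number `β`: blocks are lines. -/
def wire (β u : ℕ) : ℕ := u + Q.L ^ 2 * (β % Q.A + β / Q.A * u)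

/-- Input variable at position `j < len` of the copy `(i, r)` of path `π`. -/
def inp (π j i r : ℕ) : Var :=
  .x (Q.psig π (j / Q.bl)) (Q.wire (3 * π + j / Q.bl) (Q.upos (j % Q.bl))) i r

/-- Partial sum before position `j`. -/
def Y (π j i r : ℕ) : Var :=
  if j = 0 then Q.pout π i r else if j = Q.len then .o else .y π j i r

/-- Partial sums of the initial chain of wire `e`. -/
def Z (e i : ℕ) : Var := if i = 0 ∨ i = Q.R then .o else .z e i

/-- One step of a path. -/
def step (tw : Bool) (π j i r : ℕ) : Eqn Var :=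
  (Q.Y π j i r, Q.inp π j i r, Q.Y π (j + 1) i r,
    tw && decide (π = 0 ∧ j = 0 ∧ i = 0 ∧ r = 0))

/-- One step of an initial chain. -/
def link (e i : ℕ) : Eqn Var := (Q.Z e i, .x 0 e i 0, Q.Z e (i + 1), false)

/-- The system; `tw` switches the twist on. -/
def sys (tw : Bool) : List (Eqn Var) :=
  (.o, .o, .o, false) ::
    (((List.range Q.mu).flatMap fun e => (List.range Q.R).map fun i => Q.link e i) ++
      (List.range Q.NP).flatMap fun π => (List.range Q.len).flatMap fun j =>
        (List.range Q.R).flatMap fun i => (List.range (Q.md i)).map fun r => Q.step tw π j i r)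

/-- The vector of positions representing the index `m`. -/
noncomputable def chi (m : ℕ) : (ℕ × ℕ) →₀ ZMod 2 :=
  ∑ i ∈ Finset.range Q.R, Finsupp.single (i, m % Q.md i) 1

/-- Compression of formal sums of indices. -/
noncomputable def cmp : (ℕ →₀ ZMod 2) →ₗ[ZMod 2] ((ℕ × ℕ) →₀ ZMod 2) :=
  Finsupp.linearCombination (ZMod 2) Q.chi

/-- Short formal sums of indices below `M` keep their weight on half of the coordinates. -/
def Spread (M : ℕ) : Prop :=
  ∀ ζ : ℕ →₀ ZMod 2, (∀ m ∈ ζ.support, m < M) → ζ.support.card ≤ 1000 →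
    ζ.support.card * Q.R ≤ 2 * (Q.cmp ζ).support.card

/-- Basic conditions. -/
structure Ok : Prop where
  bdd : Bounded Q.P Q.S
  two : 2 ≤ Q.S
  R_pos : 0 < Q.R
  L_pos : 0 < Q.L
  md_pos : ∀ i, 0 < Q.md i

end Par

/-- Number of exceptional positions allowed in a block, for width `w`. -/
def theta (w : ℕ) : ℕ := 2 * (w + 2) ^ 2 + 12 * w

/-! ### The reduction -/

/-- The constant relating dimension and exponent. -/
def C0 : ℕ := 20000000

/-- The first `R` primes from `B` on (searched below `(B + R + 2) ^ 3`). -/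
def primesFrom (B R : ℕ) : List ℕ :=
  ((List.range ((B + R + 2) ^ 3)).filter fun q => decide (B ≤ q ∧ q.Prime)).take R

/-- Parameters for table `code`, input `x`, dimension `k` and size `B`. -/
def mkPar (code : Code) (x : List Bool) (k B : ℕ) : Par where
  P := horn code x (B ^ (k / C0))
  S := code.1 + x.length + 2
  R := (k - 16) / 4
  L := 2 * theta (3 * (k + 1)) + 1
  p := primesFrom B ((k - 16) / 4)

/-- The two graphs of the reduction (`tw = false`, `tw = true`) as matrices on `ℕ`. -/
def grN (code : Code) (x : List Bool) (k B : ℕ) (tw : Bool) : ℕ → ℕ → Bool :=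
  gamN ((mkPar code x k B).sys tw)

/-- What a table must satisfy for the machine `M`. -/
def CodeOf {τ : Type} (M : Mach (Option τ)) (code : Code) : Prop :=
  10 ≤ code.1 ∧ (∀ ρ ∈ code.2, ρ.1 < code.1 ∧ ρ.2.1 < code.1 ∧ ρ.2.2.1 < code.1 ∧
    ρ.2.2.2.1 < code.1) ∧
  ∀ (x : List Bool) (W T : ℕ) (β : Bool), M.Runs (st x) (st [β]) T → T + x.length + 3 ≤ W →
    (β = true → ∃ m₀, ∀ m ≥ m₀, Holds (horn code x W) 1 m) ∧
    (β = false → ∀ s m, Holds (horn code x W) s m → s ≠ 1 ∧ m < (T + 1) * W)

/-- The outcome of the reduction for the answer `β`. -/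
def Outcome (k n : ℕ) (g h : ℕ → ℕ → Bool) (β : Bool) : Prop :=
  SimpleConnSubcubic (cut n g) ∧ SimpleConnSubcubic (cut n h) ∧
  (β = true → ¬ Game k (cut n g) (cut n h) ∧ Rigid k (cut n g)) ∧
  (β = false → Game (k + 1) (cut n g) (cut n h) ∧ ¬ AdjIso (cut n g) (cut n h))

end Crest.Agent.R290
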