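import Crest.Agent.R290.PtSys

/-!
Row 290, task PTG: adjacency matrices in polynomial time.
-/

set_option autoImplicit false

namespace Crest.Agent.R290

open Crest.WLRefine Crest.Agent.PT Crest.Agent.QC Crest.Agent.R317

variable {α : Type} [Enc α]

/-- Equality of variables through `Var.tup` (injective). -/
theorem dt_var_eq {u v : α → Var} (hu : PT u) (hv : PT v) : DT (fun a => u a = v a) := by
  have ht : PT Var.tup := PT.reinterp fun _ => rfl
  have hu' : PT fun a => (u a).tup := ht.comp hu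
  have hv' : PT fun a => (v a).tup := ht.comp hv
  have h : DT fun a => (u a).tup.1 = (v a).tup.1 ∧ (u a).tup.2.1 = (v a).tup.2.1 ∧
      (u a).tup.2.2.1 = (v a).tup.2.2.1 ∧ (u a).tup.2.2.2.1 = (v a).tup.2.2.2.1 ∧
      (u a).tup.2.2.2.2 = (v a).tup.2.2.2.2 :=
    (DT.eq (BT.ofPT hu'.fst) (BT.ofPT hv'.fst)).and
      ((DT.eq (BT.ofPT hu'.snd.fst) (BT.ofPT hv'.snd.fst)).and
      ((DT.eq (BT.ofPT hu'.snd.snd.fst) (BT.ofPT hv'.snd.snd.fst)).and
      ((DT.eq (BT.ofPT hu'.snd.snd.snd.fst) (BT.ofPT hv'.snd.snd.snd.fst)).and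
      (DT.eq (BT.ofPT hu'.snd.snd.snd.snd) (BT.ofPT hv'.snd.snd.snd.snd)))))
  refine h.congr fun a => ?_
  cases u a <;> cases v a <;> simp [Var.tup]

/-- A vertex as a tuple: tag, index, two bits. -/
def Vx.ptup : Vx → ℕ × ℕ × Bool × Bool
  | .s o => (0, o, false, false)
  | .b o => (1, o, false, false)
  | .c o => (2, o, false, false)
  | .p o β => (3, o, β, false)
  | .x o β => (4, o, β, false)
  | .a o β => (5, o, β, false)
  | .g e β₀ β₁ => (6, e, β₀, β₁)
  | .t j => (7, j, false, false)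

/-- The tuple of `role o r`. -/
def roleT (o r : ℕ) : ℕ × ℕ × Bool × Bool :=
  if r = 0 then (0, o, false, false) else if r = 1 then (1, o, false, false)
  else if r = 2 then (2, o, false, false)
  else if r = 3 then (3, o, false, false) else if r = 4 then (3, o, true, false)
  else if r = 5 then (4, o, false, false) else if r = 6 then (4, o, true, false)
  else if r = 7 then (5, o, false, false) else (5, o, true, false)

/-- The tuple of `dec N v`. -/
def decT (N v : ℕ) : ℕ × ℕ × Bool × Bool :=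
  if v < 31 * N then
    if v % 31 < 27 then roleT (3 * (v / 31) + v % 31 / 9) (v % 31 % 9)
    else (6, v / 31, decide ((v % 31 - 27) % 2 = 1), decide ((v % 31 - 27) / 2 = 1))
  else (7, v - 31 * N, false, false)

theorem ptup_role (o r : ℕ) : (role o r).ptup = roleT o r := by
  unfold role roleT
  split_ifs <;> rfl

theorem ptup_dec (N v : ℕ) : (dec N v).ptup = decT N v := by
  unfold dec decT
  split_ifs
  · exact ptup_role _ _
  · rfl
  · rfl

theorem pt_roleT {o r : α → ℕ} (ho : PT o) (hr : PT r) : PT fun a => roleT (o a) (r a) := by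
  unfold roleT
  have h : ∀ (c : ℕ) (β : Bool), PT fun a => (c, o a, β, false) := fun c β =>
    (PT.const c).pair (ho.pair (PT.const _))
  exact PT.ite_eq hr (PT.const _) (h _ _) (PT.ite_eq hr (PT.const _) (h _ _)
    (PT.ite_eq hr (PT.const _) (h _ _) (PT.ite_eq hr (PT.const _) (h _ _)
    (PT.ite_eq hr (PT.const _) (h _ _) (PT.ite_eq hr (PT.const _) (h _ _)
    (PT.ite_eq hr (PT.const _) (h _ _) (PT.ite_eq hr (PT.const _) (h _ _) (h _ _))))))))

theorem pt_decT {N v : α → ℕ} (hN : PT N) (hv : PT v) : PT fun a => decT (N a) (v a) := by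
  unfold decT
  have h31 : PT fun a => 31 * N a := (PT.const 31).mul hN
  have hm : PT fun a => v a % 31 := hv.mod (PT.const 31)
  have hd : PT fun a => v a / 31 := hv.div (PT.const 31)
  have hs : PT fun a => v a % 31 - 27 := hm.sub (PT.const 27)
  exact PT.ite_lt hv h31
    (PT.ite_lt hm (PT.const 27)
      (pt_roleT (((PT.const 3).mul hd).add (hm.div (PT.const 9))) (hm.mod (PT.const 9)))
      ((PT.const 6).pair (hd.pair (((hs.mod (PT.const 2)).eq (PT.const 1)).pair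
        ((hs.div (PT.const 2)).eq (PT.const 1))))))
    ((PT.const 7).pair ((hv.sub h31).pair (PT.const _)))

/-- `edge` on tuples. -/
def EdgeT (E : List (Eqn Var)) (u v : ℕ × ℕ × Bool × Bool) : Prop :=
  (u.1 = 0 ∧ v.1 = 1 ∧ v.2.1 = u.2.1) ∨ (u.1 = 1 ∧ v.1 = 0 ∧ v.2.1 = u.2.1 + 1) ∨
  (u.1 = 1 ∧ v.1 = 2 ∧ v.2.1 = u.2.1) ∨ (u.1 = 2 ∧ v.1 = 3 ∧ v.2.1 = u.2.1) ∨
  (u.1 = 3 ∧ v.1 = 4 ∧ (v.2.1 = u.2.1 ∨ Nxt E u.2.1 v.2.1) ∧ v.2.2.1 = u.2.2.1) ∨
  (u.1 = 4 ∧ v.1 = 5 ∧ v.2.1 = u.2.1 ∧ v.2.2.1 = u.2.2.1) ∨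
  (u.1 = 5 ∧ v.1 = 6 ∧ u.2.1 / 3 = v.2.1 ∧
    u.2.2.1 = gbit E v.2.1 v.2.2.1 v.2.2.2 (u.2.1 % 3)) ∨
  (u.1 = 7 ∧ v.1 = 7 ∧ v.2.1 = u.2.1 + 1) ∨ (u.1 = 7 ∧ v.1 = 0 ∧ u.2.1 = 0 ∧ v.2.1 = 0)

theorem edge_iff_edgeT (E : List (Eqn Var)) (u v : Vx) :
    edge E u v = true ↔ EdgeT E u.ptup v.ptup := by
  cases u <;> cases v <;> simp [edge, EdgeT, Vx.ptup]

theorem pt_eqn {E : α → List (Eqn Var)} {e : α → ℕ} (hE : PT E) (he : PT e) :
    PT fun a => eqn (E a) (e a) := pt_getD hE he (PT.const _)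

theorem pt_occ {E : α → List (Eqn Var)} {o : α → ℕ} (hE : PT E) (ho : PT o) :
    PT fun a => occ (E a) (o a) := by
  unfold occ
  have hq := pt_eqn hE (ho.div (PT.const 3))
  have hm := ho.mod (PT.const 3)
  exact PT.ite_eq hm (PT.const 0) hq.fst (PT.ite_eq hm (PT.const 1) hq.snd.fst hq.snd.snd.fst)

theorem dt_nxt {E : α → List (Eqn Var)} {o o' : α → ℕ} (hE : PT E) (ho : PT o) (ho' : PT o') :
    DT fun a => Nxt (E a) (o a) (o' a) := by
  have h1 : PT fun q : α × ℕ => E q.1 := hE.comp PT.id'.fst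
  have h2 : PT fun q : α × ℕ => o q.1 := ho.comp PT.id'.fst
  have h3 : PT fun q : α × ℕ => q.2 := PT.id'.snd
  exact (DT.lt (BT.ofPT ho) (BT.ofPT ho')).and
    ((DT.lt (BT.ofPT ho') (BT.ofPT ((PT.const 3).mul (pt_length hE)))).and
    ((dt_var_eq (pt_occ hE ho') (pt_occ hE ho)).and
    (DT.all (p := fun a i => o a < i → occ (E a) i ≠ occ (E a) (o a)) ho'
      (dt_imp (DT.lt (BT.ofPT h2) (BT.ofPT h3)) (dt_var_eq (pt_occ h1 h3) (pt_occ h1 h2)).not))))

theorem pt_gbit {E : α → List (Eqn Var)} {e l : α → ℕ} {b₀ b₁ : α → Bool} (hE : PT E) (he : PT e)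
    (h0 : PT b₀) (h1 : PT b₁) (hl : PT l) : PT fun a => gbit (E a) (e a) (b₀ a) (b₁ a) (l a) := by
  unfold gbit
  exact PT.ite_eq hl (PT.const 0) h0 (PT.ite_eq hl (PT.const 1) h1
    ((h0.xor h1).xor (pt_eqn hE he).snd.snd.snd))

theorem dt_edgeT {E : α → List (Eqn Var)} {u v : α → ℕ × ℕ × Bool × Bool} (hE : PT E) (hu : PT u)
    (hv : PT v) : DT fun a => EdgeT (E a) (u a) (v a) := by
  have tu : ∀ c : ℕ, DT fun a => (u a).1 = c := fun c => DT.eq (BT.ofPT hu.fst) (BT.const c)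
  have tv : ∀ c : ℕ, DT fun a => (v a).1 = c := fun c => DT.eq (BT.ofPT hv.fst) (BT.const c)
  have iu : PT fun a => (u a).2.1 := hu.snd.fst
  have iv : PT fun a => (v a).2.1 := hv.snd.fst
  have e0 : DT fun a => (v a).2.1 = (u a).2.1 := DT.eq (BT.ofPT iv) (BT.ofPT iu)
  have e1 : DT fun a => (v a).2.1 = (u a).2.1 + 1 :=
    DT.eq (BT.ofPT iv) (BT.ofPT (iu.add (PT.const 1)))
  have eb : DT fun a => (v a).2.2.1 = (u a).2.2.1 := dt_beq hv.snd.snd.fst hu.snd.snd.fst
  exact ((tu 0).and ((tv 1).and e0)).or (((tu 1).and ((tv 0).and e1)).or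
    (((tu 1).and ((tv 2).and e0)).or (((tu 2).and ((tv 3).and e0)).or
    (((tu 3).and ((tv 4).and ((e0.or (dt_nxt hE iu iv)).and eb))).or
    (((tu 4).and ((tv 5).and (e0.and eb))).or
    (((tu 5).and ((tv 6).and ((DT.eq (BT.ofPT (iu.div (PT.const 3))) (BT.ofPT iv)).and
      (dt_beq hu.snd.snd.fst
        (pt_gbit hE iv hv.snd.snd.fst hv.snd.snd.snd (iu.mod (PT.const 3))))))).or
    (((tu 7).and ((tv 7).and e1)).or
    ((tu 7).and ((tv 0).and ((DT.eq (BT.ofPT iu) (BT.const 0)).and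
      (DT.eq (BT.ofPT iv) (BT.const 0))))))))))))

/-- Describe a vertex by numbers (tag, index, two bits), rewrite `edge E u v` as a formula in these
(`cases u <;> cases v <;> simp`), and compute the numbers of `dec N v` arithmetically (or give `Vx` an
`Enc` instance through the tuple). `Nxt` is a bounded quantifier (`DT.all`). -/
theorem pt_gamN {E : α → List (Eqn Var)} {v w : α → ℕ} (hE : PT E) (hv : PT v) (hw : PT w) :
    PT (fun a => gamN (E a) (v a) (w a)) := by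
  have h1 := pt_decT (pt_length hE) hv
  have h2 := pt_decT (pt_length hE) hw
  obtain ⟨g, hg, H⟩ := (dt_edgeT hE h1 h2).or (dt_edgeT hE h2 h1)
  refine hg.congr fun a => ?_
  rw [Bool.eq_iff_iff, H, gamN, adjV, Bool.or_eq_true, edge_iff_edgeT, edge_iff_edgeT, ptup_dec,
    ptup_dec]

theorem pt_cone {n : α → ℕ} {g : α → ℕ → ℕ → Bool} {v w : α → ℕ} (hn : PT n)
    (hg : PT (fun a => g a (v a) (w a))) (hv : PT v) (hw : PT w) :
    PT (fun a => cone (n a) (g a) (v a) (w a)) := by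
  unfold cone
  exact PT.iteD ((DT.eq (BT.ofPT hv) (BT.ofPT hn)).or (DT.eq (BT.ofPT hw) (BT.ofPT hn)))
    (pt_decide (DT.ne (BT.ofPT hv) (BT.ofPT hw))) hg

theorem pt_matCode {n : α → ℕ} {g : α → ℕ → ℕ → Bool} (hn : PT n)
    (hg : PT (fun p : α × ℕ × ℕ => g p.1 p.2.1 p.2.2)) : PT (fun a => matCode (n a) (g a)) := by
  have h1 : PT fun p : (α × ℕ) × ℕ => Raw.cons (g p.1.1 p.1.2 p.2) Raw.nil :=
    PT.cons (hg.comp (f := fun p : (α × ℕ) × ℕ => (p.1.1, p.1.2, p.2))
      (PT.id'.fst.fst.pair (PT.id'.fst.snd.pair PT.id'.snd))) (PT.const _)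
  have h2 : PT fun p : α × ℕ => Raw.concat (n p.1) fun w => Raw.cons (g p.1 p.2 w) Raw.nil :=
    PT.concat (f := fun (p : α × ℕ) w => Raw.cons (g p.1 p.2 w) Raw.nil)
      (hn.comp PT.id'.fst) h1
  have h3 : PT fun a => Raw.concat (n a) fun v =>
      Raw.concat (n a) fun w => Raw.cons (g a v w) Raw.nil :=
    PT.concat (f := fun a v => Raw.concat (n a) fun w => Raw.cons (g a v w) Raw.nil) hn h2
  refine (hn.natCode.app h3).congr fun a => congrArg Raw.mk ?_
  simp only [natCodeR, Raw.val_concat, Raw.val_cons, Raw.val_nil, adjMatrixCode, cut]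
  congr 1
  rw [← List.map_coe_finRange_eq_range, List.flatMap_map]
  congr 1
  funext v
  rw [List.flatMap_map, ← List.map_eq_flatMap]

theorem pt_grN {code : α → Code} {x : α → Raw} {k B v w : α → ℕ} {tw : α → Bool} (hc : PT code)
    (hx : PT x) (hk : PT k) (hB : PT B) (ht : PT tw) (hv : PT v) (hw : PT w) :
    PT (fun a => grN (code a) (x a).val (k a) (B a) (tw a) (v a) (w a)) :=
  pt_gamN (pt_sys (pt_mkPar hc hx hk hB) ht) hv hw

theorem flatMap_inj_of_length {ι β : Type} (l : List ι) {f g : ι → List β} {y y' : List β}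
    (hl : ∀ i, (f i).length = (g i).length) (h : l.flatMap f ++ y = l.flatMap g ++ y') :
    (∀ i ∈ l, f i = g i) ∧ y = y' := by
  induction l with
  | nil => exact ⟨fun _ hi => absurd hi List.not_mem_nil, by simpa using h⟩
  | cons i l ih =>
    rw [List.flatMap_cons, List.flatMap_cons, List.append_assoc, List.append_assoc] at h
    obtain ⟨h1, h2⟩ := List.append_inj h (hl i)
    obtain ⟨h3, h4⟩ := ih h2
    refine ⟨fun j hj => ?_, h4⟩
    rcases List.mem_cons.mp hj with rfl | hj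
    · exact h1
    · exact h3 j hj

theorem natCode_append_inj' {k k' : ℕ} {y y' : List Bool}
    (h : Crest.Enc.natCode k ++ y = Crest.Enc.natCode k' ++ y') : k = k' ∧ y = y' := by
  have h1 : k = k' := by rw [← rdNat_code k y, h, rdNat_code]
  subst h1
  exact ⟨rfl, List.append_cancel_left h⟩

/-- The code of a pair of graphs determines the pair. -/
theorem adjMatrixCode_append_inj {n n' : ℕ} {G : Fin n → Fin n → Bool} {G' : Fin n' → Fin n' → Bool}
    {y y' : List Bool} (h : adjMatrixCode G ++ y = adjMatrixCode G' ++ y') :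
    ∃ e : n = n', HEq G G' ∧ y = y' := by
  unfold adjMatrixCode at h
  rw [List.append_assoc, List.append_assoc] at h
  obtain ⟨rfl, h1⟩ := natCode_append_inj' h
  obtain ⟨h2, h3⟩ := flatMap_inj_of_length _ (fun i => by simp) h1
  refine ⟨rfl, heq_of_eq ?_, h3⟩
  funext v w
  exact List.map_inj_left.mp (h2 v (List.mem_finRange v)) w (List.mem_finRange w)

theorem natCode_append_inj {k k' : ℕ} {y y' : List Bool}
    (h : Crest.Enc.natCode k ++ y = Crest.Enc.natCode k' ++ y') : k = k' ∧ y = y' :=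
  natCode_append_inj' h

theorem length_adjMatrixCode {n : ℕ} (G : Fin n → Fin n → Bool) :
    (adjMatrixCode G).length = (Crest.Enc.natCode n).length + n * n := by
  simp [adjMatrixCode, List.length_flatMap]

end Crest.Agent.R290
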