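import Crest.Agent.R290.TabC

/-!
Row 290, task TAB: the computation table of a machine as a Horn program.
-/

set_option autoImplicit false

namespace Crest.Agent.R290

open Crest.Agent.PT Crest.Agent.QC Crest.Agent.R317

/-- Index `m = t * W + j` is cell `j` of row `t`; row `t` has the cells `j ≤ F t = |x| + t`. Let
`(l t, S t) = M.step^[t] (M.entry, st x)`, `t₀ ≤ T` the first time with `l t₀ = none`. Signals
(number them by an injection of the finite type `Option M.L ⊕ (Option τ × Option Bool)` into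
`[10, S₀)`, except that `Sym none none = 7`, `Sym none (some false) = 8`, `Sym none (some true) = 9`):
`Lab o` for `o : Option M.L`, `Sym k o` (`o = (S t k)[j]?`), `Z = 2` (`j = 0`), `Pz = 3` (`j ≥ 1`),
`Mid = 4` (`j < F t`), `End = 5` (`j = F t`), `Row0 = 6`, `Acc = 1`. Tagged rules
`(head, s₀, s₁, s₂, tag)` (tags `0,1,2,3,4` = shifts `0, 1, W-1, W, W+1`; repeat premises):
* `Sym k none ⇐ Row0` for `k ≠ none` (0); `Lab M.entry ⇐ 0` (0); `Lab o ⇐ Lab o, Mid` (1);
  `Acc ⇐ Lab none, Z, Sym none (some true)` (0); `Acc ⇐ Acc` (1);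
* for every label `l` (premise `Lab (some l)`): `Mid` (3); `Pz` (4); `Z ⇐ .., Z` (3);
  `End ⇐ .., End` (4); `Sym k none ⇐ .., End` (4) for all `k`; for `k` not touched by `M.prog l`:
  `Sym k o ⇐ .., Sym k o` (3);
* `M.prog l = push k b nx`: `Sym k (some b) ⇐ .., Z` (3); `Sym k o ⇐ .., Sym k o` (4);
  `Lab nx ⇐ .., Z` (3);
* `M.prog l = pop k nx`: `Sym k o ⇐ .., Sym k o, Pz` (2); `Sym k none ⇐ .., End` (3);
  `Lab (nx o) ⇐ .., Z, Sym k o` (3).
Soundness (induction on `Holds`): every fact is `Acc` (only if `β = true`), or `inS S₀ j` at index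
`j ≤ |x| + 1`, or a true entry of the table at `(t, j)` with `t ≤ t₀`, `j ≤ F t` (all premises of a
rule sit at the same index, and `m = t * W + j` with `j < W` determines `t`, `j`; lengths satisfy
`(S t k).length ≤ F t`). Completeness: all entries hold, by induction on `t ≤ t₀` (and on `j` for
`Lab`). The final store is `st [β]` because exited configurations stay. You are free to change the
table, the statement only needs `CodeOf`. -/
theorem exists_code {τ : Type} [Finite τ] (M : Mach (Option τ)) : ∃ code, CodeOf M code := by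
  have := M.fin
  obtain ⟨N, ⟨e₀⟩⟩ := Finite.exists_equiv_fin (Option M.L ⊕ (τ × Option Bool))
  have hinj : Function.Injective fun a => (e₀ a : ℕ) :=
    fun a b h => e₀.injective (Fin.ext h)
  have he : ∀ a, (e₀ a : ℕ) < N := fun a => (e₀ a).2
  obtain ⟨R, hR⟩ := Tab.exists_list M (fun a => (e₀ a : ℕ)) N he
  refine ⟨(10 + N, R), Nat.le_add_right _ _, fun ρ hρ => ?_, fun x W T β hrun hW => ?_⟩
  · obtain ⟨h, a, b, c, d, -, rfl⟩ := (hR ρ).mp hρ
    exact ⟨Tab.num_lt he h, Tab.num_lt he a, Tab.num_lt he b, Tab.num_lt he c⟩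
  · obtain ⟨t₀, ht₀, h₀⟩ := hrun
    refine ⟨fun hβ => ?_, fun hβ s m H => ?_⟩
    · subst hβ
      exact Tab.complete M hR x W (by omega) h₀
    · subst hβ
      exact (Tab.sound M hinj he hR x (by omega) h₀ H).out hinj ht₀ hW

end Crest.Agent.R290
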