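import Crest.Agent.R290.Core
import Crest.Agent.R290.Tab
import Crest.Agent.R290.PtGam
import Crest.Agent.R290.Cone

/-!
Row 290, task DIAG: diagonalisation.
-/

set_option autoImplicit false

namespace Crest.Agent.R290

open Crest.WLRefine Crest.Agent.PT Crest.Agent.QC Crest.Agent.R317

/-- Inputs of the diagonal machine: table, parameter, dimension, exponent, root, order. -/
abbrev DI (γ : Type) : Type := Code × γ × ℕ × ℕ × ℕ × Bin

section

variable {γ : Type} [Enc γ]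

/-- The order in unary. -/
def dN (a : DI γ) : ℕ := un ((a.2.2.2.2.1 + 1) ^ 100) a.2.2.2.2.2.val

/-- The two graphs. -/
def dG (a : DI γ) (tw : Bool) : ℕ → ℕ → Bool :=
  cone (dN a - 1) (grN a.1 (enc a) a.2.2.1 (a.2.2.2.2.1 ^ 2) tw)

/-- The code of the pair. -/
def dP (a : DI γ) : Raw := (matCode (dN a) (dG a false)).app (matCode (dN a) (dG a true))

theorem pt_dN : PT (fun a : DI γ => dN a) := by
  unfold dN
  exact pt_un (by fun_prop) (BT.val (by fun_prop))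

theorem pt_dG (tw : Bool) : PT (fun p : DI γ × ℕ × ℕ => dG p.1 tw p.2.1 p.2.2) := by
  unfold dG
  refine pt_cone (n := fun p : DI γ × ℕ × ℕ => dN p.1 - 1)
    (g := fun p : DI γ × ℕ × ℕ => grN p.1.1 (enc p.1) p.1.2.2.1 (p.1.2.2.2.2.1 ^ 2) tw)
    ((pt_dN.comp (by fun_prop)).sub (PT.const 1)) ?_ (by fun_prop) (by fun_prop)
  exact pt_grN (x := fun p : DI γ × ℕ × ℕ => (⟨enc p.1⟩ : Raw)) (by fun_prop)
    (PT.toRaw.comp (by fun_prop)) (by fun_prop) (by fun_prop) (PT.const tw) (by fun_prop)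
    (by fun_prop)

theorem pt_dP : PT (fun a : DI γ => dP a) :=
  (pt_matCode (g := fun a : DI γ => dG a false) pt_dN (pt_dG false)).app
    (pt_matCode (g := fun a : DI γ => dG a true) pt_dN (pt_dG true))

theorem diag_mach (V : γ × Raw × ℕ × ℕ → Bool) (hV : PT V) :
    ∃ (τ : Type) (_ : Finite τ) (M : Mach (Option τ)) (K : ℕ), ∀ a : DI γ,
      M.Runs (st (enc a)) (st [V (a.2.1, dP a, dN a, dN a ^ a.2.2.2.1)])
        ((2 * sz a + (dN a + 1) ^ a.2.2.2.1 + 1 + 2) ^ K) := by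
  have hf : PT (fun p : DI γ × ℕ => (p.1, p.2 * dN p.1)) :=
    PT.pair (by fun_prop) (PT.mul (by fun_prop) (pt_dN.comp (by fun_prop)))
  have hg : PT (fun a : DI γ => a.2.2.2.1) := by fun_prop
  have hh : PT (fun a : DI γ => (a, (1 : ℕ))) := by fun_prop
  have hu : PT (fun p : DI γ × ℕ => V (p.1.2.1, dP p.1, dN p.1, p.2)) :=
    hV.comp (PT.pair (by fun_prop) (PT.pair (pt_dP.comp (by fun_prop))
      (PT.pair (pt_dN.comp (by fun_prop)) (by fun_prop))))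
  have hit : ∀ (a : DI γ) (i : ℕ), (fun p : DI γ × ℕ => (p.1, p.2 * dN p.1))^[i] (a, 1) =
      (a, dN a ^ i) := by
    intro a i
    induction i with
    | zero => simp
    | succ i ih => rw [Function.iterate_succ_apply', ih, pow_succ]
  obtain ⟨τ, _, M, K, hM⟩ := iterate_time hf hg hh hu
    (fun a => 2 * sz a + (dN a + 1) ^ a.2.2.2.1 + 1) (fun a => by omega)
    (fun a i hi => by
      rw [hit, sz_pair, sz_nat]
      rw [sz_nat] at hi
      have : dN a ^ i ≤ (dN a + 1) ^ a.2.2.2.1 :=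
        (Nat.pow_le_pow_left (Nat.le_succ _) i).trans (Nat.pow_le_pow_right (by omega) hi)
      omega)
  refine ⟨τ, inferInstance, M, K, fun a => ?_⟩
  have := hM a
  rw [hit, sz_nat] at this
  exact this

end

theorem add_le_pow_two {B X Y i : ℕ} (hB : 4 ≤ B) (hX : X ≤ B ^ i) (hY : Y ≤ 2 * B + 3) :
    Y + X ≤ B ^ (i + 2) := by
  have h1 : 1 ≤ B ^ i := Nat.one_le_pow _ _ (by omega)
  have h2 : 2 * B + 4 ≤ B ^ 2 := by nlinarith
  rw [pow_add]
  calc Y + X ≤ (2 * B + 3) * B ^ i + B ^ i :=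
        Nat.add_le_add (hY.trans (Nat.le_mul_of_pos_right _ h1)) hX
    _ = B ^ i * (2 * B + 4) := by ring
    _ ≤ _ := Nat.mul_le_mul_left _ h2

theorem diag_time {s n m j q K : ℕ} (hs : s ≤ m ^ 2) (hm : 2 ≤ m) (hn : n < (m + 1) ^ 100)
    (hq4 : 4 * K + 4 ≤ q) (hjq : j * (202 * K + 1) ≤ q) :
    (2 * s + (n + 1 + 1) ^ j + 1 + 2) ^ K + s + 3 ≤ (m ^ 2) ^ q := by
  have e1 : m + 1 ≤ m ^ 2 := by nlinarith
  have hB4 : 4 ≤ m ^ 2 := by nlinarith
  have e0 : (m + 1) ^ 100 ≤ (m ^ 2) ^ 100 := Nat.pow_le_pow_left e1 _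
  generalize m ^ 2 = B at *
  have e2 : n + 1 + 1 ≤ B ^ 101 := by
    have h1 : 1 ≤ B ^ 100 := Nat.one_le_pow _ _ (by omega)
    have h2 : B ^ 100 * 4 ≤ B ^ 100 * B := Nat.mul_le_mul_left _ hB4
    rw [pow_succ B 100]
    generalize B ^ 100 = X at *
    generalize (m + 1) ^ 100 = Y at *
    omega
  have e3 : (n + 1 + 1) ^ j ≤ B ^ (101 * j) := by
    rw [pow_mul]; exact Nat.pow_le_pow_left e2 _
  have e4 := add_le_pow_two (Y := 2 * s + 3) hB4 e3 (by omega)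
  have e5 : (2 * s + (n + 1 + 1) ^ j + 1 + 2) ^ K ≤ B ^ ((101 * j + 2) * K) := by
    rw [pow_mul]; exact Nat.pow_le_pow_left (by omega) _
  have e6 := add_le_pow_two (Y := s + 3) hB4 e5 (by omega)
  have e7 : (101 * j + 2) * K + 2 ≤ q := by nlinarith
  exact le_trans (by omega) (e6.trans (Nat.pow_le_pow_right (by omega) e7))

theorem exists_root (C : ℕ) : ∃ n₀, ∀ n ≥ n₀, ∃ m, C ≤ m ∧ m ≤ n ∧ (m ^ 2) ^ 50 ≤ n ∧
    n < (m + 1) ^ 100 ∧ (n + 1).size ≤ 100 * (m + 1) := by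
  refine ⟨C ^ 100, fun n hn => ?_⟩
  have hm1 : (Nat.nthRoot 100 n) ^ 100 ≤ n := Nat.pow_nthRoot_le (Or.inl (by norm_num))
  have hm2 : n < (Nat.nthRoot 100 n + 1) ^ 100 := Nat.lt_pow_nthRoot_add_one (by norm_num) n
  refine ⟨Nat.nthRoot 100 n, (Nat.le_nthRoot_iff (by norm_num)).mpr hn,
    (Nat.le_self_pow (by norm_num) _).trans hm1, by rw [← pow_mul]; exact hm1, hm2, ?_⟩
  rw [Nat.size_le, Nat.mul_comm, pow_mul]
  exact lt_of_le_of_lt hm2 (Nat.pow_lt_pow_left Nat.lt_two_pow_self (by norm_num))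

theorem dN_eq {γ : Type} (code : Code) (c : γ) (k j m n : ℕ) (h : n ≤ (m + 1) ^ 100) :
    dN ((code, c, k, j, m, ⟨n⟩) : DI γ) = n := min_eq_left h

theorem dP_eq {γ : Type} [Enc γ] (a : DI γ) (n : ℕ) (h : dN a = n + 1) : dP a =
    ⟨adjMatrixCode (cut (n + 1) (cone n (grN a.1 (enc a) a.2.2.1 (a.2.2.2.2.1 ^ 2) false))) ++
      adjMatrixCode (cut (n + 1) (cone n (grN a.1 (enc a) a.2.2.1 (a.2.2.2.2.1 ^ 2) true)))⟩ := by
  unfold dP dG
  rw [h]
  rfl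

theorem diag {γ : Type} [Enc γ] (V : γ × Raw × ℕ × ℕ → Bool) (hV : PT V) :
    ∃ C₁ k₀ : ℕ, 0 < C₁ ∧ ∀ k ≥ k₀, ∀ c : γ, ∃ n₀ : ℕ, ∀ n ≥ n₀,
      ∃ G H : Fin n → Fin n → Bool, SimpleConnDiamTwo G ∧ SimpleConnDiamTwo H ∧
        (V (c, ⟨adjMatrixCode G ++ adjMatrixCode H⟩, n, n ^ (k / C₁)) = true → ¬ Game k G H) ∧
        (V (c, ⟨adjMatrixCode G ++ adjMatrixCode H⟩, n, n ^ (k / C₁)) = false →
          Game (k + 1) G H) := by
  obtain ⟨τ, _, M, K, hM⟩ := diag_mach V hV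
  obtain ⟨code, hcode⟩ := exists_code M
  have hC0 : 0 < C0 := by unfold C0; omega
  refine ⟨C0 * (202 * K + 1), C0 * (4 * K + 4), Nat.mul_pos hC0 (by omega), fun k hk c => ?_⟩
  have hq4 : 4 * K + 4 ≤ k / C0 :=
    (Nat.le_div_iff_mul_le hC0).mpr (by rw [Nat.mul_comm]; exact hk)
  have hjq : k / (C0 * (202 * K + 1)) * (202 * K + 1) ≤ k / C0 := by
    rw [← Nat.div_div_eq_div_mul]; exact Nat.div_mul_le_self _ _
  generalize k / (C0 * (202 * K + 1)) = j at *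
  have hkC : C0 ≤ k := le_trans (Nat.le_mul_of_pos_right _ (by omega)) hk
  have hk2 : 2 ≤ k := by unfold C0 at hkC; omega
  obtain ⟨Cst, hCst⟩ : ∃ Cst, Cst = 3 * sz code + 2 * sz c + 3 * k + 2 * j + 5 := ⟨_, rfl⟩
  obtain ⟨n₀, hn₀⟩ := exists_root (Cst + 203)
  refine ⟨n₀ + 1, fun n hn => ?_⟩
  obtain ⟨n, rfl⟩ : ∃ n', n = n' + 1 := ⟨n - 1, by omega⟩
  obtain ⟨m, hm3, hmn, hn50, hm2, hsize⟩ := hn₀ n (by omega)
  have hN := dN_eq code c k j m (n + 1) hm2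
  have hP := dP_eq _ n hN
  have hR := hM (code, c, k, j, m, ⟨n + 1⟩)
  have hsz : sz ((code, c, k, j, m, ⟨n + 1⟩) : DI γ) = 2 * sz code + (2 * sz c + (2 * k +
      (2 * j + (2 * m + (n + 1).size + 1) + 1) + 1) + 1) + 1 := by
    simp only [sz_pair, sz_nat, sz_bin]
  rw [hP, hN] at hR
  dsimp only at hR
  have hx : (enc ((code, c, k, j, m, ⟨n + 1⟩) : DI γ)).length =
      sz ((code, c, k, j, m, ⟨n + 1⟩) : DI γ) := rfl
  generalize enc ((code, c, k, j, m, ⟨n + 1⟩) : DI γ) = x at hR hx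
  rw [← hx] at hR hsz
  have hB : sz code + x.length + k ≤ m ^ 2 := by
    have : (Cst + 203) * m ≤ m ^ 2 := by rw [sq]; exact Nat.mul_le_mul_right _ hm3
    have : Cst ≤ Cst * m := Nat.le_mul_of_pos_right _ (by omega)
    rw [Nat.add_mul] at *
    omega
  have hT := diag_time (s := x.length) (by omega) (by omega) hm2 hq4 hjq
  obtain ⟨h1, h2, h3, h4⟩ := core hcode hkC hB hn50 hR hT
  exact ⟨_, _, cone_diam h1.1, cone_diam h2.1,
    fun hβ hG => (h3 hβ).1 (game_of_cone hk2 (by omega) h1.2.2 h2.2.2 hG),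
    fun hβ => game_cone (h4 hβ).1⟩

end Crest.Agent.R290
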