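import Crest.Agent.R290.ExpWL

/-!
Row 290, task EXL: the three languages are in EXPTIME.
-/

set_option autoImplicit false

namespace Crest.Agent.R290

open Crest.WLRefine Crest.Agent.PT Crest.Agent.QC Crest.Agent.R317

namespace Exl

variable {α : Type} [Enc α]

/-- vertices reached from `0` within `s` steps -/
def reach (n : ℕ) (a : List Bool) (s : ℕ) : List Bool :=
  Nat.rec (mkL n fun v => decide (v = 0)) (fun _ r => mkL n fun v => decide (r.getD v false = true ∨
    Ex n fun u => r.getD u false = true ∧ (matOf n a u v = true ∨ matOf n a v u = true))) s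

theorem sz_mkLB (n : ℕ) (f : ℕ → Bool) : sz (mkL n f) ≤ n * 3 := by
  simpa using sz_list_le (mkL n f) 1 (fun b _ => le_of_eq rfl)

theorem pt_reach : PT (fun x : ℕ × List Bool => reach x.1 x.2 x.1) := by
  refine PT.natRec (g := fun x : ℕ × List Bool => x.1) (z := fun x => mkL x.1 fun v => decide (v = 0))
    (s := fun x _ r => mkL x.1 fun v => decide (r.getD v false = true ∨
      Ex x.1 fun u => r.getD u false = true ∧ (matOf x.1 x.2 u v = true ∨ matOf x.1 x.2 v u = true)))
    (by fun_prop) (by fun_prop) (by fun_prop) (B := fun x => x.1 * 3) (PT.pbNat (by fun_prop))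
    (fun p i _ => ?_)
  cases i <;> exact sz_mkLB _ _

theorem reach_succ (n : ℕ) (a : List Bool) (s : ℕ) (v : Fin n) :
    (reach n a (s + 1)).getD v false = true ↔ (reach n a s).getD v false = true ∨
      ∃ u : Fin n, (reach n a s).getD u false = true ∧
        (matOf n a u v = true ∨ matOf n a v u = true) := by
  rw [← ex_iff (fun u => (reach n a s).getD u false = true ∧
    (matOf n a u v = true ∨ matOf n a v u = true))]
  exact (congrArg (· = true) (getD_mkL _ _ v.2)).to_iff.trans decide_eq_true_iff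

theorem reach_zero (n : ℕ) (a : List Bool) (v : Fin n) :
    (reach n a 0).getD v false = true ↔ (v : ℕ) = 0 :=
  (congrArg (· = true) (getD_mkL _ _ v.2)).to_iff.trans decide_eq_true_iff

theorem reach_sound {n : ℕ} (hn : 0 < n) (a : List Bool) (s : ℕ) (v : Fin n)
    (h : (reach n a s).getD v false = true) : (adjGraph (cut n (matOf n a))).Reachable ⟨0, hn⟩ v := by
  induction s generalizing v with
  | zero =>
    rw [show v = ⟨0, hn⟩ from Fin.ext ((reach_zero n a v).1 h)]
  | succ s ih =>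
    rcases (reach_succ n a s v).1 h with h | ⟨u, h1, h2⟩
    · exact ih v h
    · by_cases e : u = v
      · exact e ▸ ih u h1
      · exact (ih u h1).trans (SimpleGraph.Adj.reachable ((SimpleGraph.fromRel_adj _ _ _).2 ⟨e, h2⟩))

theorem reach_complete {n : ℕ} (a : List Bool) {v w : Fin n}
    (p : (adjGraph (cut n (matOf n a))).Walk v w) (hw : (w : ℕ) = 0) (s : ℕ) (hs : p.length ≤ s) :
    (reach n a s).getD v false = true := by
  induction p generalizing s with
  | nil =>
    clear hs
    induction s with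
    | zero => exact (reach_zero n a _).2 hw
    | succ s ih => exact (reach_succ n a s _).2 (Or.inl ih)
  | cons h p ih =>
    cases s with
    | zero => simp at hs
    | succ s =>
      exact (reach_succ n a s _).2 (Or.inr ⟨_, ih hw s (by simpa using hs),
        ((SimpleGraph.fromRel_adj _ _ _).1 h).2.symm⟩)

end Exl

open Exl in
/-- Connectedness of a matrix is decided in polynomial time (reachability from vertex `0` by `n`
rounds on a `List Bool`), or with the budget-free trick: iterate the set of reached vertices. -/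
theorem exists_conntest : ∃ g : ℕ × List Bool → Bool, PT g ∧
    ∀ (n : ℕ) (a : List Bool), (g (n, a) = true ↔ (adjGraph (cut n (matOf n a))).Connected) := by
  have h := pt_reach
  obtain ⟨g, hg, H⟩ : DT (fun x : ℕ × List Bool => 0 < x.1 ∧
      All x.1 fun v => (reach x.1 x.2 x.1).getD v false = true) := by
    refine DT.and (by fun_prop) (DT.all (by fun_prop) (dt_beq (pt_getD ?_ ?_ ?_) ?_))
    · exact h.comp (f := fun q : (ℕ × List Bool) × ℕ => q.1) (by fun_prop)
    all_goals fun_prop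
  refine ⟨g, hg, fun n a => (H _).trans ⟨fun ⟨hn, h⟩ => ?_, fun h => ?_⟩⟩
  · rw [SimpleGraph.connected_iff_exists_forall_reachable]
    exact ⟨⟨0, hn⟩, fun v => reach_sound hn a n v (h v v.2)⟩
  · have hn : 0 < n := Fin.pos_iff_nonempty.2 h.nonempty
    refine ⟨hn, fun v hv => ?_⟩
    obtain ⟨p, hp⟩ := (h.preconnected ⟨v, hv⟩ ⟨0, hn⟩).exists_isPath
    exact reach_complete a p rfl n (by simpa using hp.length_lt.le)

namespace Exl

variable {α : Type} [Enc α]

/-- a raw string as a list of bits -/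
def bits (x : Raw) : List Bool := x.val

@[fun_prop] theorem pt_bits {x : α → Raw} (hx : PT x) : PT (fun a => bits (x a)) := by
  have key : ∀ (i : ℕ) (y : Raw), (Raw.tail^[i] y).val = y.val.drop i := by
    intro i
    induction i with
    | zero => intro y; rfl
    | succ i ih => intro y; rw [Function.iterate_succ_apply, ih]; simp
  have h : PT (fun p : α × ℕ => (Raw.tail^[p.2] (x p.1)).head) :=
    PT.head (pt_iterShrink (PT.tail PT.id') (fun y => by simp) (by fun_prop) (by fun_prop))
  refine (pt_mkL (f := fun a i => (Raw.tail^[i] (x a)).head) hx.len h).congr fun a => ?_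
  apply List.ext_getElem
  · simp [bits]
  · intro i h1 h2
    simp only [mkL, List.getElem_map, List.getElem_range, Raw.head, key, bits]
    rw [List.drop_eq_getElem_cons (show i < (x a).val.length from h2)]
    rfl

theorem dt_leq {l l' : α → List Bool} (hl : PT l) (hl' : PT l') : DT (fun a => l a = l' a) := by
  have : DT (fun a => (l a).length = (l' a).length ∧
      All (l a).length fun i => (l a).getD i false = (l' a).getD i false) :=
    DT.and (DT.eq (BT.ofPT (pt_length hl)) (BT.ofPT (pt_length hl')))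
      (DT.all (pt_length hl) (by fun_prop))
  refine this.congr fun a => ⟨fun ⟨h1, h2⟩ => List.ext_getElem h1 fun i h3 h4 => ?_,
    fun h => by rw [h]; exact ⟨rfl, fun _ _ => rfl⟩⟩
  have := h2 i h3
  dsimp only at this
  rwa [List.getD_eq_getElem _ _ h3, List.getD_eq_getElem _ _ h4] at this

/-- the string starts with the code of a number -/
def NOk (y : Raw) : Prop := y.val = Crest.Enc.natCode (rdNat y) ++ (skip y).val

@[fun_prop] theorem dt_NOk {y : α → Raw} (hy : PT y) : DT (fun a => NOk (y a)) :=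
  dt_leq (pt_bits hy) (pt_bits (PT.app (PT.binCode (bt_rdNat hy)) (pt_skip hy)))

theorem parseN (P : ℕ → List Bool → Prop) (y : Raw) :
    (∃ k z, y.val = Crest.Enc.natCode k ++ z ∧ P k z) ↔ NOk y ∧ P (rdNat y) (skip y).val := by
  refine ⟨?_, fun h => ⟨_, _, h.1, h.2⟩⟩
  obtain ⟨y⟩ := y
  rintro ⟨k, z, h, hP⟩
  dsimp only at h
  subst h
  simpa [NOk] using hP

/-- the order of the graph at the front -/
def gn (y : Raw) : ℕ := un (sz y) (rdNat y)

/-- the bits after the order -/
def gl (y : Raw) : List Bool := bits (skip y)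

/-- the rest -/
def gr (y : Raw) : Raw := toR ((gl y).drop (gn y * gn y))

/-- the string starts with the code of a graph -/
def GOk (y : Raw) : Prop := NOk y ∧ rdNat y * rdNat y ≤ (gl y).length

@[fun_prop] theorem pt_gn {y : α → Raw} (hy : PT y) : PT (fun a => gn (y a)) :=
  pt_un hy.len (bt_rdNat hy)

@[fun_prop] theorem pt_gl {y : α → Raw} (hy : PT y) : PT (fun a => gl (y a)) :=
  pt_bits (pt_skip hy)

@[fun_prop] theorem pt_gr {y : α → Raw} (hy : PT y) : PT (fun a => gr (y a)) := by
  unfold gr; fun_prop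

@[fun_prop] theorem dt_GOk {y : α → Raw} (hy : PT y) : DT (fun a => GOk (y a)) :=
  DT.and (dt_NOk hy) (DT.le (BT.mul (bt_rdNat hy) (bt_rdNat hy)) (BT.ofPT (pt_length (pt_gl hy))))

theorem code_cut {n : ℕ} {l : List Bool} (h : n * n ≤ l.length) :
    adjMatrixCode (cut n (matOf n l)) = Crest.Enc.natCode n ++ l.take (n * n) := by
  have e : l.take (n * n) = List.ofFn fun i : Fin (n * n) => l.getD i false := by
    apply List.ext_getElem
    · simp [h]
    · intro i h1 h2
      have : i < l.length := by simp at h2; omega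
      simp [List.getD_eq_getElem?_getD, this]
  rw [adjMatrixCode, e, List.ofFn_mul, List.flatMap_def, ← List.ofFn_eq_map]
  congr 3
  funext v
  rw [← List.ofFn_eq_map]
  rfl

theorem exists_fun {n : ℕ} (G : Fin n → Fin n → Bool) : ∃ f : Fin (n * n) → Bool,
    ∀ l : List Bool, (∀ i : Fin (n * n), l.getD i false = f i) → cut n (matOf n l) = G := by
  refine ⟨fun i => G (finProdFinEquiv.symm i).1 (finProdFinEquiv.symm i).2, fun l hl => ?_⟩
  funext v w
  have := hl (finProdFinEquiv (v, w))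
  beta_reduce at this
  rw [Equiv.symm_apply_apply, finProdFinEquiv_apply_val] at this
  rw [cut, matOf, ← this, add_comm, mul_comm]

theorem parseG (P : ∀ n, (Fin n → Fin n → Bool) → List Bool → Prop) (y : Raw) :
    (∃ (n : ℕ) (G : Fin n → Fin n → Bool) (z : List Bool), y.val = adjMatrixCode G ++ z ∧ P n G z) ↔
      GOk y ∧ P (gn y) (cut (gn y) (matOf (gn y) (gl y))) (gr y).val := by
  have hn : GOk y → gn y = rdNat y := fun h => by
    have h1 := h.2
    have h2 := length_skip y
    have h3 := Nat.le_mul_self (rdNat y)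
    exact min_eq_left (h3.trans (h1.trans h2))
  constructor
  · rintro ⟨n, G, z, h, hP⟩
    obtain ⟨f, hf⟩ := exists_fun G
    have h1 := hf (List.ofFn f) (getD_ofFn f · false)
    have h2 := hf (List.ofFn f ++ z) fun i => by
      rw [List.getD_append _ _ _ _ (by simp), getD_ofFn]
    rw [← h1, code_cut (by simp), List.take_of_length_le (by simp), List.append_assoc] at h
    obtain ⟨y⟩ := y
    dsimp only at h
    subst h
    have hG : GOk ⟨Crest.Enc.natCode n ++ (List.ofFn f ++ z)⟩ := by simp [GOk, NOk, gl, bits]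
    refine ⟨hG, ?_⟩
    have h3 := hn hG
    rw [rdNat_code] at h3
    rw [gr, h3, gl, skip_code, bits, h2, List.drop_left' (by simp)]
    exact hP
  · rintro ⟨h, hP⟩
    refine ⟨_, _, _, ?_, hP⟩
    rw [code_cut (by rw [hn h]; exact h.2), List.append_assoc, gr, toR, List.take_append_drop, hn h]
    exact h.1

theorem gn_le (y : Raw) : gn y ≤ y.val.length := min_le_right _ _

theorem length_gr (y : Raw) : (gr y).val.length ≤ y.val.length := by
  have := length_skip y
  simp only [gr, toR, gl, bits, List.length_drop]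
  omega

theorem dt_simple {n : α → ℕ} {l : α → List Bool} (hn : PT n) (hl : PT l) :
    DT (fun a => IsSimple (cut (n a) (matOf (n a) (l a)))) := by
  have : DT (fun a => (All (n a) fun v => All (n a) fun w =>
      matOf (n a) (l a) v w = matOf (n a) (l a) w v) ∧
      All (n a) fun v => matOf (n a) (l a) v v = false) := by fun_prop
  exact this.congr fun a => by simp only [all_iff, IsSimple, cut]

theorem dt_sub {n : α → ℕ} {l : α → List Bool} (hn : PT n) (hl : PT l) :
    DT (fun a => SimpleConnSubcubic (cut (n a) (matOf (n a) (l a)))) := by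
  obtain ⟨g, hg, H⟩ := exists_conntest
  refine DT.and (dt_simple hn hl) (DT.and ⟨_, hg.comp (hn.pair hl), fun a => H _ _⟩ ?_)
  have : DT (fun a => All (n a) fun v => (∑ w ∈ Finset.range (n a),
      if matOf (n a) (l a) v w = true then 1 else 0 : ℕ) ≤ 3) := by fun_prop
  refine this.congr fun a => ?_
  simp only [all_iff, MaxDegLeThree, cut, Finset.card_filter]
  refine forall_congr' fun v => ?_
  rw [Fin.sum_univ_eq_sum_range (fun w => if matOf (n a) (l a) v w = true then 1 else 0)]

theorem budget {n L N k : ℕ} (hn : n ≤ L) (hN : 2 ^ ((L + 2) ^ 2) ≤ N) (hk : k ≤ n + 2) :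
    (n + 1) ^ k ≤ N :=
  calc (n + 1) ^ k ≤ (2 ^ (L + 2)) ^ (L + 2) :=
        (Nat.pow_le_pow_right (by omega) (by omega)).trans (Nat.pow_le_pow_left
          ((by omega : n + 1 ≤ L + 2).trans Nat.lt_two_pow_self.le) _)
    _ = 2 ^ ((L + 2) ^ 2) := by rw [← pow_mul, sq]
    _ ≤ N := hN

theorem jequiv_cut {n k : ℕ} {G H : Fin n → Fin n → Bool} :
    JEquiv (un (n + 2) k) G H ↔ JEquiv k G H := by
  rcases le_total k (n + 2) with h | h
  · rw [un, min_eq_left h]
  · rw [un, min_eq_right h]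
    exact ⟨fun h' => jequiv_of_iso _ (iso_of_jequiv (by omega) (by omega) h'),
      fun h' => jequiv_of_iso _ (iso_of_jequiv (by omega) (by omega) h')⟩

/-- languages of the form dimension, graph, graph -/
theorem pair_inEXP (Q : ∀ n, (Fin n → Fin n → Bool) → Prop)
    (hQ : DT (fun y : Raw => Q (gn y) (cut (gn y) (matOf (gn y) (gl y))))) :
    Crest.ExpTime.InEXP {w | ∃ (k n m : ℕ) (G : Fin n → Fin n → Bool) (H : Fin m → Fin m → Bool),
      2 ≤ k ∧ Q n G ∧ Q m H ∧ JEquiv k G H ∧
        w = Crest.Enc.natCode k ++ adjMatrixCode G ++ adjMatrixCode H} := by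
  obtain ⟨g, hg, H⟩ := exists_jtest
  obtain ⟨g', hg', H'⟩ : DT (fun x : Raw × ℕ => NOk x.1 ∧ GOk (skip x.1) ∧ GOk (gr (skip x.1)) ∧
      (bits (gr (gr (skip x.1)))).length = 0 ∧ 2 ≤ rdNat x.1 ∧
      Q (gn (skip x.1)) (cut _ (matOf _ (gl (skip x.1)))) ∧
      Q (gn (gr (skip x.1))) (cut _ (matOf _ (gl (gr (skip x.1))))) ∧
      gn (skip x.1) = gn (gr (skip x.1)) ∧ g (un (gn (skip x.1) + 2) (rdNat x.1), gn (skip x.1),
        gl (skip x.1), gl (gr (skip x.1)), x.2) = true) := by
    refine DT.and (by fun_prop) (DT.and (by fun_prop) (DT.and (by fun_prop) (DT.and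
      (DT.eq (BT.ofPT (by fun_prop)) (BT.const 0)) (DT.and (by fun_prop) (DT.and
      (hQ.comp (f := fun x : Raw × ℕ => skip x.1) (by fun_prop)) (DT.and
      (hQ.comp (f := fun x : Raw × ℕ => gr (skip x.1)) (by fun_prop)) (DT.and
      (DT.eq (BT.ofPT (by fun_prop)) (BT.ofPT (by fun_prop))) (dt_beq (hg.comp ?_) ?_))))))))
    all_goals fun_prop
  refine inEXP_of_pad' hg' 2 fun x N hN => ?_
  rw [H']
  have e : x ∈ {w | ∃ (k n m : ℕ) (G : Fin n → Fin n → Bool) (H : Fin m → Fin m → Bool),
      2 ≤ k ∧ Q n G ∧ Q m H ∧ JEquiv k G H ∧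
        w = Crest.Enc.natCode k ++ adjMatrixCode G ++ adjMatrixCode H} ↔
      ∃ k z, (⟨x⟩ : Raw).val = Crest.Enc.natCode k ++ z ∧ ∃ n G z', (⟨z⟩ : Raw).val =
        adjMatrixCode G ++ z' ∧ ∃ m H z'', (⟨z'⟩ : Raw).val = adjMatrixCode H ++ z'' ∧
          z''.length = 0 ∧ 2 ≤ k ∧ Q n G ∧ Q m H ∧ JEquiv k G H := by
    constructor
    · rintro ⟨k, n, m, G, H, h1, h2, h3, h4, rfl⟩
      exact ⟨k, _, List.append_assoc _ _ _, n, G, _, rfl, m, H, [], (List.append_nil _).symm, rfl,
        h1, h2, h3, h4⟩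
    · rintro ⟨k, z, e1, n, G, z', e2, m, H, z'', e3, h0, h1, h2, h3, h4⟩
      dsimp only at e1 e2 e3
      rw [List.length_eq_zero_iff.1 h0, List.append_nil] at e3
      exact ⟨k, n, m, G, H, h1, h2, h3, h4, by rw [e1, e2, e3, List.append_assoc]⟩
  rw [e, parseN]
  simp only [parseG]
  refine and_congr_right fun _ => and_congr_right fun _ => and_congr_right fun _ =>
    and_congr_right fun _ => and_congr_right fun hk => and_congr_right fun _ =>
    and_congr_right fun _ => ?_
  have h1 : gn (skip ⟨x⟩) ≤ x.length := (gn_le _).trans (length_skip ⟨x⟩)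
  change JEquiv _ (cut (gn (skip ⟨x⟩)) (matOf _ (gl (skip ⟨x⟩))))
    (cut (gn (gr (skip ⟨x⟩))) (matOf _ (gl (gr (skip ⟨x⟩))))) ↔ _
  generalize gn (skip ⟨x⟩) = n at h1 ⊢
  generalize gn (gr (skip ⟨x⟩)) = m
  by_cases hnm : n = m
  · subst hnm
    rw [H (un _ _) _ _ _ _ (budget h1 hN (min_le_right _ _)), jequiv_cut, and_iff_right rfl]
  · exact iff_of_false (fun h => hnm (card_eq_of_jequiv (by omega) h)) fun h => hnm h.1

theorem card_eq_of_wl {n m k : ℕ} {G : Fin n → Fin n → Bool} {H : Fin m → Fin m → Bool}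
    (hk : 1 ≤ k) (h : WLEquiv k G H) : n = m := by
  unfold WLEquiv at h
  split_ifs at h
  · simpa using congrArg Multiset.card (h 0)
  · exact card_eq_of_jequiv hk h

/-- the binary digits of `c` -/
def digs (L c : ℕ) : List Bool := mkL L fun i => decide (c / 2 ^ i % 2 = 1)

@[fun_prop] theorem pt_digs {L c : α → ℕ} (hL : PT L) (hc : PT c) :
    PT (fun a => digs (L a) (c a)) := by
  refine pt_mkL hL (pt_decide (DT.eq (BT.mod (BT.div (BT.ofPT ?_) (BT.pow (BT.const 2) ?_))
    (BT.const 2)) (BT.const 1)))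
  all_goals fun_prop

theorem identifies_iff {n k : ℕ} (hk : 1 ≤ k) (G : Fin n → Fin n → Bool) :
    Identifies k G ↔ All (2 ^ (n * n)) fun c => IsSimple (cut n (matOf n (digs (n * n) c))) →
      WLEquiv k G (cut n (matOf n (digs (n * n) c))) →
        JEquiv (n + 1) G (cut n (matOf n (digs (n * n) c))) := by
  refine ⟨fun h c _ h1 h2 => jequiv_of_iso _ (h _ _ h1 h2), fun h m H h1 h2 => ?_⟩
  obtain rfl := card_eq_of_wl hk h2
  obtain ⟨f, hf⟩ := exists_fun H
  have e := hf (digs (n * n) (Nat.ofBits f)) fun i => by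
    rw [digs, getD_mkL _ _ i.2, ← Nat.testBit_eq_decide_div_mod_eq, Nat.testBit_ofBits_lt _ _ i.2]
  have := h _ (Nat.ofBits_lt_two_pow f)
  beta_reduce at this
  rw [e] at this
  exact iso_of_jequiv (by omega) (by omega) (this h1 h2)

theorem dim_iff {n k : ℕ} (G : Fin n → Fin n → Bool) :
    (∃ k', 1 ≤ k' ∧ k' ≤ k ∧ Identifies k' G) ↔
      Ex (n + 3) fun k' => 1 ≤ k' ∧ k' ≤ k ∧ Identifies k' G := by
  refine ⟨fun ⟨k', h1, h2, h3⟩ => ?_, fun ⟨k', _, h⟩ => ⟨k', h⟩⟩
  by_cases h : k' < n + 3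
  · exact ⟨k', h, h1, h2, h3⟩
  · refine ⟨n + 2, by omega, by omega, by omega, fun m H _ h' => ?_⟩
    rw [WLEquiv, if_neg (by omega)] at h'
    exact iso_of_jequiv (by omega) (by omega) h'

end Exl

open Exl in
/-- Parse `k` (binary, `rdNat`), `n` (cut off by the input length, `un`), the `n * n` bits, `m`, the
`m * m` bits, and check that re-encoding gives back the input. If `n ≠ m` reject
(`card_eq_of_jequiv`); replace `k` by `min k (n + 2)` (`iso_of_jequiv`, `jequiv_of_iso`); run
`exists_jtest` with the budget `(n + 1) ^ (n + 2) ≤ 2 ^ ((|x| + 2) ^ 2)`; conclude by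
`inEXP_of_pad'`. -/
theorem varDim_inEXP : Crest.ExpTime.InEXP varDimEquivLang := by
  exact pair_inEXP (fun _ G => IsSimple G) (dt_simple (by fun_prop) (by fun_prop))

open Exl in
theorem subcubic_inEXP : Crest.ExpTime.InEXP subcubicVarDimEquivLang := by
  convert pair_inEXP (fun _ G => SimpleConnSubcubic G) (dt_sub (by fun_prop) (by fun_prop))
  ext w
  constructor
  · rintro ⟨k, n, G, H, h1, -, h2, h3, h4, h5⟩
    exact ⟨k, n, n, G, H, h1, h2, h3, h4, h5⟩
  · rintro ⟨k, n, m, G, H, h1, h2, h3, h4, h5⟩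
    obtain rfl := card_eq_of_jequiv (by omega) h4
    exact ⟨k, n, G, H, h1, Fin.pos_iff_nonempty.2 h2.2.1.nonempty, h2, h3, h4, h5⟩

open Exl in
/-- Equivalent graphs have the same order, so only the `2 ^ (n * n)` matrices on `n` vertices matter
(bit `i` of a number `c < 2 ^ (n * n)`); isomorphism is `JEquiv (n + 1)`; dimensions above `n + 2`
are not needed (dimension `n + 2` always identifies). -/
theorem wlDim_inEXP : Crest.ExpTime.InEXP wlDimLeLang := by
  obtain ⟨g, hg, H⟩ := exists_jtest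
  obtain ⟨gc, hgc, Hc⟩ := exists_crtest
  have hin : DT (fun x : (ℕ × List Bool × ℕ) × ℕ => All (un x.1.2.2 (2 ^ (x.1.1 * x.1.1))) fun c =>
      IsSimple (cut x.1.1 (matOf x.1.1 (digs (x.1.1 * x.1.1) c))) →
      (if x.2 = 1 then gc (x.1.1, x.1.2.1, digs (x.1.1 * x.1.1) c) = true else
        g (x.2, x.1.1, x.1.2.1, digs (x.1.1 * x.1.1) c, x.1.2.2) = true) →
      g (x.1.1 + 1, x.1.1, x.1.2.1, digs (x.1.1 * x.1.1) c, x.1.2.2) = true) := by
    refine DT.all (pt_un (by fun_prop) (BT.pow (BT.const 2) (by fun_prop))) (dt_imp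
      (dt_simple (by fun_prop) (by fun_prop)) (dt_imp (DT.ite (DT.eq (BT.ofPT ?_) (BT.const 1))
        (dt_beq (hgc.comp ?_) (PT.const _)) (dt_beq (hg.comp ?_) (PT.const _)))
        (dt_beq (hg.comp ?_) (PT.const _))))
    all_goals fun_prop
  obtain ⟨g₁, hg₁, H₁⟩ := hin
  obtain ⟨g', hg', H'⟩ : DT (fun x : Raw × ℕ => NOk x.1 ∧ GOk (skip x.1) ∧
      (bits (gr (skip x.1))).length = 0 ∧ 1 ≤ rdNat x.1 ∧ 0 < gn (skip x.1) ∧
      IsSimple (cut (gn (skip x.1)) (matOf _ (gl (skip x.1)))) ∧
      Ex (gn (skip x.1) + 3) fun k' => 1 ≤ k' ∧ k' ≤ rdNat x.1 ∧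
        g₁ ((gn (skip x.1), gl (skip x.1), x.2), k') = true) := by
    refine DT.and (by fun_prop) (DT.and (by fun_prop) (DT.and
      (DT.eq (BT.ofPT (by fun_prop)) (BT.const 0)) (DT.and (by fun_prop) (DT.and
      (DT.lt (BT.const 0) (BT.ofPT (by fun_prop))) (DT.and (dt_simple (by fun_prop) (by fun_prop))
      (DT.ex (by fun_prop) (DT.and (by fun_prop) (DT.and (by fun_prop)
        (dt_beq (hg₁.comp ?_) (PT.const _))))))))))
    fun_prop
  refine inEXP_of_pad' hg' 2 fun x N hN => ?_
  rw [H']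
  have e : x ∈ wlDimLeLang ↔
      ∃ k z, (⟨x⟩ : Raw).val = Crest.Enc.natCode k ++ z ∧
        ∃ (n : ℕ) (G : Fin n → Fin n → Bool) (z' : List Bool), (⟨z⟩ : Raw).val =
        adjMatrixCode G ++ z' ∧ z'.length = 0 ∧ 1 ≤ k ∧ 0 < n ∧ IsSimple G ∧
          ∃ k', 1 ≤ k' ∧ k' ≤ k ∧ Identifies k' G := by
    constructor
    · rintro ⟨k, n, G, h1, h2, h3, h4, rfl⟩
      exact ⟨k, _, rfl, n, G, [], (List.append_nil _).symm, rfl, h1, h2, h3, h4⟩
    · rintro ⟨k, z, e1, n, G, z', e2, h0, h1, h2, h3, h4⟩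
      dsimp only at e1 e2
      rw [List.length_eq_zero_iff.1 h0, List.append_nil] at e2
      exact ⟨k, n, G, h1, h2, h3, h4, by rw [e1, e2]⟩
  rw [e, parseN]
  simp only [parseG]
  refine and_congr_right fun _ => and_congr_right fun _ => and_congr_right fun _ =>
    and_congr_right fun _ => and_congr_right fun _ => and_congr_right fun _ => ?_
  have h1 : gn (skip ⟨x⟩) ≤ x.length := (gn_le _).trans (length_skip ⟨x⟩)
  rw [dim_iff]
  change Ex (gn (skip ⟨x⟩) + 3) (fun k' => 1 ≤ k' ∧ k' ≤ _ ∧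
    Identifies k' (cut (gn (skip ⟨x⟩)) (matOf _ (gl (skip ⟨x⟩))))) ↔ _
  generalize gn (skip ⟨x⟩) = n at h1 ⊢
  refine exists_congr fun k' => and_congr_right fun hk => and_congr_right fun hk1 =>
    and_congr_right fun _ => ?_
  have h2 : un N (2 ^ (n * n)) = 2 ^ (n * n) :=
    min_eq_left ((Nat.pow_le_pow_right two_pos (by nlinarith)).trans hN)
  rw [H₁, identifies_iff hk1]
  dsimp only
  rw [h2]
  simp only [Hc, H _ _ _ _ _ (budget h1 hN (by omega : k' ≤ n + 2)),
    H _ _ _ _ _ (budget h1 hN (by omega : n + 1 ≤ n + 2)), WLEquiv]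

end Crest.Agent.R290
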