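import Crest.Agent.R290.Time
import Crest.Prelude.Def_ExpTime

/-!
Row 290, task PAD: exponential padding.
-/

set_option autoImplicit false

namespace Crest.Agent.R290

open Crest.Agent.PT Crest.Agent.QC Crest.Agent.R317

/-- `iterate_time` with `f (x, t) = (x, 2 t)` iterated `(|x| + 2) ^ K` times from `(x, 1)`. -/
theorem expMach {g : Raw × ℕ → Bool} (hg : PT g) (K : ℕ) :
    ∃ (τ : Type) (_ : Finite τ) (M : Mach (Option τ)) (K' : ℕ), ∀ x : List Bool,
      M.Runs (st x) (st [g (⟨x⟩, 2 ^ ((x.length + 2) ^ K))]) (2 ^ ((x.length + 2) ^ K')) := by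
  have key : ∀ (x : Raw) (i : ℕ),
      (fun p : Raw × ℕ => (p.1, 2 * p.2))^[i] (x, 1) = (x, 2 ^ i) := by
    intro x i
    induction i with
    | zero => rfl
    | succ i ih => rw [Function.iterate_succ_apply', ih, pow_succ']
  obtain ⟨τ, hτ, M, k, hM⟩ := iterate_time (α := Raw) (f := fun p : Raw × ℕ => (p.1, 2 * p.2))
    (g := fun x : Raw => (sz x + 2) ^ K) (h := fun x : Raw => (x, (1 : ℕ))) (u := g)
    (PT.id'.fst.pair ((PT.const 2).mul PT.id'.snd))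
    ((PT.id'.len.add (PT.const 2)).pow K) (PT.id'.pair (PT.const 1)) hg
    (fun x => 2 * sz x + 2 ^ ((sz x + 2) ^ K) + 1) (fun x => by
      have := Nat.zero_le (2 ^ ((sz x + 2) ^ K))
      omega) (fun x i hi => by
      rw [key, sz_pair, sz_nat]
      rw [sz_nat] at hi
      have := Nat.pow_le_pow_right (show 0 < 2 by norm_num) hi
      omega)
  refine ⟨τ, hτ, M, K + 2 + k, fun x => ?_⟩
  have h := hM ⟨x⟩
  rw [key, sz_nat] at h
  refine Mach.Runs.mono h ?_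
  show (2 * x.length + 2 ^ ((x.length + 2) ^ K) + 1 + 2) ^ k ≤ _
  generalize x.length = n
  have hP : 1 ≤ (n + 2) ^ K := Nat.one_le_pow _ _ (by omega)
  have h1 : (n + 2) ^ K ≤ (n + 2) ^ (K + 1) := Nat.pow_le_pow_right (by omega) (by omega)
  have h2 : n + 2 ≤ (n + 2) ^ (K + 1) := by rw [pow_succ]; nlinarith
  have h3 : 2 * n + 3 ≤ 2 ^ (n + 2) := by
    have := @Nat.lt_two_pow_self n
    rw [pow_add]; omega
  have h4 := Nat.pow_le_pow_right (show 0 < 2 by norm_num) h1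
  have h5 := Nat.pow_le_pow_right (show 0 < 2 by norm_num) h2
  have h6 : 2 * n + 2 ^ ((n + 2) ^ K) + 1 + 2 ≤ 2 ^ ((n + 2) ^ (K + 1) + 1) := by
    rw [pow_succ 2]; omega
  refine (Nat.pow_le_pow_left h6 k).trans ?_
  rw [← pow_mul]
  refine Nat.pow_le_pow_right (by norm_num) ?_
  have h7 : k ≤ (n + 2) ^ k :=
    (@Nat.lt_two_pow_self k).le.trans (Nat.pow_le_pow_left (by omega) k)
  rw [show K + 2 + k = (K + 1) + 1 + k by omega, pow_add (n + 2) (K + 1 + 1) k,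
    pow_succ (n + 2) (K + 1)]
  exact Nat.mul_le_mul (by nlinarith) h7

/-- `timeBound_of_runs`; `2 ^ ((n + 2) ^ K') + 1 ≤ c * 2 ^ (n ^ (2 K' )) + c` or similar. -/
theorem inEXP_of_pad {L : Set (List Bool)} {g : Raw × ℕ → Bool} (hg : PT g) (K : ℕ)
    (h : ∀ x : List Bool, x ∈ L ↔ g (⟨x⟩, 2 ^ ((x.length + 2) ^ K)) = true) :
    Crest.ExpTime.InEXP L := by
  obtain ⟨τ, hτ, M, K', hM⟩ := expMach hg K
  obtain ⟨N, hN⟩ := timeBound_of_runs (Computability.encodingList Bool).encode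
    Computability.encodeBool (fun x : List Bool => g (⟨x⟩, 2 ^ ((x.length + 2) ^ K))) M
    (fun n => 2 ^ ((n + 2) ^ K')) hM
  refine ⟨2 * K', _, 2 ^ (3 ^ K'), ⟨N, fun n => (hN n).trans ?_⟩, h⟩
  have hc : 1 ≤ 2 ^ (3 ^ K') := Nat.one_le_two_pow
  have hd : 1 ≤ 2 ^ (n ^ (2 * K')) := Nat.one_le_two_pow
  show 2 ^ ((n + 2) ^ K') + 1 ≤ 2 ^ (3 ^ K') * 2 ^ (n ^ (2 * K')) + 2 ^ (3 ^ K')
  refine Nat.add_le_add ?_ hc
  rcases Nat.lt_or_ge n 2 with hn | hn
  · exact (Nat.pow_le_pow_right (by norm_num) (Nat.pow_le_pow_left (by omega) _)).trans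
      (Nat.le_mul_of_pos_right _ hd)
  · refine le_trans (Nat.pow_le_pow_right (by norm_num) ?_) (Nat.le_mul_of_pos_left _ hc)
    rw [pow_mul]
    exact Nat.pow_le_pow_left (by nlinarith) _

/-- A convenient form: `g` is correct for every large enough padding. -/
theorem inEXP_of_pad' {L : Set (List Bool)} {g : Raw × ℕ → Bool} (hg : PT g) (K : ℕ)
    (h : ∀ (x : List Bool) (N : ℕ), 2 ^ ((x.length + 2) ^ K) ≤ N → (x ∈ L ↔ g (⟨x⟩, N) = true)) :
    Crest.ExpTime.InEXP L := inEXP_of_pad hg K fun x => h x _ le_rfl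

end Crest.Agent.R290
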