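import Crest.Agent.R290.UTM
import Crest.Agent.R290.Pad

/-!
Row 290, task EXM: every problem in EXPTIME, and its complement, is decided by a `Mach`.
-/

set_option autoImplicit false

namespace Crest.Agent.R290

open Crest.Agent.PT Crest.Agent.QC Crest.Agent.R317

theorem exm_bound (D c k n : ℕ) :
    D * (c * 2 ^ (n ^ k) + c + 1) ≤ 2 ^ ((n + 2) ^ (D * (2 * c + 1) + k + 1)) := by
  obtain ⟨E, hE⟩ : ∃ E, E = D * (2 * c + 1) := ⟨_, rfl⟩
  rw [← hE]
  have h1 : 1 ≤ 2 ^ (n ^ k) := Nat.one_le_two_pow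
  have h2 : D * (c * 2 ^ (n ^ k) + c + 1) ≤ E * 2 ^ (n ^ k) := by
    rw [hE, Nat.mul_assoc]
    exact Nat.mul_le_mul_left _ (by nlinarith)
  have h3 : E ≤ 2 ^ E := Nat.lt_two_pow_self.le
  have h4 : E ≤ (n + 2) ^ (E + k) :=
    h3.trans ((Nat.pow_le_pow_left (by omega) E).trans (Nat.pow_le_pow_right (by omega) (by omega)))
  have h5 : n ^ k ≤ (n + 2) ^ (E + k) :=
    (Nat.pow_le_pow_left (by omega) k).trans (Nat.pow_le_pow_right (by omega) (by omega))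
  have h6 : E + n ^ k ≤ (n + 2) ^ (E + k + 1) := by
    rw [pow_succ]
    nlinarith
  calc _ ≤ 2 ^ E * 2 ^ (n ^ k) := h2.trans (Nat.mul_le_mul_right _ h3)
    _ = 2 ^ (E + n ^ k) := (pow_add _ _ _).symm
    _ ≤ _ := Nat.pow_le_pow_right (by omega) h6

/-- From `utm` and `expMach`: `g (x, t) = xor neg (U (code, x, t))`, with
`D * (c * 2 ^ (n ^ k) + c + 1) ≤ 2 ^ ((n + 2) ^ K)` for a suitable `K`. -/
theorem mach_of_inEXP {A : Set (List Bool)} (hA : Crest.ExpTime.InEXP A) (neg : Bool) :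
    ∃ (τ : Type) (_ : Finite τ) (M : Mach (Option τ)) (K : ℕ) (f : List Bool → Bool),
      (∀ x, x ∈ A ↔ f x = true) ∧
      ∀ x : List Bool, M.Runs (st x) (st [xor neg (f x)]) (2 ^ ((x.length + 2) ^ K)) := by
  obtain ⟨k, f, c, ⟨M, hM⟩, hf⟩ := hA
  obtain ⟨γ, _, U, hU, H⟩ := utm
  obtain ⟨code, D, hD⟩ := H _ _ f M
  have hg : PT (fun p : Raw × ℕ => xor neg (U (code, p.1, p.2))) :=
    PT.xor (PT.const _) (hU.comp (f := fun p : Raw × ℕ => (code, p.1, p.2)) (by fun_prop))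
  obtain ⟨τ, hτ, M', K', hM'⟩ := expMach hg (D * (2 * c + 1) + k + 1)
  refine ⟨τ, hτ, M', K', f, hf, fun x => ?_⟩
  have h1 := hD x (2 ^ ((x.length + 2) ^ (D * (2 * c + 1) + k + 1)))
    ((Nat.mul_le_mul_left _ (Nat.succ_le_succ (hM _))).trans (exm_bound D c k x.length))
  have h2 := hM' x
  have h3 : U (code, ⟨x⟩, 2 ^ ((x.length + 2) ^ (D * (2 * c + 1) + k + 1))) = f x := h1
  simpa only [h3] using h2

end Crest.Agent.R290
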