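import Crest.Agent.R290.Time

/-!
Row 290, task EXW: a generic colour refinement test on numbered nodes.
-/

set_option autoImplicit false

namespace Crest.Agent.R290.Exw

open Crest.Agent.PT Crest.Agent.QC Crest.Agent.R317 Finset

/-- entry of a table -/
def get (T : List (List Bool)) (c c' : ℕ) : Bool := (T.getD c []).getD c' false

/-- a square table -/
def mkT (M : ℕ) (f : ℕ → ℕ → Bool) : List (List Bool) := mkL M fun c => mkL M fun c' => f c c'

theorem get_mkT {M c c' : ℕ} (f : ℕ → ℕ → Bool) (h : c < M) (h' : c' < M) :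
    get (mkT M f) c c' = f c c' := by
  rw [get, mkT, getD_mkL _ _ h, getD_mkL _ _ h']

theorem mkT_congr {M : ℕ} {f g : ℕ → ℕ → Bool} (h : ∀ c < M, ∀ c' < M, f c c' = g c c') :
    mkT M f = mkT M g := by
  unfold mkT mkL
  refine List.map_congr_left fun c hc => List.map_congr_left fun c' hc' => ?_
  exact h c (by simpa using hc) c' (by simpa using hc')

theorem sz_mkT (M : ℕ) (f : ℕ → ℕ → Bool) : sz (mkT M f) ≤ M * (2 * (M * 3) + 1) := by
  have := sz_list_le (mkT M f) (M * 3) (fun x hx => by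
    simp only [mkT, mkL, List.mem_map] at hx
    obtain ⟨c, -, rfl⟩ := hx
    have := sz_list_le ((List.range M).map fun c' => f c c') 1 (fun b _ => le_of_eq rfl)
    simpa using this)
  simpa [mkT] using this

open scoped Classical in
/-- number of children of `c` that look like child `z₀` of `c₀` -/
noncomputable def cnt (n k : ℕ) (msk : ℕ → ℕ → Bool) (ch : ℕ → ℕ → ℕ → ℕ) (T : List (List Bool))
    (c₀ z₀ c : ℕ) : ℕ :=
  ∑ z ∈ range n, if msk c z = true ∧ All k (fun i => get T (ch c₀ z₀ i) (ch c z i) = true) then 1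
    else 0

/-- one round -/
noncomputable def step (M n k : ℕ) (msk : ℕ → ℕ → Bool) (ch : ℕ → ℕ → ℕ → ℕ)
    (T : List (List Bool)) : List (List Bool) :=
  mkT M fun c c' => decide (get T c c' = true ∧
    All M fun c₀ => All n fun z₀ => cnt n k msk ch T c₀ z₀ c = cnt n k msk ch T c₀ z₀ c')

/-- the table at round `s` -/
noncomputable def tab (M n k : ℕ) (r₀ msk : ℕ → ℕ → Bool) (ch : ℕ → ℕ → ℕ → ℕ) (s : ℕ) :
    List (List Bool) := Nat.rec (mkT M r₀) (fun _ T => step M n k msk ch T) s

/-- the two halves have the same histogram -/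
def Hist (m : ℕ) (T : List (List Bool)) : Prop :=
  All (2 * m) fun c₀ => (∑ a ∈ range m, if get T c₀ a = true then 1 else 0 : ℕ) =
    ∑ a ∈ range m, if get T c₀ (m + a) = true then 1 else 0

/-- the test -/
def Test (m n k : ℕ) (r₀ msk : ℕ → ℕ → Bool) (ch : ℕ → ℕ → ℕ → ℕ) : Prop :=
  All ((2 * m) ^ 2 + 1) fun s => Hist m (tab (2 * m) n k r₀ msk ch s)

section Poly
variable {α : Type} [Enc α]

@[fun_prop] theorem pt_get {T : α → List (List Bool)} {c c' : α → ℕ} (hT : PT T) (hc : PT c)
    (hc' : PT c') : PT (fun a => get (T a) (c a) (c' a)) := by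
  unfold get; fun_prop

@[fun_prop] theorem pt_mkT {M : α → ℕ} {f : α → ℕ → ℕ → Bool} (hM : PT M)
    (hf : PT (fun p : α × ℕ × ℕ => f p.1 p.2.1 p.2.2)) : PT (fun a => mkT (M a) (f a)) := by
  unfold mkT; fun_prop

variable {M m n k : α → ℕ} {r₀ msk : α → ℕ → ℕ → Bool} {ch : α → ℕ → ℕ → ℕ → ℕ}

theorem pt_cnt (hn : PT n) (hk : PT k) (hmsk : PT (fun p : α × ℕ × ℕ => msk p.1 p.2.1 p.2.2))
    (hch : PT (fun p : α × ℕ × ℕ × ℕ => ch p.1 p.2.1 p.2.2.1 p.2.2.2)) :
    PT (fun p : α × List (List Bool) × ℕ × ℕ × ℕ =>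
      cnt (n p.1) (k p.1) (msk p.1) (ch p.1) p.2.1 p.2.2.1 p.2.2.2.1 p.2.2.2.2) := by
  unfold cnt; fun_prop

theorem pt_step (hM : PT M) (hn : PT n) (hk : PT k)
    (hmsk : PT (fun p : α × ℕ × ℕ => msk p.1 p.2.1 p.2.2))
    (hch : PT (fun p : α × ℕ × ℕ × ℕ => ch p.1 p.2.1 p.2.2.1 p.2.2.2)) :
    PT (fun p : α × List (List Bool) => step (M p.1) (n p.1) (k p.1) (msk p.1) (ch p.1) p.2) := by
  have h := pt_cnt hn hk hmsk hch
  obtain ⟨F, hF⟩ : ∃ F : α → List (List Bool) → ℕ → ℕ → ℕ → ℕ,
      F = fun a => cnt (n a) (k a) (msk a) (ch a) := ⟨_, rfl⟩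
  have h' : PT (fun p : α × List (List Bool) × ℕ × ℕ × ℕ =>
      F p.1 p.2.1 p.2.2.1 p.2.2.2.1 p.2.2.2.2) := by rw [hF]; exact h
  have : PT (fun p : α × List (List Bool) => mkT (M p.1) fun c c' => decide (get p.2 c c' = true ∧
    All (M p.1) fun c₀ => All (n p.1) fun z₀ => F p.1 p.2 c₀ z₀ c = F p.1 p.2 c₀ z₀ c')) := by
    fun_prop
  subst hF
  exact this

theorem pt_tab (hM : PT M) (hn : PT n) (hk : PT k)
    (hr : PT (fun p : α × ℕ × ℕ => r₀ p.1 p.2.1 p.2.2))
    (hmsk : PT (fun p : α × ℕ × ℕ => msk p.1 p.2.1 p.2.2))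
    (hch : PT (fun p : α × ℕ × ℕ × ℕ => ch p.1 p.2.1 p.2.2.1 p.2.2.2)) :
    PT (fun p : α × ℕ => tab (M p.1) (n p.1) (k p.1) (r₀ p.1) (msk p.1) (ch p.1) p.2) := by
  have h := pt_step hM hn hk hmsk hch
  refine PT.natRec (g := fun p : α × ℕ => p.2) (z := fun p => mkT (M p.1) (r₀ p.1))
    (s := fun p _ T => step (M p.1) (n p.1) (k p.1) (msk p.1) (ch p.1) T) (by fun_prop)
    (by fun_prop) (h.comp (f := fun q : (α × ℕ) × ℕ × List (List Bool) => (q.1.1, q.2.2))
      (by fun_prop)) (B := fun p => M p.1 * (2 * (M p.1 * 3) + 1)) (PT.pbNat (by fun_prop))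
    (fun p i _ => ?_)
  cases i <;> exact sz_mkT _ _

theorem dt_test (hm : PT m) (hn : PT n) (hk : PT k)
    (hr : PT (fun p : α × ℕ × ℕ => r₀ p.1 p.2.1 p.2.2))
    (hmsk : PT (fun p : α × ℕ × ℕ => msk p.1 p.2.1 p.2.2))
    (hch : PT (fun p : α × ℕ × ℕ × ℕ => ch p.1 p.2.1 p.2.2.1 p.2.2.2)) :
    DT (fun a => Test (m a) (n a) (k a) (r₀ a) (msk a) (ch a)) := by
  have h := pt_tab (M := fun a => 2 * m a) (by fun_prop) hn hk hr hmsk hch
  have h2 : DT (fun p : α × List (List Bool) => Hist (m p.1) p.2) := by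
    unfold Hist; fun_prop
  refine DT.all (by fun_prop) ?_
  exact h2.comp (f := fun p : α × ℕ =>
    (p.1, tab (2 * m p.1) (n p.1) (k p.1) (r₀ p.1) (msk p.1) (ch p.1) p.2)) (PT.pair (by fun_prop) h)

end Poly

section Stab
variable (M n k : ℕ) (r₀ msk : ℕ → ℕ → Bool) (ch : ℕ → ℕ → ℕ → ℕ)

theorem tab_succ (s : ℕ) :
    tab M n k r₀ msk ch (s + 1) = step M n k msk ch (tab M n k r₀ msk ch s) := rfl

theorem tab_eq (s : ℕ) : tab M n k r₀ msk ch s = mkT M (get (tab M n k r₀ msk ch s)) := by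
  have h : ∀ f, mkT M f = mkT M (get (mkT M f)) := fun f =>
    mkT_congr fun c hc c' hc' => (get_mkT f hc hc').symm
  cases s <;> exact h _

theorem exists_fix : ∃ s ≤ M ^ 2, tab M n k r₀ msk ch (s + 1) = tab M n k r₀ msk ch s := by
  by_contra hne
  push Not at hne
  let S : ℕ → Finset (ℕ × ℕ) := fun s =>
    (range M ×ˢ range M).filter fun p => get (tab M n k r₀ msk ch s) p.1 p.2 = true
  have hsub : ∀ s, S (s + 1) ⊆ S s := by
    intro s p hp
    simp only [S, mem_filter, mem_product, mem_range] at hp ⊢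
    refine ⟨hp.1, ?_⟩
    have := hp.2
    rw [tab_succ, step, get_mkT _ hp.1.1 hp.1.2, decide_eq_true_eq] at this
    exact this.1
  have hlt : ∀ s ≤ M ^ 2, (S (s + 1)).card < (S s).card := by
    intro s hs
    refine card_lt_card (ssubset_of_subset_of_ne (hsub s) fun he => hne s hs ?_)
    rw [tab_eq M n k r₀ msk ch (s + 1), tab_eq M n k r₀ msk ch s]
    refine mkT_congr fun c hc c' hc' => ?_
    have := congrArg (fun t => (c, c') ∈ t) he
    simp only [S, mem_filter, mem_product, mem_range, hc, hc', true_and, eq_iff_iff] at this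
    exact Bool.eq_iff_iff.2 this
  have hb : ∀ s ≤ M ^ 2 + 1, (S s).card + s ≤ M ^ 2 := by
    intro s
    induction s with
    | zero =>
      intro _
      have := card_filter_le (range M ×ˢ range M)
        (fun p => get (tab M n k r₀ msk ch 0) p.1 p.2 = true)
      simpa [S, sq] using this
    | succ s ih =>
      intro hs
      have h1 := ih (by omega)
      have h2 := hlt s (by omega)
      omega
  have := hb _ le_rfl
  omega

theorem exists_le (s : ℕ) : ∃ s' ≤ M ^ 2, tab M n k r₀ msk ch s = tab M n k r₀ msk ch s' := by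
  obtain ⟨s₀, h0, h⟩ := exists_fix M n k r₀ msk ch
  rcases le_total s s₀ with hs | hs
  · exact ⟨s, hs.trans h0, rfl⟩
  · refine ⟨s₀, h0, ?_⟩
    induction s, hs using Nat.le_induction with
    | base => rfl
    | succ s _ ih => rw [tab_succ, ih, ← tab_succ, h]

theorem test_iff_all (m : ℕ) :
    Test m n k r₀ msk ch ↔ ∀ s, Hist m (tab (2 * m) n k r₀ msk ch s) := by
  refine ⟨fun h s => ?_, fun h s _ => h s⟩
  obtain ⟨s', hs', e⟩ := exists_le (2 * m) n k r₀ msk ch s
  rw [e]
  exact h s' (by omega)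

end Stab

theorem multiset_eq_iff {X ι : Type} [DecidableEq X] (x : ι → X) {A B : Multiset X}
    (hA : ∀ a ∈ A, ∃ i, x i = a) (hB : ∀ a ∈ B, ∃ i, x i = a) :
    A = B ↔ ∀ i, A.count (x i) = B.count (x i) := by
  refine ⟨fun h i => by rw [h], fun h => Multiset.ext.2 fun a => ?_⟩
  by_cases ha : ∃ i, x i = a
  · obtain ⟨i, rfl⟩ := ha
    exact h i
  · rw [Multiset.count_eq_zero.2 fun h' => ha (hA a h'),
      Multiset.count_eq_zero.2 fun h' => ha (hB a h')]

theorem count_map_filter {X ι : Type} [DecidableEq X] [Fintype ι] (p : ι → Prop) [DecidablePred p]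
    (f : ι → X) (x : X) :
    ((univ.filter p).val.map f).count x = ∑ z, if p z ∧ x = f z then 1 else 0 := by
  rw [Multiset.count_map, ← filter_val, card_val, filter_filter, card_filter]

/-- the number of a node -/
def code {A : Type} {m : ℕ} (e : A ≃ Fin m) (p : Bool × A) : ℕ := (if p.1 then m else 0) + e p.2

theorem code_lt {A : Type} {m : ℕ} (e : A ≃ Fin m) (p : Bool × A) : code e p < 2 * m := by
  have := (e p.2).2
  unfold code
  split_ifs <;> omega

theorem all_code {A : Type} {m : ℕ} (e : A ≃ Fin m) (P : ℕ → Prop) :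
    All (2 * m) P ↔ ∀ p, P (code e p) := by
  refine ⟨fun h p => h _ (code_lt e p), fun h c hc => ?_⟩
  by_cases h1 : c < m
  · have := h (false, e.symm ⟨c, h1⟩)
    simpa [code] using this
  · have := h (true, e.symm ⟨c - m, by omega⟩)
    simpa [code, show m + (c - m) = c by omega] using this

theorem test_iff {A : Type} [Fintype A] {m n k : ℕ} (e : A ≃ Fin m) {r₀ msk : ℕ → ℕ → Bool}
    {ch : ℕ → ℕ → ℕ → ℕ} {X : ℕ → Type} (col : ∀ s, Bool × A → X s)
    (mA : Bool × A → Fin n → Bool) (cA : A → Fin n → Fin k → A)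
    (hcol : ∀ s p q, col (s + 1) p = col (s + 1) q ↔ col s p = col s q ∧
      (univ.filter fun z => mA p z = true).val.map (fun z i => col s (p.1, cA p.2 z i)) =
      (univ.filter fun z => mA q z = true).val.map (fun z i => col s (q.1, cA q.2 z i)))
    (hr : ∀ p q, r₀ (code e p) (code e q) = true ↔ col 0 p = col 0 q)
    (hm : ∀ p (z : Fin n), msk (code e p) z = mA p z)
    (hc : ∀ p (z : Fin n) (i : Fin k), ch (code e p) z i = code e (p.1, cA p.2 z i)) :
    Test m n k r₀ msk ch ↔ ∀ s, (univ : Finset A).val.map (fun u => col s (false, u)) =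
      (univ : Finset A).val.map (fun u => col s (true, u)) := by
  classical
  have key : ∀ s p q, get (tab (2 * m) n k r₀ msk ch s) (code e p) (code e q) = true ↔
      col s p = col s q := by
    intro s
    induction s with
    | zero =>
      intro p q
      rw [← hr]
      exact Bool.eq_iff_iff.1 (get_mkT _ (code_lt e p) (code_lt e q))
    | succ s ih =>
      intro p q
      have hcnt : ∀ (p₀ : Bool × A) (z₀ : Fin n) (p : Bool × A),
          cnt n k msk ch (tab (2 * m) n k r₀ msk ch s) (code e p₀) z₀ (code e p) =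
          ((univ.filter fun z => mA p z = true).val.map
            (fun z i => col s (p.1, cA p.2 z i))).count (fun i => col s (p₀.1, cA p₀.2 z₀ i)) := by
        intro p₀ z₀ p
        rw [count_map_filter, cnt, ← Fin.sum_univ_eq_sum_range (fun z => if msk (code e p) z = true ∧
          All k (fun i => get (tab (2 * m) n k r₀ msk ch s) (ch (code e p₀) z₀ i)
            (ch (code e p) z i) = true) then 1 else 0)]
        refine sum_congr rfl fun z _ => ?_
        refine if_congr (and_congr (by rw [hm]) ?_) rfl rfl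
        rw [all_iff, funext_iff]
        exact forall_congr' fun i => by rw [hc, hc, ih]
      rw [tab_succ, step, get_mkT _ (code_lt e p) (code_lt e q), decide_eq_true_eq, hcol, ih,
        all_code e, multiset_eq_iff
          (fun w : (Bool × A) × Fin n => fun i => col s (w.1.1, cA w.1.2 w.2 i))]
      · refine and_congr Iff.rfl ?_
        simp only [all_iff, hcnt, Prod.forall]
      · intro a ha
        obtain ⟨z, -, rfl⟩ := Multiset.mem_map.1 ha
        exact ⟨(p, z), rfl⟩
      · intro a ha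
        obtain ⟨z, -, rfl⟩ := Multiset.mem_map.1 ha
        exact ⟨(q, z), rfl⟩
  rw [test_iff_all]
  refine forall_congr' fun s => ?_
  have hs : ∀ (p₀ : Bool × A) (σ : Bool),
      (∑ a ∈ range m, if get (tab (2 * m) n k r₀ msk ch s) (code e p₀)
        ((if σ then m else 0) + a) = true then 1 else 0 : ℕ) =
      ((univ : Finset A).val.map (fun u => col s (σ, u))).count (col s p₀) := by
    intro p₀ σ
    have := count_map_filter (fun _ : A => True) (fun u => col s (σ, u)) (col s p₀)
    rw [filter_true] at this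
    rw [this, ← Fin.sum_univ_eq_sum_range (fun a => if get (tab (2 * m) n k r₀ msk ch s)
      (code e p₀) ((if σ then m else 0) + a) = true then 1 else 0), ← e.sum_comp]
    refine sum_congr rfl fun u _ => if_congr ?_ rfl rfl
    rw [true_and, ← key]
    rfl
  rw [Hist, all_code e, multiset_eq_iff (col s)]
  · refine forall_congr' fun p => ?_
    rw [← hs, ← hs]
    simp
  · intro a ha
    obtain ⟨u, -, rfl⟩ := Multiset.mem_map.1 ha
    exact ⟨_, rfl⟩
  · intro a ha
    obtain ⟨u, -, rfl⟩ := Multiset.mem_map.1 ha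
    exact ⟨_, rfl⟩

end Crest.Agent.R290.Exw
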