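import Crest.Agent.R290.Defs

/-!
Row 290, task GAME: the bijective pebble game and Weisfeiler-Leman equivalence.
-/

set_option autoImplicit false

namespace Crest.Agent.R290

open Crest.WLRefine

section General

variable {V W V' W' : Type} [DecidableEq V] [DecidableEq W] [DecidableEq V'] [DecidableEq W']
  {G : V → V → Bool} {H : W → W → Bool} {P : Finset (V × W) → Prop} {m : ℕ}

theorem Strat.mono {m' : ℕ} (h : Strat m' G H P) (hm : m ≤ m') : Strat m G H P :=
  ⟨h.empty, h.sub, h.eq, h.adj, fun s hs hc => h.ext s hs (lt_of_lt_of_le hc hm)⟩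

theorem Game.mono {m' : ℕ} (h : Game m' G H) (hm : m ≤ m') : Game m G H :=
  let ⟨P, hP⟩ := h; ⟨P, hP.mono hm⟩

/-- Swap the two sides: `s` is good when `s.image Prod.swap` is. -/
theorem Strat.symm (h : Strat m G H P) : Strat m H G (fun s => P (s.image Prod.swap)) := by
  refine ⟨by simpa using h.empty, fun s t ht hst => h.sub _ _ ht (Finset.image_subset_image hst),
    fun s hs p hp q hq => ?_, fun s hs p hp q hq => ?_, fun s hs hc => ?_⟩
  · exact (h.eq _ hs _ (Finset.mem_image_of_mem _ hp) _ (Finset.mem_image_of_mem _ hq)).symm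
  · exact (h.adj _ hs _ (Finset.mem_image_of_mem _ hp) _ (Finset.mem_image_of_mem _ hq)).symm
  · obtain ⟨e, he⟩ := h.ext _ hs (lt_of_le_of_lt Finset.card_image_le hc)
    refine ⟨e.symm, fun z => ?_⟩
    have := he (e.symm z)
    rw [Equiv.apply_symm_apply] at this
    simpa [Finset.image_insert] using this

theorem Game.symm (h : Game m G H) : Game m H G := let ⟨_, hP⟩ := h; ⟨_, hP.symm⟩

/-- One more pebble next to a single pair. -/
theorem Strat.step (h : Strat m G H P) (hm : 2 ≤ m) {a : V} {b : W} (hab : P {(a, b)}) :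
    ∃ e : V ≃ W, ∀ z, P {(z, e z), (a, b)} ∧ P {(z, e z)} ∧ G a z = H b (e z) ∧
      G z a = H (e z) b ∧ (z = a ↔ e z = b) := by
  obtain ⟨e, he⟩ := h.ext _ hab (by simp; omega)
  refine ⟨e, fun z => ⟨he z, h.sub _ _ (he z) (by simp), ?_, ?_, ?_⟩⟩
  · exact h.adj _ (he z) (a, b) (by simp) (z, e z) (by simp)
  · exact h.adj _ (he z) (z, e z) (by simp) (a, b) (by simp)
  · exact h.eq _ (he z) (z, e z) (by simp) (a, b) (by simp)

/-- Related vertices have the same degree. -/
theorem Strat.deg (h : Strat m G H P) (hm : 2 ≤ m) {a : V} {b : W} (hab : P {(a, b)}) :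
    Nat.card {z // G a z = true} = Nat.card {z // H b z = true} := by
  obtain ⟨e, he⟩ := h.step hm hab
  exact Nat.card_congr (e.subtypeEquiv fun z => by rw [(he z).2.2.1])

/-- Transport of a strategy along relabellings. -/
theorem Strat.congr (h : Strat m G H P) (eV : V ≃ V') (eW : W ≃ W') {G' : V' → V' → Bool}
    {H' : W' → W' → Bool} (hG : ∀ a b, G' (eV a) (eV b) = G a b)
    (hH : ∀ a b, H' (eW a) (eW b) = H a b) :
    Strat m G' H' (fun s => P (s.image fun p => (eV.symm p.1, eW.symm p.2))) := by
  refine ⟨by simpa using h.empty, fun s t ht hst => h.sub _ _ ht (Finset.image_subset_image hst),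
    fun s hs p hp q hq => ?_, fun s hs p hp q hq => ?_, fun s hs hc => ?_⟩
  · have := h.eq _ hs _ (Finset.mem_image_of_mem _ hp) _ (Finset.mem_image_of_mem _ hq)
    simpa using this
  · have := h.adj _ hs _ (Finset.mem_image_of_mem _ hp) _ (Finset.mem_image_of_mem _ hq)
    rw [← hG, ← hH] at this
    simpa using this
  · obtain ⟨e, he⟩ := h.ext _ hs (lt_of_le_of_lt Finset.card_image_le hc)
    refine ⟨eV.symm.trans (e.trans eW), fun z => ?_⟩
    have := he (eV.symm z)
    simpa [Finset.image_insert] using this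

theorem Game.congr (eV : V ≃ V') (eW : W ≃ W') {G' : V' → V' → Bool}
    {H' : W' → W' → Bool} (hG : ∀ a b, G' (eV a) (eV b) = G a b)
    (hH : ∀ a b, H' (eW a) (eW b) = H a b) : Game m G H ↔ Game m G' H' := by
  constructor
  · rintro ⟨P, hP⟩
    exact ⟨_, hP.congr eV eW hG hH⟩
  · rintro ⟨P, hP⟩
    exact ⟨_, hP.congr eV.symm eW.symm (fun a b => by rw [← hG]; simp)
      (fun a b => by rw [← hH]; simp)⟩

theorem Rigid.congr (eV : V ≃ V') {G' : V' → V' → Bool} (hG : ∀ a b, G' (eV a) (eV b) = G a b)
    (h : Rigid m G) : Rigid m G' := by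
  intro P hP a b hab
  have h1 := hP.congr eV.symm eV.symm (G' := G) (H' := G) (fun a b => by rw [← hG]; simp)
    (fun a b => by rw [← hG]; simp)
  have h2 := h _ h1 (eV.symm a) (eV.symm b) (by simpa using hab)
  exact eV.symm.injective h2

/-- A bijection of `j`-tuples along the strategy (`j ≤ m`; induction on `j`, extending by one
coordinate with `Strat.ext`; `Fin.consEquiv`/`Fin.snocEquiv` and `Equiv.sigmaCongr`-like gluing, or
build an injective map both ways). -/
theorem Strat.tuples (h : Strat m G H P) {j : ℕ} (hj : j ≤ m) :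
    ∃ E : (Fin j → V) ≃ (Fin j → W), ∀ u, P (Finset.univ.image fun i => (u i, E u i)) := by
  induction j with
  | zero =>
    refine ⟨Equiv.ofUnique _ _, fun u => ?_⟩
    simpa using h.empty
  | succ j ih =>
    obtain ⟨E, hE⟩ := ih (by omega)
    have hx : ∀ u : Fin j → V, ∃ e : V ≃ W,
        ∀ z, P (insert (z, e z) (Finset.univ.image fun i => (u i, E u i))) := fun u =>
      h.ext _ (hE u) (lt_of_le_of_lt Finset.card_image_le (by simp; omega))
    choose e he using hx
    refine ⟨(Fin.consEquiv fun _ => V).symm.trans ((Equiv.prodComm _ _).trans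
      ((Equiv.prodShear E e).trans ((Equiv.prodComm _ _).trans (Fin.consEquiv fun _ => W)))),
      fun u => ?_⟩
    refine h.sub _ _ (he (Fin.tail u) (u 0)) ?_
    intro p hp
    obtain ⟨i, -, rfl⟩ := Finset.mem_image.1 hp
    refine Fin.cases ?_ (fun i => ?_) i
    · exact Finset.mem_insert.2 (Or.inl (by simp [Fin.consEquiv]))
    · refine Finset.mem_insert_of_mem (Finset.mem_image.2 ⟨i, Finset.mem_univ _, ?_⟩)
      simp [Fin.consEquiv, Fin.tail]

end General

variable {n n' : ℕ} {G : Fin n → Fin n → Bool} {H : Fin n' → Fin n' → Bool}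

theorem gm_map_eq {α β γ : Type} [Fintype α] [Fintype β] (e : α ≃ β) {f : α → γ} {g : β → γ}
    (h : ∀ z, f z = g (e z)) :
    (Finset.univ : Finset α).val.map f = (Finset.univ : Finset β).val.map g := by
  rw [← Multiset.map_univ_val_equiv e, Multiset.map_map]
  exact Multiset.map_congr rfl fun z _ => h z

theorem gm_exists_equiv {α β γ : Type} [Fintype α] [Fintype β] {f : α → γ} {g : β → γ}
    (h : (Finset.univ : Finset α).val.map f = (Finset.univ : Finset β).val.map g) :
    ∃ e : α ≃ β, ∀ z, f z = g (e z) := by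
  classical
  have hc : ∀ c, Fintype.card {a // f a = c} = Fintype.card {b // g b = c} := by
    intro c
    have := congrArg (Multiset.count c) h
    rw [Multiset.count_map, Multiset.count_map] at this
    rw [Fintype.card_subtype, Fintype.card_subtype, Finset.card_def, Finset.card_def,
      Finset.filter_val, Finset.filter_val]
    simpa [eq_comm] using this
  exact ⟨Equiv.ofFiberEquiv fun c => Fintype.equivOfCardEq (hc c),
    fun z => (Equiv.ofFiberEquiv_map _ z).symm⟩

theorem gm_pigeon {α : Type} [Finite α] {Q : ℕ → α → Prop} (hm : ∀ s a, Q (s + 1) a → Q s a)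
    (h : ∀ s, ∃ a, Q s a) : ∃ a, ∀ s, Q s a := by
  classical
  by_contra hne
  push Not at hne
  choose r hr using hne
  have hanti : ∀ t s a, Q (s + t) a → Q s a := by
    intro t
    induction t with
    | zero => exact fun s a h => h
    | succ t ih => exact fun s a h => ih s a (hm _ _ h)
  have := Fintype.ofFinite α
  obtain ⟨a, ha⟩ := h (Finset.univ.sup r)
  have hle : r a ≤ Finset.univ.sup r := Finset.le_sup (Finset.mem_univ a)
  obtain ⟨t, ht⟩ := Nat.exists_eq_add_of_le hle
  rw [ht] at ha
  exact hr a (hanti t _ a ha)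

theorem gm_atomic {k : ℕ} {m : ℕ} {P : Finset (Fin n × Fin n') → Prop} (h : Strat m G H P)
    (u : Fin k → Fin n) (v : Fin k → Fin n')
    (huv : P (Finset.univ.image fun i => (u i, v i))) : atomicType G u = atomicType H v := by
  have hm : ∀ i, (u i, v i) ∈ Finset.univ.image fun i => (u i, v i) := fun i =>
    Finset.mem_image_of_mem (fun i => (u i, v i)) (Finset.mem_univ i)
  refine Prod.ext (funext fun i => funext fun j => ?_) (funext fun i => funext fun j => ?_)
  · exact decide_eq_decide.2 (h.eq _ huv _ (hm i) _ (hm j))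
  · exact h.adj _ huv _ (hm i) _ (hm j)

theorem gm_update_sub {k : ℕ} (u : Fin k → Fin n) (v : Fin k → Fin n') (i : Fin k) (z : Fin n)
    (w : Fin n') :
    (Finset.univ.image fun j => (Function.update u i z j, Function.update v i w j)) ⊆
      insert (z, w) ((Finset.univ.erase i).image fun j => (u j, v j)) := by
  intro p hp
  obtain ⟨j, -, rfl⟩ := Finset.mem_image.1 hp
  by_cases hj : j = i
  · subst hj; simp
  · refine Finset.mem_insert_of_mem (Finset.mem_image.2 ⟨j, by simp [hj], ?_⟩)
    simp [Function.update_of_ne hj]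

/-- The common part of `game_of_sequiv` and `game_of_jequiv`. -/
theorem gm_game {k : ℕ} (hn : 0 < n) {C : ℕ → Type} (cG : (s : ℕ) → (Fin k → Fin n) → C s)
    (cH : (s : ℕ) → (Fin k → Fin n') → C s)
    (h0 : ∀ u v, cG 0 u = cH 0 v → atomicType G u = atomicType H v)
    (hm : ∀ s u v, cG (s + 1) u = cH (s + 1) v → cG s u = cH s v)
    (hx : ∀ s u v, cG (s + 1) u = cH (s + 1) v → ∀ i, ∃ e : Fin n ≃ Fin n',
      ∀ z, cG s (Function.update u i z) = cH s (Function.update v i (e z)))
    (hh : ∀ s, (Finset.univ : Finset (Fin k → Fin n)).val.map (cG s) =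
      (Finset.univ : Finset (Fin k → Fin n')).val.map (cH s)) : Game k G H := by
  classical
  refine ⟨fun t => ∃ u v, (∀ s, cG s u = cH s v) ∧ t ⊆ Finset.univ.image fun i => (u i, v i),
    ?_, ?_, ?_, ?_, ?_⟩
  · obtain ⟨v, hv⟩ := gm_pigeon (Q := fun s v => cG s (fun _ => ⟨0, hn⟩) = cH s v)
      (fun s v h => hm s _ v h) (fun s => by
        obtain ⟨e, he⟩ := gm_exists_equiv (hh s)
        exact ⟨_, he _⟩)
    exact ⟨_, v, hv, Finset.empty_subset _⟩
  · rintro s t ⟨u, v, huv, ht⟩ hst
    exact ⟨u, v, huv, hst.trans ht⟩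
  · rintro t ⟨u, v, huv, ht⟩ p hp q hq
    obtain ⟨i, -, rfl⟩ := Finset.mem_image.1 (ht hp)
    obtain ⟨j, -, rfl⟩ := Finset.mem_image.1 (ht hq)
    exact decide_eq_decide.1 (congrFun (congrFun (congrArg Prod.fst (h0 u v (huv 0))) i) j)
  · rintro t ⟨u, v, huv, ht⟩ p hp q hq
    obtain ⟨i, -, rfl⟩ := Finset.mem_image.1 (ht hp)
    obtain ⟨j, -, rfl⟩ := Finset.mem_image.1 (ht hq)
    exact congrFun (congrFun (congrArg Prod.snd (h0 u v (huv 0))) i) j
  · rintro t ⟨u, v, huv, ht⟩ hc
    obtain ⟨T, -, hTc, hTi⟩ : ∃ T : Finset (Fin k), T ⊆ Finset.univ ∧ T.card = t.card ∧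
        T.image (fun i => (u i, v i)) = t := by
      obtain ⟨T, hT1, hT2, hT3⟩ := Finset.exists_subset_injOn_image_eq_of_surjOn
        (f := fun i => (u i, v i)) (Set.univ : Set (Fin k)) t (by
          intro p hp
          obtain ⟨i, -, rfl⟩ := Finset.mem_image.1 (ht hp)
          exact ⟨i, Set.mem_univ _, rfl⟩)
      exact ⟨T, Finset.subset_univ _, by rw [← hT3, Finset.card_image_of_injOn hT2], hT3⟩
    obtain ⟨i, -, hi⟩ : ∃ i ∈ (Finset.univ : Finset (Fin k)), i ∉ T :=
      Finset.exists_mem_notMem_of_card_lt_card (by simpa [hTc] using hc)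
    obtain ⟨e, he⟩ := gm_pigeon (α := Fin n ≃ Fin n')
      (Q := fun s e => ∀ z, cG s (Function.update u i z) = cH s (Function.update v i (e z)))
      (fun s e h z => hm s _ _ (h z)) (fun s => hx s u v (huv (s + 1)) i)
    refine ⟨e, fun z => ⟨_, _, fun s => he s z, ?_⟩⟩
    intro p hp
    rcases Finset.mem_insert.1 hp with rfl | hp
    · exact Finset.mem_image.2 ⟨i, Finset.mem_univ _, by simp⟩
    · rw [← hTi] at hp
      obtain ⟨j, hj, rfl⟩ := Finset.mem_image.1 hp
      have hji : j ≠ i := fun h => hi (h ▸ hj)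
      exact Finset.mem_image.2 ⟨j, Finset.mem_univ _, by simp [Function.update_of_ne hji]⟩

/-- Induction on the round; the image has at most `k < k + 1` pairs, and the image for the updated
tuples lies in `insert (z, e z) _`. -/
theorem Strat.jcolor_eq {k : ℕ} {P : Finset (Fin n × Fin n') → Prop} (h : Strat (k + 1) G H P)
    (s : ℕ) (u : Fin k → Fin n) (v : Fin k → Fin n')
    (huv : P (Finset.univ.image fun i => (u i, v i))) : jcolor G k s u = jcolor H k s v := by
  induction s generalizing u v with
  | zero => exact gm_atomic h u v huv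
  | succ s ih =>
    obtain ⟨e, he⟩ := h.ext _ huv (lt_of_le_of_lt Finset.card_image_le (by simp))
    refine Prod.ext (ih u v huv) (gm_map_eq e fun z => funext fun i => ih _ _ ?_)
    exact h.sub _ _ (he z) ((gm_update_sub u v i z (e z)).trans (Finset.insert_subset_insert _
      (Finset.image_subset_image (Finset.subset_univ _))))

/-- For coordinate `i` extend the image over the coordinates `j ≠ i` (fewer than `k`). -/
theorem Strat.scolor_eq {k : ℕ} {P : Finset (Fin n × Fin n') → Prop} (h : Strat k G H P)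
    (s : ℕ) (u : Fin k → Fin n) (v : Fin k → Fin n')
    (huv : P (Finset.univ.image fun i => (u i, v i))) : scolor G k s u = scolor H k s v := by
  induction s generalizing u v with
  | zero => exact gm_atomic h u v huv
  | succ s ih =>
    refine Prod.ext (ih u v huv) (funext fun i => ?_)
    obtain ⟨e, he⟩ := h.ext ((Finset.univ.erase i).image fun j => (u j, v j))
      (h.sub _ _ huv (Finset.image_subset_image (Finset.subset_univ _)))
      (lt_of_le_of_lt Finset.card_image_le (by
        have := i.pos
        rw [Finset.card_erase_of_mem (Finset.mem_univ i)]; simp; omega))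
    exact gm_map_eq e fun z => ih _ _ (h.sub _ _ (he z) (gm_update_sub u v i z (e z)))

/-- Histograms by `Strat.tuples`. -/
theorem Game.jequiv {k : ℕ} (h : Game (k + 1) G H) : JEquiv k G H := by
  obtain ⟨P, hP⟩ := h
  obtain ⟨E, hE⟩ := hP.tuples (j := k) (by omega)
  exact fun s => gm_map_eq E fun u => hP.jcolor_eq s u _ (hE u)

theorem Game.sequiv {k : ℕ} (h : Game k G H) : SEquiv k G H := by
  obtain ⟨P, hP⟩ := h
  obtain ⟨E, hE⟩ := hP.tuples (j := k) le_rfl
  exact fun s => gm_map_eq E fun u => hP.scolor_eq s u _ (hE u)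

theorem Game.crequiv (h : Game 2 G H) : CREquiv G H := by
  obtain ⟨P, hP⟩ := h
  have key : ∀ s a b, P {(a, b)} → crcolor G s a = crcolor H s b := by
    intro s
    induction s with
    | zero => intro a b _; rfl
    | succ s ih =>
      intro a b hab
      obtain ⟨e, he⟩ := hP.step le_rfl hab
      refine Prod.ext (ih a b hab) ?_
      have h1 : (Finset.univ.filter fun w => H b w = true) =
          (Finset.univ.filter fun w => G a w = true).map e.toEmbedding := by
        ext w
        simp only [Finset.mem_filter, Finset.mem_univ, true_and, Finset.mem_map_equiv]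
        rw [(he (e.symm w)).2.2.1, Equiv.apply_symm_apply]
      show Multiset.map (crcolor G s) (Finset.univ.filter fun w => G a w = true).val =
        Multiset.map (crcolor H s) (Finset.univ.filter fun w => H b w = true).val
      rw [h1, Finset.map_val, Multiset.map_map]
      exact Multiset.map_congr rfl fun z _ => ih _ _ (he z).2.1
  obtain ⟨e, he⟩ := hP.ext _ hP.empty (by simp)
  exact fun s => gm_map_eq e fun z => key s _ _ (by simpa using he z)

theorem Game.wlequiv {k k' : ℕ} (h : Game (k + 1) G H) (h1 : 1 ≤ k') (hk : k' ≤ k) :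
    WLEquiv k' G H := by
  unfold WLEquiv
  split_ifs with h1'
  · exact (h.mono (by omega)).crequiv
  · exact (h.mono (by omega)).jequiv

/-- `Rel u v := ∀ s, scolor G k s u = scolor H k s v`; `P s := ∃ u v, Rel u v ∧ s ⊆ image` (for
`k = 0` take `s = ∅`). The colour at round `s + 1` determines the colour at round `s`, so a choice
from a finite set (a tuple `v`, a bijection `e`) that exists for every round can be made once for
all rounds (pigeonhole: one choice works for infinitely many rounds). Equal multisets give a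
bijection (`Multiset.map_eq_map`-type lemma, e.g. via `Finset.card` of fibres and
`Equiv.sigmaFiberEquiv`/`Equiv.ofFiberEquiv`). If `s.card < k` some coordinate is not needed to
cover `s`. -/
theorem game_of_sequiv {k : ℕ} (hn : 0 < n) (h : SEquiv k G H) : Game k G H := by
  exact gm_game hn (C := SColor k) (scolor G k) (scolor H k) (fun u v h => h)
    (fun s u v h => congrArg Prod.fst h)
    (fun s u v h i => gm_exists_equiv (f := fun z => scolor G k s (Function.update u i z))
      (g := fun z => scolor H k s (Function.update v i z)) (congrFun (congrArg Prod.snd h) i)) h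

/-- Same proof with `jcolor` (the joint multiset maps onto each coordinate's multiset). -/
theorem game_of_jequiv {k : ℕ} (hn : 0 < n) (h : JEquiv k G H) : Game k G H := by
  refine gm_game hn (C := JColor k) (jcolor G k) (jcolor H k) (fun u v h => h)
    (fun s u v h => congrArg Prod.fst h) (fun s u v h i => ?_) h
  obtain ⟨e, he⟩ := gm_exists_equiv (f := fun z i => jcolor G k s (Function.update u i z))
    (g := fun z i => jcolor H k s (Function.update v i z)) (congrArg Prod.snd h)
  exact ⟨e, fun z => congrFun (he z) i⟩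

theorem game_of_iso (m : ℕ) (h : AdjIso G H) : Game m G H := by
  obtain ⟨e, he⟩ := h
  refine ⟨fun s => ∀ p ∈ s, p.2 = e p.1, by simp, fun s t ht hst p hp => ht p (hst hp),
    fun s hs p hp q hq => ?_, fun s hs p hp q hq => ?_, fun s hs _ => ⟨e, fun z p hp => ?_⟩⟩
  · rw [hs p hp, hs q hq, e.injective.eq_iff]
  · rw [hs p hp, hs q hq, he]
  · rcases Finset.mem_insert.1 hp with rfl | hp
    · rfl
    · exact hs p hp

/-- From a strategy `P` on `(G, H)` build one on `(G, G)`:
`P₂ s := ∃ f : V × V → W, P (s.image fun p => (p.1, f p)) ∧ P (s.image fun p => (p.2, f p))`.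
Rigidity gives: `P {(a, b)}`, `P {(a', b)}` imply `a = a'`. Take `e` from `ext ∅`; by `Strat.step`
at `(a, e a)` the answer to `a'` must be `e a'`, so `e` is an isomorphism. -/
theorem iso_of_rigid {k : ℕ} (hk : 2 ≤ k) (hG : Rigid k G) (h : Game k G H) : AdjIso G H := by
  obtain ⟨P, hP⟩ := h
  obtain ⟨e, he⟩ := hP.ext _ hP.empty (by simp; omega)
  have h2 : Strat k G G fun s => ∃ f : Fin n × Fin n → Fin n',
      P (s.image fun p => (p.1, f p)) ∧ P (s.image fun p => (p.2, f p)) := by
    refine ⟨⟨fun p => e p.1, by simpa using hP.empty, by simpa using hP.empty⟩, ?_, ?_, ?_, ?_⟩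
    · rintro s t ⟨f, h1, h2⟩ hst
      exact ⟨f, hP.sub _ _ h1 (Finset.image_subset_image hst),
        hP.sub _ _ h2 (Finset.image_subset_image hst)⟩
    · rintro s ⟨f, h1, h2⟩ p hp q hq
      exact (hP.eq _ h1 _ (Finset.mem_image_of_mem _ hp) _ (Finset.mem_image_of_mem _ hq)).trans
        (hP.eq _ h2 _ (Finset.mem_image_of_mem _ hp) _ (Finset.mem_image_of_mem _ hq)).symm
    · rintro s ⟨f, h1, h2⟩ p hp q hq
      exact (hP.adj _ h1 _ (Finset.mem_image_of_mem _ hp) _ (Finset.mem_image_of_mem _ hq)).trans
        (hP.adj _ h2 _ (Finset.mem_image_of_mem _ hp) _ (Finset.mem_image_of_mem _ hq)).symm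
    · rintro s ⟨f, h1, h2⟩ hc
      obtain ⟨e1, he1⟩ := hP.ext _ h1 (lt_of_le_of_lt Finset.card_image_le hc)
      obtain ⟨e2, he2⟩ := hP.ext _ h2 (lt_of_le_of_lt Finset.card_image_le hc)
      refine ⟨e1.trans e2.symm, fun z => ?_⟩
      by_cases hz : (z, (e1.trans e2.symm) z) ∈ s
      · rw [Finset.insert_eq_of_mem hz]
        exact ⟨f, h1, h2⟩
      · refine ⟨fun p => if p ∈ s then f p else e1 z, ?_, ?_⟩
        · rw [Finset.image_insert,
            Finset.image_congr (g := fun p => (p.1, f p)) fun p hp => by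
              simp [Finset.mem_coe.1 hp]]
          simp only [if_neg hz]
          exact he1 z
        · rw [Finset.image_insert,
            Finset.image_congr (g := fun p => (p.2, f p)) fun p hp => by
              simp [Finset.mem_coe.1 hp]]
          simp only [if_neg hz]
          simpa using he2 (e2.symm (e1 z))
  have huniq : ∀ a a' b, P {(a, b)} → P {(a', b)} → a = a' := fun a a' b ha ha' =>
    hG _ h2 a a' ⟨fun _ => b, by simpa using ha, by simpa using ha'⟩
  refine ⟨e, fun a z => ?_⟩
  obtain ⟨e', he'⟩ := hP.step hk (a := a) (b := e a) (by simpa using he a)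
  have h3 : z = e.symm (e' z) := huniq _ _ (e' z) (he' z).2.1 (by simpa using he (e.symm (e' z)))
  have h4 : e z = e' z := by rw [h3, Equiv.apply_symm_apply, ← h3]
  rw [h4, (he' z).2.2.1]

theorem identifies_of_rigid {k : ℕ} (hk : 2 ≤ k) (hn : 0 < n) (hG : Rigid k G) :
    Identifies k G := by
  intro m H _ h
  unfold WLEquiv at h
  rw [if_neg (by omega)] at h
  exact iso_of_rigid hk hG (game_of_jequiv hn h)

end Crest.Agent.R290
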