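import Crest.Agent.R290.Pad
import Crest.Agent.R290.PtGam
import Crest.Agent.R290.Game
import Crest.Agent.R290.ExpWLX

/-!
Row 290, task EXW: Weisfeiler-Leman equivalence is decidable in exponential time.
-/

set_option autoImplicit false

namespace Crest.Agent.R290

open Crest.WLRefine Crest.Agent.PT Crest.Agent.QC Crest.Agent.R317

/-- A matrix stored row by row in a list of bits. -/
def matOf (n : ℕ) (l : List Bool) (v w : ℕ) : Bool := l.getD (v * n + w) false

theorem exw_card_eq {n n' k : ℕ} {G : Fin n → Fin n → Bool} {H : Fin n' → Fin n' → Bool}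
    (hk : 1 ≤ k) (h : JEquiv k G H) : n = n' := by
  have := congrArg Multiset.card (h 0)
  simp only [Multiset.card_map, Finset.card_val, Finset.card_univ, Fintype.card_fun,
    Fintype.card_fin] at this
  exact Nat.pow_left_injective (by omega) this

/-- At dimension `k ≥ n` (and `k ≥ 1`) equivalence is isomorphism: round `0` gives `n ^ k = n' ^ k` and a
tuple of `H` with the atomic type of a tuple listing all vertices of `G`. -/
theorem iso_of_jequiv {n n' k : ℕ} {G : Fin n → Fin n → Bool} {H : Fin n' → Fin n' → Bool}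
    (hk : 1 ≤ k) (hn : n ≤ k) (h : JEquiv k G H) : AdjIso G H := by
  obtain rfl := exw_card_eq hk h
  rcases Nat.eq_zero_or_pos n with rfl | h0
  · exact ⟨Equiv.refl _, fun v => v.elim0⟩
  let u : Fin k → Fin n := fun i => ⟨i % n, Nat.mod_lt _ h0⟩
  have hu : ∀ x : Fin n, u (Fin.castLE hn x) = x := fun x => Fin.ext (Nat.mod_eq_of_lt x.2)
  have hmem : jcolor G k 0 u ∈ (Finset.univ : Finset (Fin k → Fin n)).val.map (jcolor H k 0) := by
    rw [← h 0]
    exact Multiset.mem_map_of_mem _ (Finset.mem_univ u)
  obtain ⟨v, -, hv⟩ := Multiset.mem_map.1 hmem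
  have h1 := congrArg Prod.fst hv
  have h2 := congrArg Prod.snd hv
  simp only [jcolor, atomicType] at h1 h2
  have hinj : Function.Injective fun x : Fin n => v (Fin.castLE hn x) := by
    intro x y hxy
    have := congrFun (congrFun h1 (Fin.castLE hn x)) (Fin.castLE hn y)
    simp only [hu] at this hxy
    simpa [hxy] using this
  refine ⟨Equiv.ofBijective _ (Finite.injective_iff_bijective.1 hinj), fun x y => ?_⟩
  have := congrFun (congrFun h2 (Fin.castLE hn x)) (Fin.castLE hn y)
  simp only [hu] at this
  exact this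

theorem jequiv_of_iso {n n' : ℕ} {G : Fin n → Fin n → Bool} {H : Fin n' → Fin n' → Bool} (k : ℕ)
    (h : AdjIso G H) : JEquiv k G H := (game_of_iso _ h).jequiv

theorem card_eq_of_jequiv {n n' k : ℕ} {G : Fin n → Fin n → Bool} {H : Fin n' → Fin n' → Bool}
    (hk : 1 ≤ k) (h : JEquiv k G H) : n = n' := exw_card_eq hk h

namespace Exw

open Finset

@[fun_prop] theorem pt_matOf {α : Type} [Enc α] {n v w : α → ℕ} {l : α → List Bool} (hn : PT n)
    (hl : PT l) (hv : PT v) (hw : PT w) : PT (fun a => matOf (n a) (l a) (v a) (w a)) := by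
  unfold matOf; fun_prop

/-- number of a node inside its half -/
def loc (m c : ℕ) : ℕ := if c < m then c else c - m

/-- coordinate `i` of the tuple with number `c` -/
def dig (m n c i : ℕ) : ℕ := un n (loc m c / n ^ i % n)

/-- equal atomic types -/
def jr (m n k : ℕ) (a b : List Bool) (c c' : ℕ) : Bool :=
  decide (All k fun i => All k fun j =>
    decide (dig m n c i = dig m n c j) = decide (dig m n c' i = dig m n c' j) ∧
    matOf n (if c < m then a else b) (dig m n c i) (dig m n c j) =
      matOf n (if c' < m then a else b) (dig m n c' i) (dig m n c' j))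

/-- the updated tuple -/
def jch (m n k c z i : ℕ) : ℕ :=
  (if c < m then 0 else m) + un m (∑ j ∈ range k, (if j = i then z else dig m n c j) * n ^ j)

@[fun_prop] theorem pt_loc {α : Type} [Enc α] {m c : α → ℕ} (hm : PT m) (hc : PT c) :
    PT (fun a => loc (m a) (c a)) := by
  unfold loc; fun_prop

@[fun_prop] theorem pt_dig {α : Type} [Enc α] {m n c i : α → ℕ} (hm : PT m) (hn : PT n)
    (hc : PT c) (hi : PT i) : PT (fun a => dig (m a) (n a) (c a) (i a)) := by
  have := BT.ofPT (pt_loc hm hc)
  have hn' := BT.ofPT hn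
  exact pt_un hn ((this.div (hn'.pow hi)).mod hn')

@[fun_prop] theorem pt_jr {α : Type} [Enc α] {m n k c c' : α → ℕ} {a b : α → List Bool}
    (hm : PT m) (hn : PT n) (hk : PT k) (ha : PT a) (hb : PT b) (hc : PT c) (hc' : PT c') :
    PT (fun x => jr (m x) (n x) (k x) (a x) (b x) (c x) (c' x)) := by
  unfold jr
  refine pt_decide (DT.all hk (DT.all (by fun_prop) (DT.and (dt_beq ?_ ?_) (by fun_prop))))
  · exact PT.eq (by fun_prop) (by fun_prop)
  · exact PT.eq (by fun_prop) (by fun_prop)

@[fun_prop] theorem pt_jch {α : Type} [Enc α] {m n k c z i : α → ℕ}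
    (hm : PT m) (hn : PT n) (hk : PT k) (hc : PT c) (hz : PT z) (hi : PT i) :
    PT (fun x => jch (m x) (n x) (k x) (c x) (z x) (i x)) := by
  unfold jch
  refine PT.add (by fun_prop) (pt_un hm (BT.sum hk (BT.mul (BT.ofPT ?_) ?_)))
  · fun_prop
  · exact BT.pow (BT.ofPT (by fun_prop)) (by fun_prop)

theorem code_lt_iff {A : Type} {m : ℕ} (e : A ≃ Fin m) (p : Bool × A) :
    code e p < m ↔ p.1 = false := by
  have := (e p.2).2
  unfold code
  cases p.1 <;> simp

theorem loc_code {A : Type} {m : ℕ} (e : A ≃ Fin m) (p : Bool × A) : loc m (code e p) = e p.2 := by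
  unfold loc
  rw [if_congr (code_lt_iff e p) rfl rfl]
  unfold code
  cases p.1 <;> simp

theorem dig_code {n k : ℕ} (p : Bool × (Fin k → Fin n)) (i : Fin k) :
    dig (n ^ k) n (code finFunctionFinEquiv p) i = p.2 i := by
  rw [dig, loc_code, ← finFunctionFinEquiv_symm_apply_val, Equiv.symm_apply_apply, un]
  exact min_eq_left (p.2 i).2.le

theorem jtest_iff (k n : ℕ) (a b : List Bool) :
    Test (n ^ k) n k (jr (n ^ k) n k a b) (fun _ _ => true) (jch (n ^ k) n k) ↔
      JEquiv k (cut n (matOf n a)) (cut n (matOf n b)) := by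
  refine test_iff finFunctionFinEquiv
    (fun s p => jcolor (cut n (matOf n (if p.1 = false then a else b))) k s p.2) (fun _ _ => true)
    (fun u z i => Function.update u i z) (fun s p q => ?_) (fun p q => ?_) (fun _ _ => rfl)
    (fun p z i => ?_)
  · simp [jcolor]
  · simp only [jr, decide_eq_true_eq, all_iff, dig_code, code_lt_iff, jcolor, atomicType,
      Prod.mk.injEq, funext_iff, cut, Fin.val_inj, forall_and]
  · have h1 : ∑ j ∈ range k, (if j = (i : ℕ) then (z : ℕ) else
        dig (n ^ k) n (code finFunctionFinEquiv p) j) * n ^ j =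
        (finFunctionFinEquiv (Function.update p.2 i z) : ℕ) := by
      rw [finFunctionFinEquiv_apply, ← Fin.sum_univ_eq_sum_range (fun j => (if j = (i : ℕ) then
        (z : ℕ) else dig (n ^ k) n (code finFunctionFinEquiv p) j) * n ^ j)]
      refine sum_congr rfl fun j _ => ?_
      rw [dig_code, Function.update_apply, if_congr Fin.val_inj rfl rfl]
      split_ifs <;> rfl
    rw [jch, h1, un, min_eq_left (Fin.is_lt _).le, if_congr (code_lt_iff _ p) rfl rfl, code]
    cases p.1 <;> simp

theorem crtest_iff (n : ℕ) (a b : List Bool) :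
    Test n n 1 (fun _ _ => true) (fun c z => matOf n (if c < n then a else b) (loc n c) z)
      (fun c z _ => (if c < n then 0 else n) + z) ↔
      CREquiv (cut n (matOf n a)) (cut n (matOf n b)) := by
  refine test_iff (Equiv.refl (Fin n))
    (fun s p => crcolor (cut n (matOf n (if p.1 = false then a else b))) s p.2)
    (fun p z => cut n (matOf n (if p.1 = false then a else b)) p.2 z)
    (fun _ z _ => z) (fun s p q => ?_) (fun p q => ?_) (fun p z => ?_) (fun p z i => ?_)
  · have hinj : Function.Injective (fun (x : CRColor s) (_ : Fin 1) => x) :=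
      fun x y h => congrFun h 0
    simp only [crcolor, Prod.mk.injEq]
    refine and_congr Iff.rfl ?_
    rw [← (Multiset.map_injective hinj).eq_iff, Multiset.map_map, Multiset.map_map]
    rfl
  · simp
  · simp only [loc_code, code_lt_iff]
    rfl
  · rw [if_congr (code_lt_iff _ p) rfl rfl, code]
    cases p.1 <;> simp

end Exw

/-- The joint test with a unary budget `N ≥ (n + 1) ^ k`. Number the `k`-tuples of `G` and of `H` by
`(side, a)` with `a < n ^ k` (digit `i` of `a` in base `n` is coordinate `i`), i.e. by `c < 2 n ^ k`.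
Keep the relation 'equal colour at round `s`' as a table (`List (List Bool)` or `List ℕ` of class
representatives) on these `2 n ^ k` numbers. Round `s + 1`: `c ~ c'` iff `c ~ c'` before and for every
`z < n` the number of `z'` with `∀ i < k, upd c i z ~ upd c i z'` equals the number of `z'` with
`∀ i < k, upd c i z ~ upd c' i z'` (equal multisets iff equal counts of the members of the first, the
sizes being equal). The relations decrease, and once two consecutive ones agree all later ones do,
so they are constant from round `(2 n ^ k) ^ 2` on (or `2 n ^ k`); equal histograms at a round imply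
equal histograms at earlier rounds. Cut all ranges by the budget so that the function is `PT`. -/
theorem exists_jtest : ∃ g : ℕ × ℕ × List Bool × List Bool × ℕ → Bool, PT g ∧
    ∀ (k n : ℕ) (a b : List Bool) (N : ℕ), (n + 1) ^ k ≤ N →
      (g (k, n, a, b, N) = true ↔ JEquiv k (cut n (matOf n a)) (cut n (matOf n b))) := by
  have hm : PT (fun x : ℕ × ℕ × List Bool × List Bool × ℕ => un x.2.2.2.2 (x.2.1 ^ x.1)) :=
    pt_un (by fun_prop) (BT.pow (BT.ofPT (by fun_prop)) (by fun_prop))
  obtain ⟨m, hmdef⟩ : ∃ m : ℕ × ℕ × List Bool × List Bool × ℕ → ℕ,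
      m = fun x => un x.2.2.2.2 (x.2.1 ^ x.1) := ⟨_, rfl⟩
  rw [← hmdef] at hm
  obtain ⟨g, hg, H⟩ := Exw.dt_test (α := ℕ × ℕ × List Bool × List Bool × ℕ) (m := m)
    (n := fun x => x.2.1) (k := fun x => x.1)
    (r₀ := fun x => Exw.jr (m x) x.2.1 x.1 x.2.2.1 x.2.2.2.1) (msk := fun _ _ _ => true)
    (ch := fun x => Exw.jch (m x) x.2.1 x.1) hm (by fun_prop) (by fun_prop) (by fun_prop)
    (by fun_prop) (by fun_prop)
  refine ⟨g, hg, fun k n a b N hN => ?_⟩
  have e : m (k, n, a, b, N) = n ^ k := by
    rw [hmdef]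
    exact min_eq_left ((Nat.pow_le_pow_left (Nat.le_succ n) k).trans hN)
  rw [← Exw.jtest_iff]
  have := H (k, n, a, b, N)
  simp only [e] at this
  exact this

/-- The same for colour refinement (polynomial time; table on `2 n` vertices). -/
theorem exists_crtest : ∃ g : ℕ × List Bool × List Bool → Bool, PT g ∧
    ∀ (n : ℕ) (a b : List Bool),
      (g (n, a, b) = true ↔ CREquiv (cut n (matOf n a)) (cut n (matOf n b))) := by
  obtain ⟨g, hg, H⟩ := Exw.dt_test (α := ℕ × List Bool × List Bool) (m := fun x => x.1)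
    (n := fun x => x.1) (k := fun _ => 1) (r₀ := fun _ _ _ => true)
    (msk := fun x c z => matOf x.1 (if c < x.1 then x.2.1 else x.2.2) (Exw.loc x.1 c) z)
    (ch := fun x c z _ => (if c < x.1 then 0 else x.1) + z) (by fun_prop) (by fun_prop)
    (by fun_prop) (by fun_prop) (by fun_prop) (by fun_prop)
  refine ⟨g, hg, fun n a b => ?_⟩
  rw [← Exw.crtest_iff]
  exact H (n, a, b)

end Crest.Agent.R290
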