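import Crest.Agent.R290.Diag

/-!
Row 290: small facts for the final statements.
-/

set_option autoImplicit false

namespace Crest.Agent.R290

open Crest.WLRefine

theorem time_small {C k n t D : ℕ} (hC : 0 < C) (hk : 3 * C ≤ k) (hD : D ≤ n) (hn : 1 ≤ n)
    (ht : ¬ (n : ℝ) ^ ((1 / (2 * (C : ℝ))) * k) ≤ t) : D * (t + 1) ≤ n ^ (k / C) := by
  have hj : 3 ≤ k / C := (Nat.le_div_iff_mul_le hC).mpr hk
  obtain ⟨j, hj'⟩ : ∃ j, k / C = j + 1 := ⟨k / C - 1, by omega⟩
  have h1 : k < (j + 2) * C := by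
    have := Nat.lt_mul_div_succ k hC
    rw [hj', Nat.mul_comm] at this
    exact this
  have hC' : (0 : ℝ) < C := by exact_mod_cast hC
  have h2 : (1 / (2 * (C : ℝ))) * k ≤ (j : ℝ) := by
    have e1 : (k : ℝ) ≤ (j + 2) * C := by exact_mod_cast h1.le
    have e2 : (2 : ℝ) ≤ j := by exact_mod_cast (by omega : 2 ≤ j)
    rw [one_div, inv_mul_le_iff₀ (by positivity)]
    nlinarith
  have h3 : (n : ℝ) ^ ((1 / (2 * (C : ℝ))) * k) ≤ (n : ℝ) ^ (j : ℝ) :=
    Real.rpow_le_rpow_of_exponent_le (by exact_mod_cast hn) h2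
  rw [Real.rpow_natCast] at h3
  have h4 : t < n ^ j := by exact_mod_cast (not_le.mp ht).trans_le h3
  rw [hj', pow_succ, Nat.mul_comm (n ^ j)]
  exact Nat.mul_le_mul hD h4

theorem pair_inj {n n' m' : ℕ} {G H : Fin n → Fin n → Bool} {G' : Fin n' → Fin n' → Bool}
    {H' : Fin m' → Fin m' → Bool}
    (h : adjMatrixCode G ++ adjMatrixCode H = adjMatrixCode G' ++ adjMatrixCode H') :
    ∃ (_ : n = n') (_ : n = m'), HEq G G' ∧ HEq H H' := by
  obtain ⟨e, h1, h2⟩ := adjMatrixCode_append_inj h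
  obtain ⟨e', h3, -⟩ := adjMatrixCode_append_inj (G := H) (G' := H') (y := []) (y' := [])
    (by simpa using h2)
  exact ⟨e, e', h1, h3⟩

theorem mem_joint {n k : ℕ} {G H : Fin n → Fin n → Bool} (hG : IsSimple G) (hH : IsSimple H) :
    adjMatrixCode G ++ adjMatrixCode H ∈ jointEquivLang k ↔ JEquiv k G H := by
  refine ⟨fun ⟨n', m', G', H', _, _, h, e⟩ => ?_, fun h => ⟨n, n, G, H, hG, hH, h, rfl⟩⟩
  obtain ⟨rfl, rfl, h1, h2⟩ := pair_inj e
  rw [eq_of_heq h1, eq_of_heq h2]; exact h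

theorem mem_sep {n k : ℕ} {G H : Fin n → Fin n → Bool} (hG : IsSimple G) (hH : IsSimple H) :
    adjMatrixCode G ++ adjMatrixCode H ∈ sepEquivLang k ↔ SEquiv k G H := by
  refine ⟨fun ⟨n', m', G', H', _, _, h, e⟩ => ?_, fun h => ⟨n, n, G, H, hG, hH, h, rfl⟩⟩
  obtain ⟨rfl, rfl, h1, h2⟩ := pair_inj e
  rw [eq_of_heq h1, eq_of_heq h2]; exact h

/-- A test that agrees with an equivalence squeezed between the two games contradicts `diag`. -/
theorem diag_contra {n k : ℕ} {G H : Fin n → Fin n → Bool} {β : Bool} {E : Prop}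
    (h1 : β = true → ¬ Game k G H) (h2 : β = false → Game (k + 1) G H)
    (h3 : Game (k + 1) G H → E) (h4 : E → Game k G H) (h : E ↔ β = true) : False := by
  cases β
  · exact absurd (h.mp (h3 (h2 rfl))) (by simp)
  · exact h1 rfl (h4 (h.mpr rfl))

end Crest.Agent.R290
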