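import Crest.Agent.R290.Game

/-!
Row 290, task GRB: numbering of the vertices, neighbourhoods, and the graph of a system is simple,
connected and subcubic.
-/

set_option autoImplicit false

namespace Crest.Agent.R290

open Crest.WLRefine

/-- The valid vertices. -/
abbrev VV (N n : ℕ) : Type := {u : Vx // u.Valid N n}

/-- The number of a vertex (inverse of `dec`). -/
def num (N : ℕ) : Vx → ℕ
  | .s o => 31 * (o / 3) + 9 * (o % 3)
  | .b o => 31 * (o / 3) + 9 * (o % 3) + 1
  | .c o => 31 * (o / 3) + 9 * (o % 3) + 2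
  | .p o β => 31 * (o / 3) + 9 * (o % 3) + 3 + β.toNat
  | .x o β => 31 * (o / 3) + 9 * (o % 3) + 5 + β.toNat
  | .a o β => 31 * (o / 3) + 9 * (o % 3) + 7 + β.toNat
  | .g e β₀ β₁ => 31 * e + 27 + β₀.toNat + 2 * β₁.toNat
  | .t j => 31 * N + j

theorem role_valid {N n o r : ℕ} (ho : o < 3 * N) : (role o r).Valid N n := by
  unfold role
  split_ifs <;> exact ho

theorem num_role (N o : ℕ) {r : ℕ} (hr : r < 9) :
    num N (role o r) = 31 * (o / 3) + 9 * (o % 3) + r := by
  interval_cases r <;> simp [role, num]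

theorem dec_role {N o r : ℕ} (ho : o < 3 * N) (hr : r < 9) :
    dec N (31 * (o / 3) + 9 * (o % 3) + r) = role o r := by
  have key : ∀ q l : ℕ, q < N → l < 3 → dec N (31 * q + 9 * l + r) = role (3 * q + l) r := by
    intro q l hq hl
    have h1 : (31 * q + 9 * l + r) / 31 = q := by omega
    have h2 : (31 * q + 9 * l + r) % 31 = 9 * l + r := by omega
    have h3 : (9 * l + r) / 9 = l := by omega
    have h4 : (9 * l + r) % 9 = r := by omega
    unfold dec
    rw [if_pos (by omega), h1, h2, if_pos (by omega), h3, h4]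
  rw [key _ _ (by omega) (by omega), Nat.div_add_mod]

theorem dec_valid {N n v : ℕ} (hv : v < n) : (dec N v).Valid N n := by
  unfold dec
  split_ifs with h1 h2
  · exact role_valid (by omega)
  · show v / 31 < N
    omega
  · show 31 * N + (v - 31 * N) < n
    omega

theorem num_dec (N v : ℕ) : num N (dec N v) = v := by
  unfold dec
  split_ifs with h1 h2
  · rw [num_role _ _ (by omega)]; omega
  · have h3 : v % 31 = 27 ∨ v % 31 = 28 ∨ v % 31 = 29 ∨ v % 31 = 30 := by omega
    rcases h3 with h | h | h | h <;> simp [num, h] <;> omega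
  · simp only [num]; omega

theorem dec_num {N n : ℕ} {u : Vx} (hu : u.Valid N n) : dec N (num N u) = u := by
  cases u with
  | s o => exact dec_role (r := 0) hu (by omega)
  | b o => exact dec_role (r := 1) hu (by omega)
  | c o => exact dec_role (r := 2) hu (by omega)
  | p o β =>
    cases β
    · exact dec_role (r := 3) hu (by omega)
    · exact dec_role (r := 4) hu (by omega)
  | x o β =>
    cases β
    · exact dec_role (r := 5) hu (by omega)
    · exact dec_role (r := 6) hu (by omega)
  | a o β =>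
    cases β
    · exact dec_role (r := 7) hu (by omega)
    · exact dec_role (r := 8) hu (by omega)
  | g e β₀ β₁ =>
    have he : e < N := hu
    have key : ∀ r, r < 4 → dec N (31 * e + 27 + r) =
        .g e (decide (r % 2 = 1)) (decide (r / 2 = 1)) := by
      intro r hr
      unfold dec
      rw [if_pos (by omega), if_neg (by omega)]
      have h1 : (31 * e + 27 + r) / 31 = e := by omega
      have h2 : (31 * e + 27 + r) % 31 - 27 = r := by omega
      rw [h1, h2]
    cases β₀ <;> cases β₁
    · exact key 0 (by omega)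
    · exact key 2 (by omega)
    · exact key 1 (by omega)
    · exact key 3 (by omega)
  | t j =>
    simp only [num, dec]
    rw [if_neg (by omega), Nat.add_sub_cancel_left]

theorem num_lt {N n : ℕ} (hn : 31 * N ≤ n) {u : Vx} (hu : u.Valid N n) : num N u < n := by
  cases u with
  | p o β => cases β <;> simp only [num, Vx.Valid, Bool.toNat_false, Bool.toNat_true] at * <;> omega
  | x o β => cases β <;> simp only [num, Vx.Valid, Bool.toNat_false, Bool.toNat_true] at * <;> omega
  | a o β => cases β <;> simp only [num, Vx.Valid, Bool.toNat_false, Bool.toNat_true] at * <;> omega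
  | g e β₀ β₁ =>
    cases β₀ <;> cases β₁ <;>
      simp only [num, Vx.Valid, Bool.toNat_false, Bool.toNat_true] at * <;> omega
  | _ => simp only [num, Vx.Valid] at *; omega

/-- The numbering as a bijection. -/
def decE (N n : ℕ) (hn : 31 * N ≤ n) : Fin n ≃ VV N n where
  toFun v := ⟨dec N v, dec_valid v.2⟩
  invFun u := ⟨num N u.1, num_lt hn u.2⟩
  left_inv v := Fin.ext (num_dec N v)
  right_inv u := Subtype.ext (dec_num u.2)

variable {V : Type} [DecidableEq V] [Inhabited V]

/-- Adjacency on the valid vertices. -/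
def adjS (E : List (Eqn V)) (N n : ℕ) (u v : VV N n) : Bool := adjV E u.1 v.1

theorem adjS_decE {E : List (Eqn V)} {N n : ℕ} (hN : E.length = N) (hn : 31 * N ≤ n)
    (v w : Fin n) : adjS E N n (decE N n hn v) (decE N n hn w) = gam E n v w := by
  subst hN; rfl

omit [DecidableEq V] [Inhabited V] in
theorem length_hom (E : List (Eqn V)) : (hom E).length = E.length := by simp [hom]

omit [DecidableEq V] [Inhabited V] in
theorem hom_hom (E : List (Eqn V)) : hom (hom E) = hom E := by simp [hom]

omit [DecidableEq V] in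
theorem eqn_hom (E : List (Eqn V)) (e : ℕ) :
    eqn (hom E) e = ((eqn E e).1, (eqn E e).2.1, (eqn E e).2.2.1, false) := by
  simp only [eqn, hom, List.getD_eq_getElem?_getD, List.getElem?_map]
  cases E[e]? <;> rfl

omit [DecidableEq V] in
theorem occ_hom (E : List (Eqn V)) (o : ℕ) : occ (hom E) o = occ E o := by
  simp only [occ, eqn_hom]

theorem nxt_hom (E : List (Eqn V)) (o o' : ℕ) : Nxt (hom E) o o' ↔ Nxt E o o' := by
  simp only [Nxt, occ_hom, length_hom]

theorem Nxt.unique {E : List (Eqn V)} {o o' o'' : ℕ} (h : Nxt E o o') (h' : Nxt E o o'') :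
    o' = o'' := by
  rcases lt_trichotomy o' o'' with h1 | h1 | h1
  · exact absurd h.2.2.1 (h'.2.2.2 o' h1 h.1)
  · exact h1
  · exact absurd h'.2.2.1 (h.2.2.2 o'' h1 h'.1)

theorem Nxt.unique_prev {E : List (Eqn V)} {o o' o'' : ℕ} (h : Nxt E o' o) (h' : Nxt E o'' o) :
    o' = o'' := by
  rcases lt_trichotomy o' o'' with h1 | h1 | h1
  · exact absurd (h'.2.2.1.symm.trans h.2.2.1) (h.2.2.2 o'' h'.1 h1)
  · exact h1
  · exact absurd (h.2.2.1.symm.trans h'.2.2.1) (h'.2.2.2 o' h.1 h1)

/-- Two occurrences of one variable are joined through `Nxt` steps. -/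
theorem exists_nxt {E : List (Eqn V)} {o o' : ℕ} (h : o < o') (h' : o' < 3 * E.length)
    (he : occ E o' = occ E o) : ∃ i, i ≤ o' ∧ Nxt E o i := by
  have hex : ∃ i, o < i ∧ occ E i = occ E o := ⟨o', h, he⟩
  have h1 := Nat.find_min' hex ⟨h, he⟩
  have h2 := Nat.find_spec hex
  exact ⟨Nat.find hex, h1, h2.1, by omega, h2.2,
    fun i hi hoi hc => Nat.find_min hex hi ⟨hoi, hc⟩⟩

theorem adjV_comm (E : List (Eqn V)) (u v : Vx) : adjV E u v = adjV E v u := by
  simp [adjV, Bool.or_comm]

/-! Neighbourhoods (in `Vx`, before the restriction to valid vertices). -/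

theorem adj_s (E : List (Eqn V)) (o : ℕ) (v : Vx) : adjV E (.s o) v = true ↔
    v = .b o ∨ (0 < o ∧ v = .b (o - 1)) ∨ (o = 0 ∧ v = .t 0) := by
  cases v <;> simp [adjV, edge] <;> omega

theorem adj_b (E : List (Eqn V)) (o : ℕ) (v : Vx) : adjV E (.b o) v = true ↔
    v = .s o ∨ v = .s (o + 1) ∨ v = .c o := by
  cases v <;> simp [adjV, edge] <;> omega

theorem adj_c (E : List (Eqn V)) (o : ℕ) (v : Vx) : adjV E (.c o) v = true ↔
    v = .b o ∨ v = .p o false ∨ v = .p o true := by
  cases v with
  | p o' β => cases β <;> simp [adjV, edge]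
  | _ => simp [adjV, edge, eq_comm]

theorem adj_p (E : List (Eqn V)) (o : ℕ) (β : Bool) (v : Vx) : adjV E (.p o β) v = true ↔
    v = .c o ∨ v = .x o β ∨ ∃ o', Nxt E o o' ∧ v = .x o' β := by
  cases v with
  | x o' β' =>
    simp only [adjV, edge, Bool.or_false, decide_eq_true_eq, reduceCtorEq, Vx.x.injEq, false_or]
    constructor
    · rintro ⟨h | h, h'⟩
      · exact Or.inl ⟨h, h'⟩
      · exact Or.inr ⟨o', h, rfl, h'⟩
    · rintro (h | ⟨o'', h, rfl, h'⟩)
      · exact ⟨Or.inl h.1, h.2⟩
      · exact ⟨Or.inr h, h'⟩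
  | _ => simp [adjV, edge, eq_comm]

theorem adj_x (E : List (Eqn V)) (o : ℕ) (β : Bool) (v : Vx) : adjV E (.x o β) v = true ↔
    v = .p o β ∨ (∃ o', Nxt E o' o ∧ v = .p o' β) ∨ v = .a o β := by
  cases v with
  | p o' β' =>
    simp only [adjV, edge, Bool.false_or, decide_eq_true_eq, reduceCtorEq, Vx.p.injEq, or_false]
    constructor
    · rintro ⟨h | h, h'⟩
      · exact Or.inl ⟨h.symm, h'.symm⟩
      · exact Or.inr ⟨o', h, rfl, h'.symm⟩
    · rintro (h | ⟨o'', h, rfl, h'⟩)
      · exact ⟨Or.inl h.1.symm, h.2.symm⟩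
      · exact ⟨Or.inr h, h'.symm⟩
  | _ => simp [adjV, edge]

theorem adj_a (E : List (Eqn V)) (o : ℕ) (β : Bool) (v : Vx) : adjV E (.a o β) v = true ↔
    v = .x o β ∨ ∃ β₀ β₁, β = gbit E (o / 3) β₀ β₁ (o % 3) ∧ v = .g (o / 3) β₀ β₁ := by
  cases v with
  | g e β₀ β₁ =>
    simp only [adjV, edge, Bool.or_false, decide_eq_true_eq, reduceCtorEq, Vx.g.injEq, false_or]
    constructor
    · rintro ⟨rfl, h⟩
      exact ⟨β₀, β₁, h, rfl, rfl, rfl⟩
    · rintro ⟨_, _, h, rfl, rfl, rfl⟩
      exact ⟨rfl, h⟩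
  | x o' β' =>
    simp only [adjV, edge, Bool.false_or, decide_eq_true_eq, reduceCtorEq, Vx.x.injEq, and_false,
      exists_false, or_false]
    exact ⟨fun h => ⟨h.1.symm, h.2.symm⟩, fun h => ⟨h.1.symm, h.2.symm⟩⟩
  | _ => simp [adjV, edge]

theorem adj_g (E : List (Eqn V)) (e : ℕ) (β₀ β₁ : Bool) (v : Vx) :
    adjV E (.g e β₀ β₁) v = true ↔ ∃ l < 3, v = .a (3 * e + l) (gbit E e β₀ β₁ l) := by
  cases v with
  | a o β =>
    simp only [adjV, edge, Bool.false_or, decide_eq_true_eq, Vx.a.injEq]
    constructor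
    · rintro ⟨h, h'⟩
      exact ⟨o % 3, by omega, by omega, h'⟩
    · rintro ⟨l, hl, rfl, h'⟩
      have h1 : (3 * e + l) % 3 = l := by omega
      exact ⟨by omega, by rw [h1]; exact h'⟩
  | _ => simp [adjV, edge]

theorem adj_t (E : List (Eqn V)) (j : ℕ) (v : Vx) : adjV E (.t j) v = true ↔
    v = .t (j + 1) ∨ (0 < j ∧ v = .t (j - 1)) ∨ (j = 0 ∧ v = .s 0) := by
  cases v <;> simp [adjV, edge] <;> omega

theorem adjV_self (E : List (Eqn V)) (u : Vx) : adjV E u u = false := by
  cases u <;> simp [adjV, edge]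

/-- Every neighbourhood is covered by three vertices. -/
theorem exists_three (E : List (Eqn V)) (u : Vx) :
    ∃ v₁ v₂ v₃ : Vx, ∀ v, adjV E u v = true → v = v₁ ∨ v = v₂ ∨ v = v₃ := by
  cases u with
  | s o =>
    refine ⟨.b o, .b (o - 1), .t 0, fun v hv => ?_⟩
    rw [adj_s] at hv; tauto
  | b o => exact ⟨_, _, _, fun v hv => (adj_b E o v).1 hv⟩
  | c o => exact ⟨_, _, _, fun v hv => (adj_c E o v).1 hv⟩
  | p o β =>
    by_cases h : ∃ o', Nxt E o o'
    · obtain ⟨o', h⟩ := h
      refine ⟨.c o, .x o β, .x o' β, fun v hv => ?_⟩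
      rcases (adj_p E o β v).1 hv with h1 | h1 | ⟨o'', h1, h2⟩
      · exact Or.inl h1
      · exact Or.inr (Or.inl h1)
      · rw [h1.unique h] at h2; exact Or.inr (Or.inr h2)
    · refine ⟨.c o, .x o β, .x o β, fun v hv => ?_⟩
      rcases (adj_p E o β v).1 hv with h1 | h1 | ⟨o'', h1, _⟩
      · exact Or.inl h1
      · exact Or.inr (Or.inl h1)
      · exact absurd ⟨_, h1⟩ h
  | x o β =>
    by_cases h : ∃ o', Nxt E o' o
    · obtain ⟨o', h⟩ := h
      refine ⟨.p o β, .p o' β, .a o β, fun v hv => ?_⟩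
      rcases (adj_x E o β v).1 hv with h1 | ⟨o'', h1, h2⟩ | h1
      · exact Or.inl h1
      · rw [h1.unique_prev h] at h2; exact Or.inr (Or.inl h2)
      · exact Or.inr (Or.inr h1)
    · refine ⟨.p o β, .a o β, .a o β, fun v hv => ?_⟩
      rcases (adj_x E o β v).1 hv with h1 | ⟨o'', h1, _⟩ | h1
      · exact Or.inl h1
      · exact absurd ⟨_, h1⟩ h
      · exact Or.inr (Or.inl h1)
  | a o β =>
    by_cases h0 : o % 3 = 0
    · refine ⟨.x o β, .g (o / 3) β false, .g (o / 3) β true, fun v hv => ?_⟩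
      rcases (adj_a E o β v).1 hv with h1 | ⟨β₀, β₁, h1, rfl⟩
      · exact Or.inl h1
      · simp only [gbit, h0, if_true] at h1
        subst h1
        cases β₁ <;> simp
    · refine ⟨.x o β, .g (o / 3) false (if o % 3 = 1 then β else xor β (eqn E (o / 3)).2.2.2),
        .g (o / 3) true (if o % 3 = 1 then β else !xor β (eqn E (o / 3)).2.2.2), fun v hv => ?_⟩
      rcases (adj_a E o β v).1 hv with h1 | ⟨β₀, β₁, h1, rfl⟩
      · exact Or.inl h1
      · simp only [gbit, h0, if_false] at h1
        subst h1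
        split_ifs
        · cases β₀ <;> simp
        · cases β₀ <;> cases β₁ <;> cases (eqn E (o / 3)).2.2.2 <;> simp
  | g e β₀ β₁ =>
    refine ⟨.a (3 * e + 0) (gbit E e β₀ β₁ 0), .a (3 * e + 1) (gbit E e β₀ β₁ 1),
      .a (3 * e + 2) (gbit E e β₀ β₁ 2), fun v hv => ?_⟩
    obtain ⟨l, hl, rfl⟩ := (adj_g E e β₀ β₁ v).1 hv
    interval_cases l <;> simp
  | t j =>
    refine ⟨.t (j + 1), .t (j - 1), .s 0, fun v hv => ?_⟩
    rw [adj_t] at hv; tauto

/-- A property passed along edges between valid vertices reaches every valid vertex from `t 0`. -/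
theorem valid_induction (E : List (Eqn V)) {N n : ℕ} (hn : 31 * N + 1 ≤ n) {C : Vx → Prop}
    (h0 : C (.t 0))
    (hs : ∀ u v, u.Valid N n → v.Valid N n → adjV E u v = true → C u → C v) :
    ∀ u, u.Valid N n → C u := by
  have ht : ∀ j, 31 * N + j < n → C (.t j) := by
    intro j
    induction j with
    | zero => intro _; exact h0
    | succ j ih =>
      intro hj
      exact hs (.t j) _ (show 31 * N + j < n by omega) hj ((adj_t E _ _).2 (Or.inl rfl))
        (ih (by omega))
  have hS : ∀ o, o < 3 * N → C (.s o) := by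
    intro o
    induction o with
    | zero =>
      intro ho
      exact hs (.t 0) _ (show 31 * N + 0 < n by omega) ho ((adj_t E _ _).2 (by simp)) h0
    | succ o ih =>
      intro ho
      have ho' : o < 3 * N := by omega
      exact hs (.b o) _ ho' ho ((adj_b E _ _).2 (by simp))
        (hs (.s o) _ ho' ho' ((adj_s E _ _).2 (by simp)) (ih ho'))
  have hB : ∀ o, o < 3 * N → C (.b o) := fun o ho =>
    hs (.s o) _ ho ho ((adj_s E _ _).2 (by simp)) (hS o ho)
  have hC : ∀ o, o < 3 * N → C (.c o) := fun o ho =>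
    hs (.b o) _ ho ho ((adj_b E _ _).2 (by simp)) (hB o ho)
  have hP : ∀ o β, o < 3 * N → C (.p o β) := fun o β ho =>
    hs (.c o) _ ho ho ((adj_c E _ _).2 (by cases β <;> simp)) (hC o ho)
  have hX : ∀ o β, o < 3 * N → C (.x o β) := fun o β ho =>
    hs (.p o β) _ ho ho ((adj_p E _ _ _).2 (by simp)) (hP o β ho)
  have hA : ∀ o β, o < 3 * N → C (.a o β) := fun o β ho =>
    hs (.x o β) _ ho ho ((adj_x E _ _ _).2 (by simp)) (hX o β ho)
  intro u hu
  cases u with
  | s o => exact hS o hu
  | b o => exact hB o hu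
  | c o => exact hC o hu
  | p o β => exact hP o β hu
  | x o β => exact hX o β hu
  | a o β => exact hA o β hu
  | g e β₀ β₁ =>
    have he : e < N := hu
    have ho : 3 * e + 0 < 3 * N := by omega
    refine hs (.a (3 * e + 0) (gbit E e β₀ β₁ 0)) _ ho hu ?_ (hA _ _ ho)
    rw [adjV_comm]
    exact (adj_g E _ _ _ _).2 ⟨0, by omega, rfl⟩
  | t j => exact ht j hu

/-- Simple (by cases), degree at most three (from the neighbourhood lemmas: each neighbourhood is
covered by three vertices; for `a o β` exactly two of the four `g` vertices qualify), connected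
(every valid vertex is joined to `t 0`: tail by induction on `j`, `s o`/`b o` by induction on `o`,
then `c`, `p`, `x`, `a`, `g`). -/
theorem gam_basic (E : List (Eqn V)) {n : ℕ} (hn : 31 * E.length + 1 ≤ n) :
    SimpleConnSubcubic (gam E n) := by
  have hn' : 31 * E.length ≤ n := by omega
  refine ⟨⟨fun v w => adjV_comm E _ _, fun v => adjV_self E _⟩, ?_, fun v => ?_⟩
  · have key := valid_induction E hn (C := fun u => ∀ w : Fin n, (w : ℕ) = num E.length u →
        (adjGraph (gam E n)).Reachable ⟨31 * E.length, by omega⟩ w)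
      (fun w hw => by
        have : w = ⟨31 * E.length, by omega⟩ := Fin.ext hw
        rw [this])
      (fun u v hu hv huv h w hw => by
        refine (h ⟨num E.length u, num_lt hn' hu⟩ rfl).trans ?_
        by_cases he : (⟨num E.length u, num_lt hn' hu⟩ : Fin n) = w
        · rw [he]
        · refine SimpleGraph.Adj.reachable ((SimpleGraph.fromRel_adj _ _ _).2 ⟨he, Or.inl ?_⟩)
          show adjV E (dec E.length (num E.length u)) (dec E.length w) = true
          rw [hw, dec_num hu, dec_num hv, huv])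
    have key' : ∀ w : Fin n, (adjGraph (gam E n)).Reachable ⟨31 * E.length, by omega⟩ w :=
      fun w => key _ (dec_valid w.2) w (num_dec _ _).symm
    have : Nonempty (Fin n) := ⟨⟨0, by omega⟩⟩
    exact ⟨fun v w => (key' v).symm.trans (key' w)⟩
  · obtain ⟨v₁, v₂, v₃, h⟩ := exists_three E (dec E.length v)
    refine le_trans (Finset.card_le_card_of_injOn (t := {v₁, v₂, v₃})
      (fun w : Fin n => dec E.length w) (fun w hw => ?_) (fun w _ w' _ hw => ?_))
      Finset.card_le_three
    · have := h _ (Finset.mem_filter.1 (Finset.mem_coe.1 hw)).2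
      simpa using this
    · have := congrArg (num E.length) hw
      simp only [num_dec] at this
      exact Fin.ext this

end Crest.Agent.R290
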