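import Crest.Agent.R290.GrBasic
import Crest.Agent.R290.Lin

/-!
Row 290, task GRE: without a narrow refutation the second player wins.
-/

set_option autoImplicit false

namespace Crest.Agent.R290

variable {V : Type} [DecidableEq V] [Inhabited V]

namespace Gre

/-- an element of `ZMod 2` as a bit -/
def tb (x : ZMod 2) : Bool := decide (x = 1)

/-- shift of the bits of a vertex -/
def sh (E : List (Eqn V)) (δ : V → ZMod 2) : Vx → Vx
  | .p o β => .p o (xor β (tb (δ (occ E o))))
  | .x o β => .x o (xor β (tb (δ (occ E o))))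
  | .a o β => .a o (xor β (tb (δ (occ E o))))
  | .g e β₀ β₁ => .g e (xor β₀ (tb (δ (occ E (3 * e))))) (xor β₁ (tb (δ (occ E (3 * e + 1)))))
  | u => u

/-- the variables seen by a vertex -/
def vars (E : List (Eqn V)) : Vx → Finset V
  | .p o _ => {occ E o}
  | .x o _ => {occ E o}
  | .a o _ => {occ E o}
  | .g e _ _ => {occ E (3 * e), occ E (3 * e + 1), occ E (3 * e + 2)}
  | _ => ∅

variable (E : List (Eqn V))

theorem sh_congr {δ δ' : V → ZMod 2} (u : Vx) (h : ∀ v ∈ vars E u, δ' v = δ v) :
    sh E δ' u = sh E δ u := by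
  cases u <;> simp_all [sh, vars]

omit [DecidableEq V] in
theorem loc_sh (δ : V → ZMod 2) (u : Vx) : (sh E δ u).loc = u.loc := by
  cases u <;> rfl

theorem vars_loc (u : Vx) : vars E u.loc = vars E u := by
  cases u <;> rfl

omit [DecidableEq V] in
theorem valid_sh (δ : V → ZMod 2) {N n : ℕ} {u : Vx} (h : u.Valid N n) : (sh E δ u).Valid N n := by
  cases u <;> exact h

omit [DecidableEq V] in
theorem sh_sh (δ : V → ZMod 2) (u : Vx) : sh E δ (sh E δ u) = u := by
  cases u <;> simp [sh]

theorem card_vars (u : Vx) : (vars E u).card ≤ 3 := by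
  cases u <;> simp [vars, Finset.card_le_three]

omit [DecidableEq V] in
theorem occ0 (e : ℕ) : occ E (3 * e) = (eqn E e).1 := by
  simp [occ]

omit [DecidableEq V] in
theorem occ1 (e : ℕ) : occ E (3 * e + 1) = (eqn E e).2.1 := by
  have h1 : (3 * e + 1) % 3 = 1 := by omega
  have h2 : (3 * e + 1) / 3 = e := by omega
  simp [occ, h1, h2]

omit [DecidableEq V] in
theorem occ2 (e : ℕ) : occ E (3 * e + 2) = (eqn E e).2.2.1 := by
  have h1 : (3 * e + 2) % 3 = 2 := by omega
  have h2 : (3 * e + 2) / 3 = e := by omega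
  simp [occ, h1, h2]

/-- `δ` satisfies the equation seen by the vertex -/
def Good (δ : V → ZMod 2) : Vx → Prop
  | .g e _ _ => tb (δ (occ E (3 * e + 2))) =
      xor (xor (tb (δ (occ E (3 * e)))) (tb (δ (occ E (3 * e + 1))))) (eqn E e).2.2.2
  | _ => True

theorem tb_add (x y z : ZMod 2) (β : Bool) (h : x + y + z = bz2 β) :
    tb z = xor (xor (tb x) (tb y)) β := by
  revert x y z β
  decide

theorem good_of_sat {w N n : ℕ} (hN : E.length = N) {S : Finset V} {δ : V → ZMod 2}
    (h : Sat E w S δ) {u : Vx} (hu : u.Valid N n) (hS : vars E u ⊆ S) : Good E δ u := by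
  cases u with
  | g e β₀ β₁ =>
    have he : e < E.length := hN ▸ hu
    have hm : eqn E e ∈ E := by
      rw [eqn, List.getD_eq_getElem _ _ he]
      exact List.getElem_mem he
    have := h _ _ (Der.ax _ hm) (fun v hv => hS (by
      by_contra hc
      simp only [vars, occ0, occ1, occ2, Finset.mem_insert, Finset.mem_singleton, not_or] at hc
      simp [form, Ne.symm hc.1, Ne.symm hc.2.1, Ne.symm hc.2.2] at hv))
    rw [ev_form] at this
    simp only [Good, occ0, occ1, occ2]
    exact tb_add _ _ _ _ this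
  | _ => trivial

theorem edge_sh (δ : V → ZMod 2) (u v : Vx) (hv : Good E δ v) :
    edge (hom E) u v = edge E (sh E δ u) (sh E δ v) := by
  cases u <;> cases v <;> try rfl
  · rename_i o β o' β'
    simp only [edge, sh, nxt_hom, decide_eq_decide]
    refine and_congr_right fun h => ?_
    have : occ E o' = occ E o := by
      rcases h with rfl | h
      · rfl
      · exact h.2.2.1
    rw [this]
    simp
  · rename_i o β o' β'
    simp only [edge, sh, decide_eq_decide]
    refine and_congr_right fun h => ?_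
    subst h
    simp
  · rename_i o β e β₀ β₁
    simp only [edge, sh, decide_eq_decide]
    refine and_congr_right fun h => ?_
    simp only [Good] at hv
    obtain rfl | rfl | rfl : o = 3 * e ∨ o = 3 * e + 1 ∨ o = 3 * e + 2 := by omega
    · simp [gbit]
    · have h1 : (3 * e + 1) % 3 = 1 := by omega
      simp [gbit, h1]
    · have h1 : (3 * e + 2) % 3 = 2 := by omega
      simp only [gbit, h1, eqn_hom, hv]
      generalize tb (δ (occ E (3 * e))) = x
      generalize tb (δ (occ E (3 * e + 1))) = y
      generalize (eqn E e).2.2.2 = r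
      revert β β₀ β₁ x y r
      decide

theorem strat {w m N n : ℕ} (hN : E.length = N) (h : ¬ Der E w 0 1) (hw : 3 * m ≤ w) :
    Strat m (adjS (hom E) N n) (adjS E N n) fun s =>
      ∃ δ, Sat E w (s.biUnion fun p => vars E p.1.1) δ ∧ ∀ p ∈ s, p.2.1 = sh E δ p.1.1 where
  empty := ⟨0, by simpa using sat_empty h 0, by simp⟩
  sub := fun s t ⟨δ, h1, h2⟩ hst =>
    ⟨δ, h1.subset (Finset.biUnion_subset_biUnion_of_subset_left _ hst), fun p hp => h2 p (hst hp)⟩
  eq := by
    rintro s ⟨δ, -, h2⟩ p hp q hq
    rw [Subtype.ext_iff, Subtype.ext_iff, h2 p hp, h2 q hq]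
    exact ⟨fun e => by rw [e], fun e => by rw [← sh_sh E δ p.1.1, e, sh_sh]⟩
  adj := by
    rintro s ⟨δ, h1, h2⟩ p hp q hq
    have g : ∀ r ∈ s, Good E δ r.1.1 := fun r hr =>
      good_of_sat E hN h1 r.1.2 (Finset.subset_biUnion_of_mem (fun p => vars E p.1.1) hr)
    simp only [adjS, adjV]
    rw [h2 p hp, h2 q hq, edge_sh E δ _ _ (g p hp), edge_sh E δ _ _ (g q hq)]
  ext := by
    rintro s ⟨δ, h1, h2⟩ hc
    have hcard : (s.biUnion fun p => vars E p.1.1).card ≤ s.card * 3 :=
      Finset.card_biUnion_le_card_mul _ _ _ fun p _ => card_vars E _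
    have key : ∀ ℓ : Vx, ∃ δ', (∀ v ∈ s.biUnion fun p => vars E p.1.1, δ' v = δ v) ∧
        Sat E w (vars E ℓ ∪ s.biUnion fun p => vars E p.1.1) δ' := fun ℓ =>
      h1.extend Finset.subset_union_right ((Finset.card_union_le _ _).trans (by
        have := card_vars E ℓ
        omega))
    choose D hD1 hD2 using key
    let f : VV N n → VV N n := fun z => ⟨sh E (D z.1.loc) z.1, valid_sh E _ z.2⟩
    have hf : Function.Involutive f := fun z => Subtype.ext (by simp only [f, loc_sh, sh_sh])
    refine ⟨hf.toPerm f, fun z => ⟨D z.1.loc, ?_, fun p hp => ?_⟩⟩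
    · have := hD2 z.1.loc
      rw [vars_loc] at this
      rwa [Finset.biUnion_insert]
    · rcases Finset.mem_insert.1 hp with rfl | hp
      · rfl
      · rw [h2 p hp]
        exact (sh_congr E _ fun v hv => hD1 _ v (Finset.mem_biUnion.2 ⟨p, hp, hv⟩)).symm

end Gre

/-- For `δ : V → ZMod 2` let `shift δ` add `δ (occ E o)` to the bit of `p o`, `x o`, `a o`, and
`δ (occ E (3e))`, `δ (occ E (3e+1))` to the bits of `g e`; it keeps locations and validity and is an
involution. `vars u` is `{occ E o}` for the pairs, the three variables of `eqn E e` for `g e`, empty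
otherwise (it depends on the location only, at most three elements).
`P s := ∃ δ, Sat E w (s.biUnion fun p => vars p.1) δ ∧ ∀ p ∈ s, p.2 = shift δ p.1`.
Adjacency: for `a o β`, `g e β₀ β₁` use that `δ` satisfies `eqn E e ∈ E` (`Der.ax`, `ev_form`); for
`p o`, `x o'` with `Nxt` the variable is the same. Extension: for each location `ℓ` choose `δ ℓ`
by `Sat.extend` to `vars s ∪ vars ℓ` (at most `3 m ≤ w` variables); `e z := shift (δ z.loc) z` is an
involution. Work on `VV` and transport with `Game.congr` and `adjS_decE`. -/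
theorem gam_game {E : List (Eqn V)} {w m n : ℕ} (h : ¬ Der E w 0 1) (hw : 3 * m ≤ w)
    (hn : 31 * E.length + 1 ≤ n) : Game m (gam (hom E) n) (gam E n) := by
  have hn' : 31 * E.length ≤ n := by omega
  exact (Game.congr (decE E.length n hn') (decE E.length n hn')
    (adjS_decE (length_hom E) hn') (adjS_decE rfl hn')).2 ⟨_, Gre.strat E rfl h hw⟩

end Crest.Agent.R290
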