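import Crest.Agent.R290.GrBasic

/-!
Row 290, task GRL: a strategy with two pebble pairs preserves locations.
-/

set_option autoImplicit false

namespace Crest.Agent.R290

variable {V : Type} [DecidableEq V] [Inhabited V]

namespace Grl

/-- The pair is reachable by a strategy with two pebble pairs. -/
def Rel (N n : ℕ) (E E' : List (Eqn V)) (u v : Vx) : Prop :=
  ∃ (hu : u.Valid N n) (hv : v.Valid N n) (P : Finset (VV N n × VV N n) → Prop),
    Strat 2 (adjS E N n) (adjS E' N n) P ∧ P {(⟨u, hu⟩, ⟨v, hv⟩)}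

variable {N n : ℕ} {E E' : List (Eqn V)} {u v : Vx}

theorem Rel.symm (h : Rel N n E E' u v) : Rel N n E' E v u := by
  obtain ⟨hu, hv, P, hP, h⟩ := h
  exact ⟨hv, hu, _, hP.symm, by simpa using h⟩

theorem Rel.step (h : Rel N n E E' u v) : ∃ e : VV N n ≃ VV N n,
    ∀ z, Rel N n E E' z.1 (e z).1 ∧ adjV E u z.1 = adjV E' v (e z).1 := by
  obtain ⟨hu, hv, P, hP, h⟩ := h
  obtain ⟨e, he⟩ := hP.step le_rfl h
  exact ⟨e, fun z => ⟨⟨z.2, (e z).2, P, hP, (he z).2.1⟩, (he z).2.2.1⟩⟩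

/-- At least two valid neighbours. -/
def D2 (N n : ℕ) (E : List (Eqn V)) (u : Vx) : Prop :=
  ∃ a b : Vx, a.Valid N n ∧ b.Valid N n ∧ a ≠ b ∧ adjV E u a = true ∧ adjV E u b = true

/-- At least three valid neighbours. -/
def D3 (N n : ℕ) (E : List (Eqn V)) (u : Vx) : Prop :=
  ∃ a b c : Vx, a.Valid N n ∧ b.Valid N n ∧ c.Valid N n ∧ a ≠ b ∧ a ≠ c ∧ b ≠ c ∧
    adjV E u a = true ∧ adjV E u b = true ∧ adjV E u c = true

theorem Rel.d2 (h : Rel N n E E' u v) (hu : D2 N n E u) : D2 N n E' v := by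
  obtain ⟨e, he⟩ := h.step
  obtain ⟨a, b, ha, hb, h1, h2, h3⟩ := hu
  exact ⟨_, _, (e ⟨a, ha⟩).2, (e ⟨b, hb⟩).2,
    fun h => h1 (congrArg Subtype.val (e.injective (Subtype.ext h))),
    (he ⟨a, ha⟩).2 ▸ h2, (he ⟨b, hb⟩).2 ▸ h3⟩

theorem Rel.d3 (h : Rel N n E E' u v) (hu : D3 N n E u) : D3 N n E' v := by
  obtain ⟨e, he⟩ := h.step
  obtain ⟨a, b, c, ha, hb, hc, h1, h2, h3, h4, h5, h6⟩ := hu
  exact ⟨_, _, _, (e ⟨a, ha⟩).2, (e ⟨b, hb⟩).2, (e ⟨c, hc⟩).2,
    fun h => h1 (congrArg Subtype.val (e.injective (Subtype.ext h))),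
    fun h => h2 (congrArg Subtype.val (e.injective (Subtype.ext h))),
    fun h => h3 (congrArg Subtype.val (e.injective (Subtype.ext h))),
    (he ⟨a, ha⟩).2 ▸ h4, (he ⟨b, hb⟩).2 ▸ h5, (he ⟨c, hc⟩).2 ▸ h6⟩

theorem d2_of (hN : 0 < N) (hn : 31 * N + 1 ≤ n) (hu : u.Valid N n)
    (h : u ≠ .t (n - 1 - 31 * N)) : D2 N n E u := by
  cases u with
  | s o =>
    rcases Nat.eq_zero_or_pos o with ho | ho
    · exact ⟨.b o, .t 0, hu, hn, by simp, by simp [adj_s], by simp [adj_s, ho]⟩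
    · refine ⟨.b o, .b (o - 1), hu, (Nat.sub_le _ _).trans_lt hu, ?_, by simp [adj_s],
        by simp [adj_s, ho]⟩
      simp only [ne_eq, Vx.b.injEq]; omega
  | b o => exact ⟨.s o, .c o, hu, hu, by simp, by simp [adj_b], by simp [adj_b]⟩
  | c o => exact ⟨.p o false, .p o true, hu, hu, by simp, by simp [adj_c], by simp [adj_c]⟩
  | p o β => exact ⟨.c o, .x o β, hu, hu, by simp, by simp [adj_p], by simp [adj_p]⟩
  | x o β => exact ⟨.p o β, .a o β, hu, hu, by simp, by simp [adj_x], by simp [adj_x]⟩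
  | a o β =>
    have h1 : ∃ β₀ β₁, β = gbit E (o / 3) β₀ β₁ (o % 3) := by
      unfold gbit
      split_ifs
      · exact ⟨β, β, rfl⟩
      · exact ⟨β, β, rfl⟩
      · exact ⟨xor β (eqn E (o / 3)).2.2.2, false, by simp⟩
    obtain ⟨β₀, β₁, h1⟩ := h1
    have h2 : o < 3 * N := hu
    exact ⟨.x o β, .g (o / 3) β₀ β₁, hu, show o / 3 < N by omega, by simp, by simp [adj_a],
      (adj_a _ _ _ _).2 (Or.inr ⟨β₀, β₁, h1, rfl⟩)⟩
  | g e β₀ β₁ =>
    have h2 : e < N := hu
    exact ⟨.a (3 * e + 0) _, .a (3 * e + 1) _, show 3 * e + 0 < 3 * N by omega,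
      show 3 * e + 1 < 3 * N by omega, by simp, (adj_g _ _ _ _ _).2 ⟨0, by omega, rfl⟩,
      (adj_g _ _ _ _ _).2 ⟨1, by omega, rfl⟩⟩
  | t j =>
    have h2 : 31 * N + j < n := hu
    have h3 : j ≠ n - 1 - 31 * N := fun e => h (by rw [e])
    have h4 : (Vx.t (j + 1)).Valid N n := show 31 * N + (j + 1) < n by omega
    rcases Nat.eq_zero_or_pos j with hj | hj
    · exact ⟨.t (j + 1), .s 0, h4, show 0 < 3 * N by omega, by simp, by simp [adj_t],
        by simp [adj_t, hj]⟩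
    · refine ⟨.t (j + 1), .t (j - 1), h4, show 31 * N + (j - 1) < n by omega, ?_, by simp [adj_t],
        by simp [adj_t, hj]⟩
      simp only [ne_eq, Vx.t.injEq]; omega

theorem not_d2 : ¬ D2 N n E (.t (n - 1 - 31 * N)) := by
  rintro ⟨a, b, ha, hb, h1, h2, h3⟩
  rw [adj_t] at h2 h3
  have h4 : ¬ (Vx.t (n - 1 - 31 * N + 1)).Valid N n := by
    show ¬ 31 * N + (n - 1 - 31 * N + 1) < n
    omega
  rcases h2 with rfl | ⟨h2, rfl⟩ | ⟨h2, rfl⟩
  · exact h4 ha
  · rcases h3 with rfl | ⟨h3, rfl⟩ | ⟨h3, rfl⟩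
    exacts [h4 hb, h1 rfl, by omega]
  · rcases h3 with rfl | ⟨h3, rfl⟩ | ⟨h3, rfl⟩
    exacts [h4 hb, by omega, h1 rfl]

theorem not_d3 (o : ℕ) : ¬ D3 N n E (.s (o + 1)) := by
  rintro ⟨a, b, c, -, -, -, h1, h2, h3, h4, h5, h6⟩
  rw [adj_s] at h4 h5 h6
  rcases h4 with rfl | ⟨-, rfl⟩ | ⟨h4, -⟩ <;> rcases h5 with rfl | ⟨-, rfl⟩ | ⟨h5, -⟩ <;>
    rcases h6 with rfl | ⟨-, rfl⟩ | ⟨h6, -⟩ <;> contradiction

variable (V) in
/-- The location is preserved. -/
def C (N n : ℕ) (l : Vx) : Prop :=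
  ∀ (E E' : List (Eqn V)) (u v : Vx), Rel N n E E' u v → u.loc = l → v.loc = l

theorem C.step {z : Vx} (hC : C V N n z.loc) (h : Rel N n E E' u v) (hz : z.Valid N n)
    (ha : adjV E u z = true) : ∃ z' : Vx, z'.loc = z.loc ∧ adjV E' z' v = true := by
  obtain ⟨e, he⟩ := h.step
  exact ⟨_, hC _ _ _ _ (he ⟨z, hz⟩).1 rfl, by rw [adjV_comm, ← (he ⟨z, hz⟩).2]; exact ha⟩

theorem C.back (hC : C V N n v.loc) (h : Rel N n E E' u v) : u.loc = v.loc :=
  hC _ _ _ _ h.symm rfl

theorem loc_s {o : ℕ} (h : u.loc = .s o) : u = .s o := by cases u <;> simp_all [Vx.loc]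
theorem loc_b {o : ℕ} (h : u.loc = .b o) : u = .b o := by cases u <;> simp_all [Vx.loc]
theorem loc_c {o : ℕ} (h : u.loc = .c o) : u = .c o := by cases u <;> simp_all [Vx.loc]
theorem loc_t {o : ℕ} (h : u.loc = .t o) : u = .t o := by cases u <;> simp_all [Vx.loc]
theorem loc_p {o : ℕ} (h : u.loc = .p o false) : ∃ β, u = .p o β := by
  cases u <;> simp_all [Vx.loc]
theorem loc_x {o : ℕ} (h : u.loc = .x o false) : ∃ β, u = .x o β := by
  cases u <;> simp_all [Vx.loc]
theorem loc_a {o : ℕ} (h : u.loc = .a o false) : ∃ β, u = .a o β := by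
  cases u <;> simp_all [Vx.loc]
theorem loc_g {o : ℕ} (h : u.loc = .g o false false) : ∃ β β', u = .g o β β' := by
  cases u <;> simp_all [Vx.loc]

theorem c_t (hN : 0 < N) (hn : 31 * N + 1 ≤ n) (j : ℕ) : C V N n (.t j) := by
  have key : ∀ d j, n ≤ j + d → C V N n (.t j) := by
    intro d
    induction d with
    | zero =>
      intro j hj E E' u v h hu
      obtain rfl := loc_t hu
      have : 31 * N + j < n := h.1
      omega
    | succ d ih =>
      intro j hj E E' u v h hu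
      obtain rfl := loc_t hu
      have h1 : 31 * N + j < n := h.1
      by_cases h2 : j = n - 1 - 31 * N
      · subst h2
        by_contra h3
        exact not_d2 (h.symm.d2 (d2_of hN hn h.2.1 (fun e => h3 (by rw [e]; rfl))))
      · obtain ⟨z, h3, h4⟩ := C.step (z := .t (j + 1)) (ih _ (by omega)) h
          (show 31 * N + (j + 1) < n by omega) (by simp [adj_t])
        obtain rfl := loc_t h3
        rcases (adj_t _ _ _).1 h4 with rfl | ⟨-, rfl⟩ | ⟨h5, -⟩
        · have := C.back (ih (j + 1 + 1) (by omega)) h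
          simp only [Vx.loc, Vx.t.injEq] at this; omega
        · rfl
        · omega
  exact key n j (by omega)

theorem c_sb (hN : 0 < N) (hn : 31 * N + 1 ≤ n) (o : ℕ) :
    C V N n (.s o) ∧ C V N n (.b o) := by
  have hb : ∀ o, C V N n (.s o) → (0 < o → C V N n (.b (o - 1))) → C V N n (.b o) := by
    intro o h1 h2 E E' u v h hu
    obtain rfl := loc_b hu
    obtain ⟨z, h3, h4⟩ := C.step (z := .s o) h1 h h.1 (by simp [adj_b])
    obtain rfl := loc_s h3
    rcases (adj_s _ _ _).1 h4 with rfl | ⟨h5, rfl⟩ | ⟨h5, rfl⟩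
    · rfl
    · exact (C.back (h2 h5) h).symm
    · exact (C.back (c_t hN hn 0) h).symm
  induction o with
  | zero =>
    have hs : C V N n (.s 0) := by
      intro E E' u v h hu
      obtain rfl := loc_s hu
      obtain ⟨z, h3, h4⟩ := C.step (z := .t 0) (c_t hN hn 0) h hn (by simp [adj_s])
      obtain rfl := loc_t h3
      rcases (adj_t _ _ _).1 h4 with rfl | ⟨h5, rfl⟩ | ⟨h5, rfl⟩
      · exact (C.back (c_t hN hn _) h).symm
      · omega
      · rfl
    exact ⟨hs, hb 0 hs (fun h => absurd h (lt_irrefl 0))⟩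
  | succ o ih =>
    have hs : C V N n (.s (o + 1)) := by
      intro E E' u v h hu
      obtain rfl := loc_s hu
      have h1 : o + 1 < 3 * N := h.1
      have h2 : o < 3 * N := by omega
      obtain ⟨z, h3, h4⟩ := C.step (z := .b o) ih.2 h h2 (by simp [adj_s])
      obtain rfl := loc_b h3
      rcases (adj_b _ _ _).1 h4 with rfl | rfl | rfl
      · exact (C.back ih.1 h).symm
      · rfl
      · exact absurd (h.symm.d3 ⟨.b o, .p o false, .p o true, h2, h2, h2, by simp, by simp, by simp,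
          by simp [adj_c], by simp [adj_c], by simp [adj_c]⟩) (not_d3 o)
    exact ⟨hs, hb _ hs (fun _ => ih.2)⟩

theorem c_c (hN : 0 < N) (hn : 31 * N + 1 ≤ n) (o : ℕ) : C V N n (.c o) := by
  intro E E' u v h hu
  obtain rfl := loc_c hu
  obtain ⟨z, h3, h4⟩ := C.step (z := .b o) (c_sb hN hn o).2 h h.1 (by simp [adj_c])
  obtain rfl := loc_b h3
  rcases (adj_b _ _ _).1 h4 with rfl | rfl | rfl
  · exact (C.back (c_sb hN hn _).1 h).symm
  · exact (C.back (c_sb hN hn _).1 h).symm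
  · rfl

theorem c_p (hN : 0 < N) (hn : 31 * N + 1 ≤ n) (o : ℕ) : C V N n (.p o false) := by
  intro E E' u v h hu
  obtain ⟨β, rfl⟩ := loc_p hu
  obtain ⟨z, h3, h4⟩ := C.step (z := .c o) (c_c hN hn o) h h.1 (by simp [adj_p])
  obtain rfl := loc_c h3
  rcases (adj_c _ _ _).1 h4 with rfl | rfl | rfl
  · exact (C.back (c_sb hN hn _).2 h).symm
  · rfl
  · rfl

theorem c_x (hN : 0 < N) (hn : 31 * N + 1 ≤ n) (o : ℕ) : C V N n (.x o false) := by
  have key : ∀ d o, 3 * N ≤ o + d → C V N n (.x o false) := by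
    intro d
    induction d with
    | zero =>
      intro o ho E E' u v h hu
      obtain ⟨β, rfl⟩ := loc_x hu
      have : o < 3 * N := h.1
      omega
    | succ d ih =>
      intro o ho E E' u v h hu
      obtain ⟨β, rfl⟩ := loc_x hu
      obtain ⟨z, h3, h4⟩ := C.step (z := .p o β) (c_p hN hn o) h h.1 (by simp [adj_x])
      obtain ⟨β', rfl⟩ := loc_p h3
      rcases (adj_p _ _ _ _).1 h4 with rfl | rfl | ⟨o', h5, rfl⟩
      · exact (C.back (c_c hN hn _) h).symm
      · rfl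
      · exact (C.back (v := .x o' β') (ih o' (by have := h5.1; omega)) h).symm
  exact key (3 * N) o (by omega)

theorem c_a (hN : 0 < N) (hn : 31 * N + 1 ≤ n) (o : ℕ) : C V N n (.a o false) := by
  intro E E' u v h hu
  obtain ⟨β, rfl⟩ := loc_a hu
  obtain ⟨z, h3, h4⟩ := C.step (z := .x o β) (c_x hN hn o) h h.1 (by simp [adj_a])
  obtain ⟨β', rfl⟩ := loc_x h3
  rcases (adj_x _ _ _ _).1 h4 with rfl | ⟨o', h5, rfl⟩ | rfl
  · exact (C.back (v := .p o β') (c_p hN hn _) h).symm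
  · exact (C.back (v := .p o' β') (c_p hN hn _) h).symm
  · rfl

theorem c_g (hN : 0 < N) (hn : 31 * N + 1 ≤ n) (e : ℕ) : C V N n (.g e false false) := by
  intro E E' u v h hu
  obtain ⟨β₀, β₁, rfl⟩ := loc_g hu
  have h1 : e < N := h.1
  obtain ⟨z, h3, h4⟩ := C.step (z := .a (3 * e + 0) _) (c_a hN hn _) h
    (show 3 * e + 0 < 3 * N by omega) ((adj_g _ _ _ _ _).2 ⟨0, by omega, rfl⟩)
  obtain ⟨β', rfl⟩ := loc_a h3
  rcases (adj_a _ _ _ _).1 h4 with rfl | ⟨γ₀, γ₁, -, rfl⟩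
  · exact (C.back (v := .x _ β') (c_x hN hn _) h).symm
  · simp [Vx.loc]

end Grl

set_option linter.unusedVariables false in
/-- Write `C ℓ` for: `∀ u v, P {(u, v)} → (u.1.loc = ℓ ↔ v.1.loc = ℓ)`. Degrees
(`Nat.card {z // adjS E N n u z = true}`, preserved by `Strat.deg`): the last tail vertex
`t (n - 1 - 31 N)` is the only vertex of degree at most `1` (every other valid vertex has two distinct
valid neighbours); every `s o` has degree `2`, every `c o` degree `3`.
Step: if `u` is at the new location, it has a valid neighbour `z` at an earlier location `ℓ'`;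
`Strat.step` gives `e z` at `ℓ'`, adjacent to `v`, so `v` is at a location adjacent to `ℓ'`; the other
candidates are excluded by earlier claims or by the degree; the converse direction by `Strat.symm`
(state the step for both orders of `E`, `E'`, or prove `C` in the symmetric form). Order: the tail
from its end down to `t 0`; `s 0`, then `b o` from `s o`, `c o` (degree 3) and `s (o+1)` (degree 2,
not `s o`) from `b o`; `p o` from `c o`; `x o` from `p o` by downward induction on `o` (the other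
candidate is `x o'` with `Nxt E o o'`, `o' > o`); `a o` from `x o`; `g e` from `a (3 e)`.
`occ` and `Nxt` agree for `E`, `E'` by `occ_hom`, `nxt_hom`. -/
theorem gr_loc {E E' : List (Eqn V)} {N n m : ℕ} (hE : E.length = N) (hE' : hom E = hom E')
    (hN : 0 < N) (hn : 31 * N + 1 ≤ n) (hm : 2 ≤ m) {P : Finset (VV N n × VV N n) → Prop}
    (hP : Strat m (adjS E N n) (adjS E' N n) P) {u v : VV N n} (h : P {(u, v)}) :
    u.1.loc = v.1.loc := by
  have h1 : Grl.Rel N n E E' u.1 v.1 := ⟨u.2, v.2, P, hP.mono hm, h⟩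
  refine Grl.C.back (V := V) ?_ h1
  cases v.1 with
  | s o => exact (Grl.c_sb hN hn o).1
  | b o => exact (Grl.c_sb hN hn o).2
  | c o => exact Grl.c_c hN hn o
  | p o β => exact Grl.c_p hN hn o
  | x o β => exact Grl.c_x hN hn o
  | a o β => exact Grl.c_a hN hn o
  | g e β β' => exact Grl.c_g hN hn e
  | t j => exact Grl.c_t hN hn j

end Crest.Agent.R290
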