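import Crest.Agent.R290.Core
import Crest.Agent.R290.Tab
import Crest.Agent.R290.PtGam
import Crest.Agent.R290.ExpMach

/-!
Row 290, task HARD: EXPTIME-hardness.
-/

set_option autoImplicit false

namespace Crest.Agent.R290

open Crest.WLRefine Crest.Agent.PT Crest.Agent.QC Crest.Agent.R317

/-- `mach_of_inEXP`, `exists_code`, `core` with `k = C0 * ((|x| + 2) ^ K + |x| + 3)`,
`B = sz code + |x| + k + 2`, `n = B ^ 50`. -/
theorem hard_core {A : Set (List Bool)} (hA : Crest.ExpTime.InEXP A) (neg : Bool) :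
    ∃ (k n : Raw → ℕ) (g : Raw → Bool → ℕ → ℕ → Bool) (f : List Bool → Bool),
      (∀ x, x ∈ A ↔ f x = true) ∧ PT k ∧ PT n ∧
      PT (fun p : Raw × Bool × ℕ × ℕ => g p.1 p.2.1 p.2.2.1 p.2.2.2) ∧
      ∀ x : List Bool, 2 ≤ k ⟨x⟩ ∧ 0 < n ⟨x⟩ ∧
        Outcome (k ⟨x⟩) (n ⟨x⟩) (g ⟨x⟩ false) (g ⟨x⟩ true) (xor neg (f x)) := by
  obtain ⟨τ, _, M, K, f, hf, hM⟩ := mach_of_inEXP hA neg
  obtain ⟨code, hc⟩ := exists_code M
  have hl : PT fun x : Raw => x.val.length := PT.len PT.id'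
  have hk : PT fun x : Raw => C0 * ((x.val.length + 2) ^ K + x.val.length + 3) :=
    (PT.const _).mul ((((hl.add (PT.const 2)).pow K).add hl).add (PT.const 3))
  have hB : PT fun x : Raw =>
      sz code + x.val.length + C0 * ((x.val.length + 2) ^ K + x.val.length + 3) :=
    ((PT.const _).add hl).add hk
  refine ⟨fun x => C0 * ((x.val.length + 2) ^ K + x.val.length + 3),
    fun x => (sz code + x.val.length + C0 * ((x.val.length + 2) ^ K + x.val.length + 3)) ^ 50,
    fun x tw => grN code x.val (C0 * ((x.val.length + 2) ^ K + x.val.length + 3))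
      (sz code + x.val.length + C0 * ((x.val.length + 2) ^ K + x.val.length + 3)) tw,
    f, hf, hk, hB.pow 50,
    pt_grN (PT.const code) PT.id'.fst (hk.comp PT.id'.fst) (hB.comp PT.id'.fst) PT.id'.snd.fst
      PT.id'.snd.snd.fst PT.id'.snd.snd.snd, fun x => ?_⟩
  have hC : 2 ≤ C0 := by unfold C0; omega
  have h1 : C0 ≤ C0 * ((x.length + 2) ^ K + x.length + 3) := Nat.le_mul_of_pos_right _ (by omega)
  refine ⟨hC.trans h1, Nat.pow_pos (by simp only []; omega), core hc h1 le_rfl le_rfl (hM x) ?_⟩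
  rw [Nat.mul_div_cancel_left _ (by omega)]
  refine le_trans ?_ (Nat.pow_le_pow_left ((hC.trans h1).trans (Nat.le_add_left _ _)) _)
  rw [add_assoc ((x.length + 2) ^ K), pow_add, add_assoc]
  have h2 : x.length + 3 < 2 ^ (x.length + 3) := Nat.lt_two_pow_self
  have h3 : 1 ≤ 2 ^ (x.length + 2) ^ K := Nat.one_le_two_pow
  nlinarith

theorem mat_pt {n : Raw → ℕ} {g : Raw → Bool → ℕ → ℕ → Bool} (hn : PT n)
    (hg : PT (fun p : Raw × Bool × ℕ × ℕ => g p.1 p.2.1 p.2.2.1 p.2.2.2)) (tw : Bool) :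
    PT fun x : Raw => matCode (n x) (g x tw) :=
  pt_matCode (g := fun x => g x tw) hn
    (hg.comp (f := fun p : Raw × ℕ × ℕ => (p.1, tw, p.2.1, p.2.2))
      (PT.id'.fst.pair ((PT.const tw).pair (PT.id'.snd.fst.pair PT.id'.snd.snd))))

theorem pair_pt {k n : Raw → ℕ} {g : Raw → Bool → ℕ → ℕ → Bool} (hk : PT k) (hn : PT n)
    (hg : PT (fun p : Raw × Bool × ℕ × ℕ => g p.1 p.2.1 p.2.2.1 p.2.2.2)) :
    PT fun x : Raw =>
      ((natCodeR (k x)).app (matCode (n x) (g x false))).app (matCode (n x) (g x true)) :=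
  (hk.natCode.app (mat_pt hn hg false)).app (mat_pt hn hg true)

theorem pair_iff {k n : ℕ} {g h : ℕ → ℕ → Bool} {β : Bool} (h0 : 0 < n)
    (ho : Outcome k n g h (xor true β)) : β = true ↔ JEquiv k (cut n g) (cut n h) := by
  constructor
  · rintro rfl
    exact (ho.2.2.2 rfl).1.jequiv
  · intro hj
    cases β
    · exact absurd (game_of_jequiv h0 hj) (ho.2.2.1 rfl).1
    · rfl

theorem pair_dec {k n m k' n' m' : ℕ} {G : Fin n → Fin n → Bool} {H : Fin m → Fin m → Bool}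
    {G' : Fin n' → Fin n' → Bool} {H' : Fin m' → Fin m' → Bool}
    (he : Crest.Enc.natCode k ++ adjMatrixCode G ++ adjMatrixCode H =
      Crest.Enc.natCode k' ++ adjMatrixCode G' ++ adjMatrixCode H') (hj : JEquiv k' G' H') :
    JEquiv k G H := by
  rw [List.append_assoc, List.append_assoc] at he
  obtain ⟨rfl, e1⟩ := natCode_append_inj he
  obtain ⟨rfl, e2, e3⟩ := adjMatrixCode_append_inj e1
  obtain ⟨rfl, e4, -⟩ := adjMatrixCode_append_inj (G := H) (G' := H') (y := []) (y' := [])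
    (by rw [List.append_nil, List.append_nil]; exact e3)
  obtain rfl := eq_of_heq e2
  obtain rfl := eq_of_heq e4
  exact hj

/-- `neg = true`; output `natCode k ++ code G ++ code H`; decoding by `natCode_append_inj`,
`adjMatrixCode_append_inj`; `Game.jequiv`, `game_of_jequiv`; `PT.polyTime`. -/
theorem varDim_hard : Crest.ExpTime.EXPHard varDimEquivLang := by
  intro A hA
  obtain ⟨k, n, g, f, hf, hk, hn, hg, h⟩ := hard_core hA true
  refine ⟨_, (pair_pt hk hn hg).polyTime, fun x => ?_⟩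
  obtain ⟨h2, h0, ho⟩ := h x
  rw [hf, pair_iff h0 ho]
  constructor
  · intro hj
    exact ⟨_, _, _, _, _, h2, ho.1.1, ho.2.1.1, hj, rfl⟩
  · rintro ⟨k', n', m', G, H, -, -, -, hj, he⟩
    exact pair_dec he hj

theorem subcubic_hard : Crest.ExpTime.EXPHard subcubicVarDimEquivLang := by
  intro A hA
  obtain ⟨k, n, g, f, hf, hk, hn, hg, h⟩ := hard_core hA true
  refine ⟨_, (pair_pt hk hn hg).polyTime, fun x => ?_⟩
  obtain ⟨h2, h0, ho⟩ := h x
  rw [hf, pair_iff h0 ho]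
  constructor
  · intro hj
    exact ⟨_, _, _, _, h2, h0, ho.1, ho.2.1, hj, rfl⟩
  · rintro ⟨k', n', G, H, -, -, -, -, hj, he⟩
    exact pair_dec he hj

/-- `neg = false`; output `natCode k ++ code G`; `identifies_of_rigid`, `Game.wlequiv`. -/
theorem wlDim_hard : Crest.ExpTime.EXPHard wlDimLeLang := by
  intro A hA
  obtain ⟨k, n, g, f, hf, hk, hn, hg, h⟩ := hard_core hA false
  refine ⟨_, (hk.natCode.app (mat_pt hn hg false)).polyTime, fun x => ?_⟩
  obtain ⟨h2, h0, ho⟩ := h x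
  rw [hf]
  constructor
  · intro hx
    exact ⟨_, _, _, by omega, h0, ho.1.1, ⟨_, by omega, le_rfl,
      identifies_of_rigid h2 h0 (ho.2.2.1 (by simp [hx])).2⟩, rfl⟩
  · rintro ⟨k', n', G, -, -, -, ⟨k'', a1, a2, a3⟩, he⟩
    have he' : Crest.Enc.natCode (k ⟨x⟩) ++ (adjMatrixCode (cut (n ⟨x⟩) (g ⟨x⟩ false)) ++ []) =
        Crest.Enc.natCode k' ++ (adjMatrixCode G ++ []) := by
      rw [List.append_nil, List.append_nil]
      exact he
    obtain ⟨rfl, e1⟩ := natCode_append_inj he'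
    obtain ⟨rfl, e2, -⟩ := adjMatrixCode_append_inj e1
    obtain rfl := eq_of_heq e2
    by_contra hx
    obtain ⟨b1, b2⟩ := ho.2.2.2 (by simpa using hx)
    exact b2 (a3 _ _ ho.2.1.1 (b1.wlequiv a1 a2))

end Crest.Agent.R290
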