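import Crest.Agent.R290.Game
import Crest.Prelude.Def_ParityLift

/-!
Row 290, task PLA: simplicity and order of the parity lifts.
-/

set_option autoImplicit false

namespace Crest.Agent.R290

open Crest.WLRefine Crest.WLRefine.ParityLift

variable {t : ℕ}

namespace Pla

open Finset

theorem bAdj_comm (C : ChoiceSystem t) (u v : BV C) : bAdj C u v = bAdj C v u := by
  cases u <;> cases v <;> simp only [bAdj, Bool.or_comm]

theorem tAdj_irrefl (a : TV t) : tAdj a a = false := by cases a <;> simp [tAdj]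

theorem card_par {X : Type} [Fintype X] [DecidableEq X] [Nonempty X] (β : Bool) :
    ∑ z : X → Bool, (if #(univ.filter fun a => z a = true) % 2 = β.toNat then 1 else 0) =
      2 ^ (Fintype.card X - 1) := by
  have h1 := Finset.prod_univ_sum (fun _ : X => (univ : Finset Bool))
    (fun _ x => if x = true then (-1 : ℤ) else 1)
  rw [Fintype.piFinset_univ, Finset.prod_eq_zero (mem_univ (Classical.arbitrary X)) (by simp)] at h1
  have h2 : ∀ z : X → Bool, 2 * ((if #(univ.filter fun a => z a = true) % 2 = β.toNat then 1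
      else 0 : ℕ) : ℤ) = 1 + (-1) ^ β.toNat * ∏ x, (if z x = true then (-1 : ℤ) else 1) := by
    intro z
    rw [Finset.prod_ite, Finset.prod_const, Finset.prod_const_one, mul_one,
      neg_one_pow_eq_pow_mod_two (n := #_)]
    rcases Nat.mod_two_eq_zero_or_one #(univ.filter fun a => z a = true) with h | h <;> rw [h] <;>
      cases β <;> simp
  have h3 := Finset.sum_congr (s₁ := (univ : Finset (X → Bool))) rfl (fun z _ => h2 z)
  rw [Finset.sum_add_distrib, ← Finset.mul_sum, ← Finset.mul_sum, ← h1, ← Nat.cast_sum] at h3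
  obtain ⟨c, hc⟩ : ∃ c, Fintype.card X = c + 1 := ⟨_, (Nat.succ_pred_eq_of_pos Fintype.card_pos).symm⟩
  simp only [sum_const, card_univ, Fintype.card_pi, Fintype.card_bool, prod_const, hc, pow_succ,
    mul_zero, add_zero, nsmul_eq_mul, mul_one] at h3
  rw [hc, Nat.add_sub_cancel]
  omega

theorem nbr_nonempty (ht : 4 ≤ t) (a : TV t) : Nonempty (Nbr a) := by
  rcases a with i | h
  · by_cases hi : (i : ℕ) = 0
    · exact ⟨⟨Sum.inl ⟨1, by omega⟩, by simp [tAdj, Fin.ext_iff, hi]⟩⟩
    · exact ⟨⟨Sum.inl ⟨0, by omega⟩, by simp [tAdj, Fin.ext_iff, hi]⟩⟩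
  · exact ⟨⟨Sum.inl h.1.1, by simp [tAdj]⟩⟩

theorem card_lift (ht : 4 ≤ t) (C : ChoiceSystem t) (b : TV t → Bool) :
    Fintype.card (LiftV C b) = ∑ u : BV C, 2 ^ (Fintype.card (Nbr (typeOf C u)) - 1) := by
  have h : Fintype.card (LiftV C b) = #(univ.filter fun p : Σ u : BV C, (Nbr (typeOf C u) → Bool) =>
      (univ.filter fun a' => p.2 a' = true).card % 2 = (b (typeOf C p.1)).toNat) :=
    Fintype.card_subtype _
  rw [h, Finset.card_filter, Fintype.sum_sigma]
  refine Finset.sum_congr rfl (fun u _ => ?_)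
  have := nbr_nonempty ht (typeOf C u)
  convert card_par (X := Nbr (typeOf C u)) (b (typeOf C u))

/-- The three mains of a helper. -/
def tri (h : Helper t) : Finset (Fin t) := {h.1.1, h.1.2.1, h.1.2.2}

theorem card_tri (h : Helper t) : #(tri h) = 3 :=
  Finset.card_eq_three.2 ⟨_, _, _, h.2.1.ne, h.2.2.1.symm, h.2.2.2.symm, rfl⟩

theorem fibre (T : Finset (Fin t)) (S : Finset (Helper t)) (hS : ∀ h ∈ S, tri h = T) : #S ≤ 3 := by
  rcases S.eq_empty_or_nonempty with rfl | ⟨h₀, h0⟩
  · simp
  rw [← card_tri h₀, hS h₀ h0]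
  refine Finset.card_le_card_of_injOn (fun h => h.1.2.2) (fun h hh => ?_) ?_
  · rw [mem_coe, ← hS h hh]; simp [tri]
  · rintro ⟨⟨a, b, c⟩, h1, h2, h3⟩ hh ⟨⟨a', b', c'⟩, h1', h2', h3'⟩ hh' (rfl : c = c')
    have e := (hS _ hh).trans (hS _ hh').symm
    simp only [tri] at e h1 h2 h3 h1' h2' h3'
    have e1 : a ∈ ({a', b', c} : Finset (Fin t)) := by rw [← e]; simp
    have e2 : b ∈ ({a', b', c} : Finset (Fin t)) := by rw [← e]; simp
    simp only [mem_insert, mem_singleton] at e1 e2
    apply Subtype.ext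
    simp only [Prod.mk.injEq, and_true]
    omega

theorem card_helper : Fintype.card (Helper t) ≤ 3 * t.choose 3 := by
  have := Finset.card_le_mul_card_image_of_maps_to (s := (univ : Finset (Helper t))) (f := tri)
    (t := powersetCard 3 univ) (fun h _ => mem_powersetCard.2 ⟨subset_univ _, card_tri h⟩) 3
    (fun T _ => fibre T _ (fun h hh => (mem_filter.1 hh).2))
  simpa using this

theorem card_nbr_main (i : Fin t) :
    Fintype.card (Nbr (Sum.inl i : TV t)) ≤ t - 1 + 3 * (t - 1).choose 2 := by
  have h1 : #(univ.filter fun h : Helper t => i ∈ tri h) ≤ 3 * (t - 1).choose 2 := by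
    have := Finset.card_le_mul_card_image_of_maps_to
      (s := univ.filter fun h : Helper t => i ∈ tri h) (f := fun h => (tri h).erase i)
      (t := powersetCard 2 (univ.erase i))
      (fun h hh => mem_powersetCard.2 ⟨erase_subset_erase _ (subset_univ _), by
        rw [card_erase_of_mem (mem_filter.1 hh).2, card_tri]⟩) 3
      (fun T _ => fibre (insert i T) _ (fun h hh => by
        obtain ⟨h2, h3⟩ := mem_filter.1 hh
        rw [← h3, insert_erase (mem_filter.1 h2).2]))
    simpa using this
  have h2 : #(univ.erase i) = t - 1 := by simp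
  rw [Fintype.card_subtype, Finset.card_filter, Fintype.sum_sum_type, ← Finset.card_filter,
    ← Finset.card_filter, ← h2]
  refine add_le_add (card_le_card (fun j hj => ?_)) (h2 ▸ (card_le_card (fun h hh => ?_)).trans h1)
  · have := (mem_filter.1 hj).2
    simp only [tAdj, decide_eq_true_eq] at this
    exact mem_erase.2 ⟨this.symm, mem_univ _⟩
  · simpa [tAdj, tri] using hh

theorem card_nbr_helper (h : Helper t) : Fintype.card (Nbr (Sum.inr h : TV t)) ≤ 3 := by
  rw [Fintype.card_subtype, Finset.card_filter, Fintype.sum_sum_type, ← Finset.card_filter,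
    ← card_tri h]
  simp only [tAdj, Bool.false_eq_true, if_false, sum_const_zero, add_zero]
  exact card_le_card (fun j hj => by simpa [tri] using hj)

end Pla

theorem lift_simple (C : ChoiceSystem t) (b : TV t → Bool) :
    IsSimple (asMatrix (liftAdj C b)) := by
  refine ⟨fun v w => ?_, fun v => ?_⟩
  · simp only [asMatrix, liftAdj, decide_eq_decide]
    constructor <;> rintro ⟨h, h', h1, h2⟩ <;> exact ⟨h', h, Pla.bAdj_comm C _ _ ▸ h1, h2.symm⟩
  · simp only [asMatrix, liftAdj, decide_eq_false_iff_not]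
    rintro ⟨h, -⟩
    rw [Pla.tAdj_irrefl] at h
    cases h

/-- Over a base vertex `u` there are `2 ^ (deg - 1)` tags of either parity (`deg ≥ 1` for `t ≥ 2`). -/
theorem lift_card_eq (ht : 4 ≤ t) (C : ChoiceSystem t) (b b' : TV t → Bool) :
    Fintype.card (LiftV C b) = Fintype.card (LiftV C b') := by
  rw [Pla.card_lift ht, Pla.card_lift ht]

/-- A main type has `t - 1 + 3 * C(t-1, 2)` template neighbours, a helper has `3`, and there are
`3 * C(t, 3)` helpers. -/
theorem lift_card_le (ht : 4 ≤ t) (C : ChoiceSystem t) (b : TV t → Bool) (A : ℕ)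
    (hA : C.SizeAtMost A) : Fintype.card (LiftV C b) ≤ A * orderFactor t := by
  rw [Pla.card_lift ht, Fintype.sum_sum_type, Fintype.sum_sigma, Fintype.sum_sigma, orderFactor,
    mul_add]
  refine add_le_add ?_ ?_
  · refine (Finset.sum_le_card_nsmul _ _ (A * 2 ^ (t - 2 + 3 * (t - 1).choose 2))
      (fun i _ => ?_)).trans (le_of_eq (by simp; ring))
    refine (Finset.sum_le_card_nsmul _ _ (2 ^ (t - 2 + 3 * (t - 1).choose 2)) (fun d _ => ?_)).trans
      (by simpa using hA.1 i)
    have := Pla.card_nbr_main i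
    refine Nat.pow_le_pow_right (by omega) ?_
    show Fintype.card (Nbr (Sum.inl i : TV t)) - 1 ≤ _
    omega
  · refine (Finset.sum_le_card_nsmul _ _ (A * 4) (fun h _ => ?_)).trans ?_
    · refine (Finset.sum_le_card_nsmul _ _ 4 (fun d _ => ?_)).trans
        (by simpa using hA.2 _ _ h.2.1)
      have := Pla.card_nbr_helper h
      refine (Nat.pow_le_pow_right (by omega) ?_ : _ ≤ 2 ^ 2)
      show Fintype.card (Nbr (Sum.inr h : TV t)) - 1 ≤ _
      omega
    · have := Nat.mul_le_mul_right (A * 4) (Pla.card_helper (t := t))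
      rw [Finset.card_univ, smul_eq_mul]
      exact this.trans (le_of_eq (by ring))

end Crest.Agent.R290
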