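import Crest.Agent.R290.Game
import Crest.Prelude.Def_ParityLift

/-!
Row 290, task PLB: without a successful choice the second player wins with `t` pebble pairs.
-/

set_option autoImplicit false

namespace Crest.Agent.R290

open Crest.WLRefine Crest.WLRefine.ParityLift

namespace Plb

variable {t : ℕ} (C : ChoiceSystem t)

/-- main base vertices -/
abbrev MV : Type := Σ i : Fin t, Fin (C.dom i)

/-- label of a main vertex towards the type `j` -/
def L (p : MV C) (j : Fin t) : ℕ :=
  if p.1 < j then (C.lamL p.1 j p.2 : ℕ) else (C.lamR j p.1 p.2 : ℕ)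

theorem agree_main {p q : MV C} (h : mainAgree C p q = true) :
    p.1 ≠ q.1 ∧ L C p q.1 = L C q p.1 := by
  obtain ⟨h, h'⟩ := of_decide_eq_true h
  exact ⟨h.ne, by rw [L, L, if_pos h, if_neg (not_lt.2 h.le), h']⟩

theorem adj_main {p q : MV C} (h : bAdj C (.inl p) (.inl q) = true) :
    p.1 ≠ q.1 ∧ L C p q.1 = L C q p.1 := by
  rcases Bool.or_eq_true_iff.1 h with h | h
  · exact agree_main C h
  · exact ⟨(agree_main C h).1.symm, (agree_main C h).2.symm⟩

theorem adj_help {p : MV C} {hq : Σ h : Helper t, Fin (C.lab h.1.1 h.1.2.1)}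
    (h : helperAgree C p hq = true) : (p.1 = hq.1.1.1 ∧ (hq.2 : ℕ) = L C p hq.1.1.2.1) ∨
      (p.1 = hq.1.1.2.1 ∧ (hq.2 : ℕ) = L C p hq.1.1.1) ∨ p.1 = hq.1.1.2.2 := by
  obtain ⟨k, d⟩ := p
  obtain ⟨⟨⟨a, b, l⟩, hab, hl⟩, q⟩ := hq
  rcases of_decide_eq_true h with ⟨e, h⟩ | ⟨e, h⟩ | h
  · dsimp only at e h hab ⊢
    subst e
    exact Or.inl ⟨rfl, by rw [L, if_pos hab, h]; rfl⟩
  · dsimp only at e h hab ⊢
    subst e
    exact Or.inr (Or.inl ⟨rfl, by rw [L, if_neg (not_lt.2 hab.le), h]; rfl⟩)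
  · exact Or.inr (Or.inr h)

open Classical in
/-- indicator -/
noncomputable def ind (P : Prop) : ZMod 2 := if P then 1 else 0

theorem ind_pos {P : Prop} (h : P) : ind P = 1 := if_pos h
theorem ind_neg {P : Prop} (h : ¬ P) : ind P = 0 := if_neg h
theorem ind_congr {P Q : Prop} (h : P ↔ Q) : ind P = ind Q := by rw [propext h]
theorem z2 (a : ZMod 2) : a + a = 0 := by revert a; decide

/-- the defect sets -/
def W (i j : Fin t) (Q : Set ℕ) : BV C → Prop
  | .inl p => (p.1 = i ∧ L C p j ∈ Q) ∨ (p.1 = j ∧ L C p i ∉ Q)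
  | .inr _ => False

theorem W_comm (i j : Fin t) (Q : Set ℕ) : W C i j Q = W C j i Qᶜ := by
  funext u
  cases u with
  | inl p => simp only [W, Set.mem_compl_iff, not_not, or_comm]
  | inr _ => rfl

/-- all vertices of one main type -/
def T (l : Fin t) (u : BV C) : Prop := typeOf C u = .inl l

theorem W_univ (i j : Fin t) : W C i j Set.univ = T C i := by
  funext u
  cases u <;> simp [W, T, typeOf]

theorem W_empty (i j : Fin t) : W C i j ∅ = T C j := by
  funext u
  cases u <;> simp [W, T, typeOf]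

/-- symmetric on base edges -/
def Sy (δ : BV C → TV t → ZMod 2) : Prop :=
  ∀ u v, bAdj C u v = true → δ u (typeOf C v) = δ v (typeOf C u)

/-- parity -/
def par (δ : BV C → TV t → ZMod 2) (u : BV C) : ZMod 2 := ∑ a : Nbr (typeOf C u), δ u a.1

theorem sum_single (a a₀ : TV t) (c : ZMod 2) (h : tAdj a a₀ = false → c = 0) :
    ∑ x : Nbr a, (if x.1 = a₀ then c else 0) = c := by
  cases h' : tAdj a a₀
  · simp [h h']
  · rw [Finset.sum_eq_single ⟨a₀, h'⟩, if_pos rfl]
    · intro x _ hx
      exact if_neg fun e => hx (Subtype.ext e)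
    · exact fun h => absurd (Finset.mem_univ _) h

/-- moving the defect without touching `S` -/
def Mv (S : Finset (BV C)) (D D' : BV C → Prop) : Prop :=
  ∃ ε, Sy C ε ∧ (∀ u ∈ S, ε u = 0) ∧ ∀ u, par C ε u = ind (D u) + ind (D' u)

variable {C}

theorem Mv.refl (S : Finset (BV C)) (D : BV C → Prop) : Mv C S D D :=
  ⟨0, fun _ _ _ => rfl, fun _ _ => rfl, fun u => by simp [par, z2]⟩

theorem Mv.symm {S : Finset (BV C)} {D D' : BV C → Prop} (h : Mv C S D D') : Mv C S D' D :=
  let ⟨ε, h1, h2, h3⟩ := h; ⟨ε, h1, h2, fun u => (h3 u).trans (add_comm _ _)⟩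

theorem Mv.trans {S : Finset (BV C)} {D D' D'' : BV C → Prop} (h : Mv C S D D')
    (h' : Mv C S D' D'') : Mv C S D D'' := by
  obtain ⟨ε, h1, h2, h3⟩ := h
  obtain ⟨ε', h1', h2', h3'⟩ := h'
  refine ⟨ε + ε', fun u v h => ?_, fun u hu => ?_, fun u => ?_⟩
  · simp only [Pi.add_apply, h1 u v h, h1' u v h]
  · simp [h2 u hu, h2' u hu]
  · have := h3 u
    have := h3' u
    simp only [par, Pi.add_apply, Finset.sum_add_distrib] at *
    linear_combination (exp := 1) h3 u + h3' u + z2 (ind (D' u))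

theorem mv_flip {S : Finset (BV C)} {i j : Fin t} (hij : i ≠ j) {Q Q' : Set ℕ}
    (h : ∀ p, .inl p ∈ S → (p.1 = i → (L C p j ∈ Q ↔ L C p j ∈ Q')) ∧
      (p.1 = j → (L C p i ∈ Q ↔ L C p i ∈ Q'))) : Mv C S (W C i j Q) (W C i j Q') := by
  classical
  refine ⟨fun u a => match u with
    | .inl p => (if a = .inl j then ind (p.1 = i ∧ ¬ (L C p j ∈ Q ↔ L C p j ∈ Q')) else 0) +
      (if a = .inl i then ind (p.1 = j ∧ ¬ (L C p i ∈ Q ↔ L C p i ∈ Q')) else 0)
    | .inr _ => 0, ?_, ?_, ?_⟩
  · rintro (p | p) (q | q) h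
    · obtain ⟨h1, h2⟩ := adj_main C h
      simp only [typeOf, Sum.inl.injEq]
      by_cases a1 : p.1 = i <;> by_cases a2 : p.1 = j <;> by_cases a3 : q.1 = i <;>
        by_cases a4 : q.1 = j <;> simp_all [ind]
    · simp [typeOf]
    · simp [typeOf]
    · rfl
  · rintro (p | p) hp
    · funext a
      have a1 := ind_neg (P := p.1 = i ∧ ¬ (L C p j ∈ Q ↔ L C p j ∈ Q'))
        fun h' => h'.2 ((h p hp).1 h'.1)
      have a2 := ind_neg (P := p.1 = j ∧ ¬ (L C p i ∈ Q ↔ L C p i ∈ Q'))
        fun h' => h'.2 ((h p hp).2 h'.1)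
      simp only [a1, a2]
      simp
    · rfl
  · rintro (p | p)
    · simp only [par, Finset.sum_add_distrib]
      rw [sum_single, sum_single]
      · simp only [W]
        by_cases a1 : p.1 = i <;> by_cases a2 : p.1 = j <;> by_cases a3 : L C p j ∈ Q <;>
          by_cases a4 : L C p j ∈ Q' <;> by_cases a5 : L C p i ∈ Q <;>
          by_cases a6 : L C p i ∈ Q' <;> simp_all [ind, z2]
      · intro h'
        refine ind_neg fun h'' => ?_
        simp [typeOf, tAdj, h''.1, hij.symm] at h'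
      · intro h'
        refine ind_neg fun h'' => ?_
        simp [typeOf, tAdj, h''.1, hij] at h'
    · simp [par, W, ind]

variable (C) in
/-- the type blocked by a base vertex -/
def bl : BV C → Fin t
  | .inl p => p.1
  | .inr p => p.1.1.2.2

theorem mv_help_lt {S : Finset (BV C)} {i j l : Fin t} (hij : i < j) (hi : l ≠ i) (hj : l ≠ j)
    {Q : Set ℕ} (hW : ∀ u ∈ S, ¬ W C i j Q u) (hl : ∀ u ∈ S, bl C u ≠ l) :
    Mv C S (W C i j Q) (T C l) := by
  classical
  let h : Helper t := ⟨(i, j, l), hij, hi, hj⟩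
  have key : ∀ (p : MV C) (hq : Σ h : Helper t, Fin (C.lab h.1.1 h.1.2.1)),
      helperAgree C p hq = true →
      (if (Sum.inr hq.1 : TV t) = .inr h then ind (W C i j Q (.inl p)) + ind (p.1 = l) else 0) =
      if hq.1 = h then (if (Sum.inl p.1 : TV t) = .inl l then 1 else 0) +
        (if (Sum.inl p.1 : TV t) = .inl i then ind ((hq.2 : ℕ) ∈ Q) else 0) +
        (if (Sum.inl p.1 : TV t) = .inl j then ind ((hq.2 : ℕ) ∉ Q) else 0) else 0 := by
    rintro p ⟨h', q⟩ hp
    have := adj_help C hp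
    by_cases e : h' = h
    · subst e
      have hne := hij.ne
      have hne' := hij.ne'
      have hi' := hi.symm
      have hj' := hj.symm
      simp only [if_true, W, Sum.inl.injEq]
      rcases this with ⟨h1, h2⟩ | ⟨h1, h2⟩ | h1 <;> simp only [h] at h1 <;>
        simp_all [ind, h]
    · simp [e]
  refine ⟨fun u a => match u with
    | .inl p => if a = .inr h then ind (W C i j Q (.inl p)) + ind (p.1 = l) else 0
    | .inr hq => if hq.1 = h then (if a = .inl l then 1 else 0) +
        (if a = .inl i then ind ((hq.2 : ℕ) ∈ Q) else 0) +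
        (if a = .inl j then ind ((hq.2 : ℕ) ∉ Q) else 0) else 0, ?_, ?_, ?_⟩
  · rintro (p | p) (q | q) h'
    · simp [typeOf]
    · exact key p q h'
    · exact (key q p h').symm
    · simp [bAdj] at h'
  · rintro (p | p) hp
    · funext a
      have a1 := ind_neg (hW _ hp)
      have a2 := ind_neg (P := p.1 = l) (hl _ hp)
      simp only [a1, a2]
      simp
    · funext a
      exact if_neg fun e => hl _ hp (by rw [bl, e])
  · rintro (p | ⟨h', q⟩)
    · simp only [par]
      rw [sum_single]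
      · simp [T, typeOf]
      · intro h'
        simp only [typeOf, tAdj, h, decide_eq_false_iff_not, not_or] at h'
        rw [ind_neg h'.2.2, ind_neg, add_zero]
        simp [W, h'.1, h'.2.1]
    · rw [ind_neg (P := W C i j Q _) id, ind_neg (P := T C l _) (by simp [T, typeOf]), add_zero]
      simp only [par]
      by_cases e : h' = h
      · subst e
        simp only [if_true, Finset.sum_add_distrib]
        rw [sum_single, sum_single, sum_single]
        · by_cases a : (q : ℕ) ∈ Q <;> simp [ind, a, z2]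
        all_goals simp [typeOf, tAdj, h]
      · simp [e]

theorem mv_help {S : Finset (BV C)} {i j l : Fin t} (hij : i ≠ j) (hi : l ≠ i) (hj : l ≠ j)
    {Q : Set ℕ} (hW : ∀ u ∈ S, ¬ W C i j Q u) (hl : ∀ u ∈ S, bl C u ≠ l) :
    Mv C S (W C i j Q) (T C l) := by
  rcases lt_or_gt_of_ne hij with h | h
  · exact mv_help_lt h hi hj hW hl
  · rw [W_comm] at hW ⊢
    exact mv_help_lt h hj hi hW hl

theorem key (hC : ¬ C.Successful) {S : Finset (BV C)} (hS : S.card < t) {i j : Fin t} (hij : i ≠ j)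
    {Q : Set ℕ} (hW : ∀ u ∈ S, ¬ W C i j Q u) (p : MV C) (hp : p.1 = i) (hq : L C p j ∈ Q) :
    ∃ i' j' Q', i' ≠ j' ∧ Mv C S (W C i j Q) (W C i' j' Q') ∧ ¬ W C i' j' Q' (.inl p) := by
  classical
  have hT : ∀ l, l ≠ i → Mv C S (W C i j Q) (T C l) →
      ∃ i' j' Q', i' ≠ j' ∧ Mv C S (W C i j Q) (W C i' j' Q') ∧ ¬ W C i' j' Q' (.inl p) :=
    fun l hl h => ⟨i, l, ∅, hl.symm, by rwa [W_empty], by simp [W, hp, hl.symm]⟩
  by_cases ha : ∀ v : MV C, .inl v ∈ S → v.1 = j → L C v i ≠ L C p j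
  · refine ⟨i, j, Q \ {L C p j}, hij, mv_flip hij fun v hv => ⟨fun h => ?_, fun h => ?_⟩, ?_⟩
    · have : L C v j ∉ Q := fun h' => hW _ hv (Or.inl ⟨h, h'⟩)
      simp [this]
    · simp [ha v hv h]
    · simp [W, hp, hij]
  by_cases hb : ∃ l, l ≠ i ∧ l ≠ j ∧ ∀ u ∈ S, bl C u ≠ l
  · obtain ⟨l, h1, h2, h3⟩ := hb
    exact hT l h1 (mv_help hij h1 h2 hW h3)
  push Not at ha hb
  obtain ⟨v₀, hv₀, hv₁, -⟩ := ha
  have hsub : Finset.univ.erase i ⊆ S.image (bl C) := by
    intro l hl
    rw [Finset.mem_image]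
    by_cases hlj : l = j
    · exact ⟨_, hv₀, hv₁.trans hlj.symm⟩
    · exact hb l (Finset.ne_of_mem_erase hl) hlj
  have hc : (Finset.univ.erase i).card = t - 1 := by simp
  have hc1 := Finset.card_le_card hsub
  have hc2 : (S.image (bl C)).card ≤ S.card := Finset.card_image_le
  have heq : Finset.univ.erase i = S.image (bl C) := Finset.eq_of_subset_of_card_le hsub (by omega)
  have hinj : Set.InjOn (bl C) S := Finset.injOn_of_card_image_eq (by omega)
  have hi : ∀ u ∈ S, bl C u ≠ i := fun u hu =>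
    Finset.ne_of_mem_erase (heq ▸ Finset.mem_image_of_mem _ hu)
  have m1 : Mv C S (W C i j Q) (T C i) := by
    rw [← W_univ C i j]
    refine mv_flip hij fun v hv => ⟨fun h => absurd h (hi _ hv), fun h => ?_⟩
    have : L C v i ∈ Q := by
      by_contra h'
      exact hW _ hv (Or.inr ⟨h, h'⟩)
    simp [this]
  by_cases hd : ∃ l, l ≠ i ∧ ∀ v : MV C, .inl v ∈ S → v.1 ≠ l
  · obtain ⟨l, h1, h2⟩ := hd
    refine hT l h1 (m1.trans ?_)
    rw [← W_univ C i l, ← W_empty C i l]
    exact mv_flip h1.symm fun v hv => ⟨fun h => absurd h (hi _ hv), fun h => absurd h (h2 v hv)⟩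
  push Not at hd
  have hex : ∀ k, ∃ d : Fin (C.dom k), (k = i → (⟨k, d⟩ : MV C) = p) ∧
      (k ≠ i → .inl ⟨k, d⟩ ∈ S) := by
    intro k
    by_cases hk : k = i
    · obtain ⟨k', d⟩ := p
      dsimp only at hp
      subst hp hk
      exact ⟨d, fun _ => rfl, fun h => absurd rfl h⟩
    · obtain ⟨⟨k', d⟩, h1, h2⟩ := hd k hk
      dsimp only at h2
      subst h2
      exact ⟨d, fun h => absurd h hk, fun _ => h1⟩
  choose d hd1 hd2 using hex
  have huniq : ∀ v : MV C, .inl v ∈ S → ∀ k, v.1 = k → v = ⟨k, d k⟩ := fun v hv k hk =>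
    Sum.inl_injective (hinj hv (hd2 k (hk ▸ hi _ hv)) hk)
  obtain ⟨a, b, hab, hbi, hL⟩ : ∃ a b, a ≠ b ∧ b ≠ i ∧ L C ⟨a, d a⟩ b ≠ L C ⟨b, d b⟩ a := by
    simp only [ChoiceSystem.Successful, not_exists, not_forall] at hC
    obtain ⟨a, b, hab, hne⟩ := hC d
    have hL : L C ⟨a, d a⟩ b ≠ L C ⟨b, d b⟩ a := by
      rw [L, L, if_pos hab, if_neg (not_lt.2 hab.le)]
      exact fun h => hne (Fin.ext h)
    by_cases hb : b = i
    · exact ⟨b, a, hab.ne', hb ▸ hab.ne, hL.symm⟩
    · exact ⟨a, b, hab.ne, hb, hL⟩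
  by_cases hai : a = i
  · have e := hd1 a hai
    subst hai
    rw [e] at hL
    refine ⟨a, b, {L C p b}ᶜ, hab, m1.trans ?_, by simp [W, hp, hab]⟩
    rw [← W_univ C a b]
    refine mv_flip hab fun v hv => ⟨fun h => absurd h (hi _ hv), fun h => ?_⟩
    rw [huniq v hv b h]
    simp [hL.symm]
  · refine ⟨a, b, {L C ⟨b, d b⟩ a}, hab, m1.trans (mv_help hab (Ne.symm hai) hbi.symm ?_ hi).symm,
      by simp [W, hp, Ne.symm hai, hbi.symm]⟩
    rintro (v | v) hv
    · rintro (⟨h1, h2⟩ | ⟨h1, h2⟩)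
      · rw [huniq v hv a h1] at h2
        exact hL h2
      · rw [huniq v hv b h1] at h2
        exact h2 rfl
    · exact id

theorem key' (hC : ¬ C.Successful) {S : Finset (BV C)} (hS : S.card < t) {i j : Fin t}
    (hij : i ≠ j) {Q : Set ℕ} (hW : ∀ u ∈ S, ¬ W C i j Q u) (u : BV C) :
    ∃ i' j' Q', i' ≠ j' ∧ Mv C S (W C i j Q) (W C i' j' Q') ∧ ¬ W C i' j' Q' u := by
  by_cases hu : W C i j Q u
  · cases u with
    | inl p =>
      rcases hu with ⟨h1, h2⟩ | ⟨h1, h2⟩
      · exact key hC hS hij hW p h1 h2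
      · rw [W_comm] at hW ⊢
        exact key hC hS hij.symm hW p h1 h2
    | inr p => exact hu.elim
  · exact ⟨i, j, Q, hij, Mv.refl _ _, hu⟩

variable (C) in
/-- tagged base vertices -/
abbrev TG : Type := Σ u : BV C, (Nbr (typeOf C u) → Bool)

/-- action of a gauge -/
def sh (δ : BV C → TV t → ZMod 2) (x : TG C) : TG C :=
  ⟨x.1, fun a => xor (x.2 a) (decide (δ x.1 a.1 = 1))⟩

theorem sh_sh (δ : BV C → TV t → ZMod 2) (x : TG C) : sh δ (sh δ x) = x := by
  obtain ⟨u, z⟩ := x
  have : ∀ a b : Bool, xor (xor a b) b = a := by decide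
  exact congrArg (Sigma.mk u) (funext fun a => this _ _)

theorem sh_congr {δ δ' : BV C → TV t → ZMod 2} (x : TG C) (h : δ x.1 = δ' x.1) :
    sh δ x = sh δ' x := by
  simp only [sh, h]

/-- parity of a tag -/
def tp (x : TG C) : ZMod 2 := ∑ a, bz2 (x.2 a)

theorem tp_sh (δ : BV C → TV t → ZMod 2) (x : TG C) : tp (sh δ x) = tp x + par C δ x.1 := by
  have : ∀ (z : Bool) (d : ZMod 2), bz2 (xor z (decide (d = 1))) = bz2 z + d := by decide
  simp only [tp, sh, par, this, Finset.sum_add_distrib]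
  rfl

theorem tp_iff (x : TG C) (β : Bool) :
    (Finset.univ.filter fun a' => x.2 a' = true).card % 2 = β.toNat ↔ tp x = bz2 β := by
  have e : tp x = ((Finset.univ.filter fun a' => x.2 a' = true).card : ZMod 2) := by
    simp [tp, bz2]
  rw [e, ← ZMod.natCast_mod _ 2]
  rcases Nat.mod_two_eq_zero_or_one (Finset.univ.filter fun a' => x.2 a' = true).card with h | h <;>
    rw [h] <;> cases β <;> decide

theorem adj_sh {δ : BV C → TV t → ZMod 2} (hδ : Sy C δ) {b b' : TV t → Bool} {x y : LiftV C b}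
    {x' y' : LiftV C b'} (hx : x'.1 = sh δ x.1) (hy : y'.1 = sh δ y.1) :
    liftAdj C b x y = liftAdj C b' x' y' := by
  obtain ⟨x', hx'⟩ := x'
  obtain ⟨y', hy'⟩ := y'
  dsimp only at hx hy
  subst hx hy
  refine decide_eq_decide.2 (exists_congr fun h => exists_congr fun h' => and_congr_right fun e => ?_)
  simp only [sh]
  rw [hδ _ _ e]
  exact Bool.xor_left_inj.symm

end Plb

open Plb in
/-- A *gauge* is a family `δ u : Nbr (typeOf C u) → Bool` (for all base vertices `u`) that is symmetric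
on base edges (`bAdj u v → δ u (type v) = δ v (type u)`); adding `δ u` to the tags preserves
adjacency. Its defect set is the set of `u` where the parity of `δ u` differs from
`liftStarParity (typeOf u)`. For distinct types `i`, `j` write `lab i j u` for the label of `u` (of type
`i` or `j`) for the pair, and `W i j Q = {type i, label ∈ Q} ∪ {type j, label ∉ Q}`; `W i` = all of type
`i` (`= W i j univ`). The zero gauge has defect `W 0`. Elementary gauges (added to the current one):
(F) `flip i j q`: bit `j` at the type-`i` vertices of label `q` and bit `i` at the type-`j` vertices of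
label `q`; it toggles the defect on exactly these. (H) for a helper `h` on `(i, j, l)` and a set `Q`:
bit `h` at `W i j Q` and at all of type `l`; at `(h, q)` bit `l` and bit `i` (if `q ∈ Q`) or `j` (if
`q ∉ Q`); it toggles the defect on `W i j Q ∪ W l` and touches only these and the vertices of `h`.
Position `s` is good if some gauge with defect `W i j Q` (`i ≠ j`) has no pebbled base vertex in the
defect and maps first to second components. Extension with at most `t - 1` pebbles, for a new base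
vertex `u` in the defect, say of type `i` with label `q ∈ Q` (symmetric otherwise): find a gauge
equal to the old one on the pebbled vertices whose defect avoids them and `u`:
(a) no pebbled type-`j` vertex has label `q`: `flip i j q`. (b) otherwise, if for some third type `l`
neither type `l` nor the helper on `(i, j, l)` is pebbled: (H) moves the defect to `W l`.
(c) otherwise the `t - 2` remaining pebbles block the `t - 2` third types, one each, type `i` is free
and type `j` has one pebble: flip the labels outside `Q` to get `W i`; if some `l` has no pebbled main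
vertex, flip all labels of `(i, l)` to get `W l`; else every type `p ≠ i` has exactly one pebbled main
vertex `u p`, no helper is pebbled, and with `u i = u` some pair disagrees: if it is `(i, p)`, flip
the label of `u` for `(i, p)`; if it is `(p, p')` without `i`, use (H) for the helper `(p, p', i)` with
`Q = {label of u p'}`. The bijection sends `(u, z)` to `(u, z + δ_u u)` with the gauge `δ_u` chosen
for `u`. -/
theorem lift_game {t : ℕ} (ht : 4 ≤ t) (C : ChoiceSystem t) (hC : ¬ C.Successful) :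
    Game t (liftAdj C (lift0Parity t)) (liftAdj C (liftStarParity t)) := by
  classical
  let i₀ : Fin t := ⟨0, by omega⟩
  let i₁ : Fin t := ⟨1, by omega⟩
  have hstar : ∀ u, bz2 (liftStarParity t (typeOf C u)) = ind (T C i₀ u) := by
    intro u
    by_cases h : T C i₀ u
    · rw [ind_pos h, liftStarParity, decide_eq_true ⟨by omega, h⟩]
      rfl
    · rw [ind_neg h, liftStarParity, decide_eq_false fun ⟨_, h'⟩ => h h']
      rfl
  refine ⟨fun s => ∃ δ i j Q, i ≠ j ∧ Sy C δ ∧
    (∀ u, par C δ u = ind (T C i₀ u) + ind (W C i j Q u)) ∧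
    ∀ p ∈ s, p.2.1 = sh δ p.1.1 ∧ ¬ W C i j Q p.1.1.1, ?_, ?_, ?_, ?_, ?_⟩
  · refine ⟨0, i₀, i₁, Set.univ, by simp [i₀, i₁], fun _ _ _ => rfl, fun u => ?_, by simp⟩
    simp [par, W_univ, z2]
  · rintro s s' ⟨δ, i, j, Q, h1, h2, h3, h4⟩ hs
    exact ⟨δ, i, j, Q, h1, h2, h3, fun p hp => h4 p (hs hp)⟩
  · rintro s ⟨δ, i, j, Q, -, -, -, h4⟩ p hp q hq
    constructor
    · intro h
      exact Subtype.ext (by rw [(h4 p hp).1, (h4 q hq).1, h])
    · intro h
      exact Subtype.ext (by rw [← sh_sh δ p.1.1, ← (h4 p hp).1, h, (h4 q hq).1, sh_sh])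
  · rintro s ⟨δ, i, j, Q, -, h2, -, h4⟩ p hp q hq
    exact adj_sh h2 (h4 p hp).1 (h4 q hq).1
  · rintro s ⟨δ, i, j, Q, h1, h2, h3, h4⟩ hs
    have hW : ∀ u ∈ s.image (fun p => p.1.1.1), ¬ W C i j Q u := by
      intro u hu
      obtain ⟨p, hp, rfl⟩ := Finset.mem_image.1 hu
      exact (h4 p hp).2
    choose i' j' Q' k1 k2 k3 using key' hC (Finset.card_image_le.trans_lt hs) h1 hW
    choose ε e1 e2 e3 using k2
    have hpar : ∀ u v, par C (δ + ε u) v = ind (T C i₀ v) + ind (W C (i' u) (j' u) (Q' u) v) := by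
      intro u v
      have a1 := h3 v
      have a2 := e3 u v
      simp only [par, Pi.add_apply, Finset.sum_add_distrib] at a1 a2 ⊢
      linear_combination (exp := 1) a1 + a2 + z2 (ind (W C i j Q v))
    have hγ : ∀ u, par C (fun u => (δ + ε u) u) u = ind (T C i₀ u) := fun u =>
      (hpar u u).trans (by rw [ind_neg (k3 u), add_zero])
    refine ⟨⟨fun x => ⟨sh (fun u => (δ + ε u) u) x.1, (tp_iff _ _).2 ?_⟩,
      fun y => ⟨sh (fun u => (δ + ε u) u) y.1, (tp_iff _ _).2 ?_⟩,
      fun x => Subtype.ext (sh_sh _ _), fun y => Subtype.ext (sh_sh _ _)⟩, fun z => ?_⟩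
    · rw [tp_sh, (tp_iff _ _).1 x.2, hγ, hstar]
      exact zero_add _
    · rw [tp_sh, (tp_iff _ _).1 y.2, hγ, hstar]
      exact z2 _
    · refine ⟨δ + ε z.1.1, i' z.1.1, j' z.1.1, Q' z.1.1, k1 _, fun u v h => ?_, hpar _,
        fun p hp => ?_⟩
      · simp only [Pi.add_apply, h2 u v h, e1 _ u v h]
      · rcases Finset.mem_insert.1 hp with rfl | hp
        · exact ⟨rfl, k3 _⟩
        · have h0 := e2 z.1.1 _ (Finset.mem_image_of_mem _ hp)
          refine ⟨(h4 p hp).1.trans (sh_congr _ (by simp [h0])), fun hw => ?_⟩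
          have := e3 z.1.1 p.1.1.1
          rw [ind_neg (h4 p hp).2, ind_pos hw] at this
          simp [par, h0] at this

end Crest.Agent.R290
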