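import Crest.Agent.R290.Game
import Crest.Prelude.Def_ParityLift

/-!
Row 290, task PLC: a successful choice changes a clique statistic.
-/

set_option autoImplicit false

namespace Crest.Agent.R290

open Crest.WLRefine Crest.WLRefine.ParityLift Finset

/-- Number of common neighbours of three vertices. -/
def cn3 {V : Type} [Fintype V] (G : V → V → Bool) (a b c : V) : ℕ :=
  (univ.filter fun z => G a z = true ∧ G b z = true ∧ G c z = true).card

/-- `v` is an ordered clique and the sum over triples `i < j < l` of the numbers of common neighbours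
has parity `ε`. -/
def CliqueStat {V : Type} [Fintype V] (G : V → V → Bool) {t : ℕ} (ε : ℕ) (v : Fin t → V) : Prop :=
  (∀ i j, i ≠ j → G (v i) (v j) = true) ∧
    (∑ p ∈ univ.filter (fun p : Fin t × Fin t × Fin t => p.1 < p.2.1 ∧ p.2.1 < p.2.2),
      cn3 G (v p.1) (v p.2.1) (v p.2.2)) % 2 = ε

instance {V : Type} [Fintype V] (G : V → V → Bool) {t : ℕ} (ε : ℕ) (v : Fin t → V) :
    Decidable (CliqueStat G ε v) := by unfold CliqueStat; infer_instance

/-- Number of such tuples. -/
def cliqueCount {V : Type} [Fintype V] [DecidableEq V] (G : V → V → Bool) (t ε : ℕ) : ℕ :=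
  (univ.filter fun v : Fin t → V => CliqueStat G ε v).card

namespace Plc

variable {t : ℕ} {C : ChoiceSystem t} {b : TV t → Bool}

/-- a Boolean as an element of `ZMod 2` -/
def bz (x : Bool) : ZMod 2 := if x = true then 1 else 0

theorem bz_xor (x y : Bool) : bz (xor x y) = bz x + bz y := by
  cases x <;> cases y <;> simp [bz]; rfl

theorem bz_toNat (x : Bool) : ((x.toNat : ℕ) : ZMod 2) = bz x := by cases x <;> simp [bz]

@[simp] theorem bz_false : bz false = 0 := by simp [bz]
@[simp] theorem bz_true : bz true = 1 := by simp [bz]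

theorem add_self2 (x : ZMod 2) : x + x = 0 := by revert x; decide

theorem tAdj_symm (a a' : TV t) : tAdj a a' = tAdj a' a := by
  cases a <;> cases a' <;> simp [tAdj, eq_comm]

theorem tAdj_irrefl (a : TV t) : tAdj a a = false := by cases a <;> simp [tAdj]

theorem bAdj_tAdj {u v : BV C} (h : bAdj C u v = true) :
    tAdj (typeOf C u) (typeOf C v) = true := by
  rcases u with p | p <;> rcases v with q | q
  · simp only [bAdj, mainAgree, Bool.or_eq_true, decide_eq_true_eq] at h
    simp only [typeOf, tAdj, decide_eq_true_eq]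
    rcases h with ⟨h, -⟩ | ⟨h, -⟩
    · exact h.ne
    · exact h.ne'
  · simp only [bAdj, helperAgree, decide_eq_true_eq] at h
    simp only [typeOf, tAdj, decide_eq_true_eq]
    rcases h with ⟨h, -⟩ | ⟨h, -⟩ | h <;> simp [h]
  · simp only [bAdj, helperAgree, decide_eq_true_eq] at h
    simp only [typeOf, tAdj, decide_eq_true_eq]
    rcases h with ⟨h, -⟩ | ⟨h, -⟩ | h <;> simp [h]
  · simp [bAdj] at h

/-- type of a lift vertex -/
def ty (x : LiftV C b) : TV t := typeOf C x.1.1

/-- tag of a lift vertex, extended by `false` -/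
def tg (x : LiftV C b) (a : TV t) : Bool :=
  if h : tAdj (typeOf C x.1.1) a = true then x.1.2 ⟨a, h⟩ else false

theorem tg_of_not {x : LiftV C b} {a : TV t} (h : tAdj (ty x) a = false) : tg x a = false := by
  unfold tg
  rw [dif_neg]
  unfold ty at h
  simp [h]

theorem adj_iff (x y : LiftV C b) :
    liftAdj C b x y = true ↔ bAdj C x.1.1 y.1.1 = true ∧ tg x (ty y) = tg y (ty x) := by
  unfold liftAdj
  rw [decide_eq_true_eq]
  constructor
  · rintro ⟨h, h', h1, h2⟩
    refine ⟨h1, ?_⟩
    unfold tg ty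
    rw [dif_pos h, dif_pos h', h2]
  · rintro ⟨h1, h2⟩
    have h := bAdj_tAdj h1
    have h' : tAdj (typeOf C y.1.1) (typeOf C x.1.1) = true := by rw [tAdj_symm]; exact h
    refine ⟨h, h', h1, ?_⟩
    unfold tg ty at h2
    rwa [dif_pos h, dif_pos h'] at h2

theorem adj_tAdj {x y : LiftV C b} (h : liftAdj C b x y = true) : tAdj (ty x) (ty y) = true :=
  bAdj_tAdj ((adj_iff x y).1 h).1

theorem sum_nbr (a : TV t) (z : Nbr a → Bool) :
    (((univ.filter fun a' => z a' = true).card : ℕ) : ZMod 2) =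
      ∑ a' : TV t, bz (if h : tAdj a a' = true then z ⟨a', h⟩ else false) := by
  rw [Finset.card_filter]
  push_cast
  rw [← Fintype.sum_subtype_add_sum_subtype (fun a' => tAdj a a' = true)]
  have h2 : ∑ i : {x // ¬ tAdj a x = true},
      bz (if h : tAdj a i = true then z ⟨i, h⟩ else false) = 0 :=
    Finset.sum_eq_zero fun i _ => by rw [dif_neg i.2]; simp
  rw [h2, add_zero]
  refine Finset.sum_congr rfl fun i _ => ?_
  rw [dif_pos i.2]
  rfl

theorem parity (x : LiftV C b) : ∑ a, bz (tg x a) = bz (b (ty x)) := by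
  have h := x.2
  have h2 := sum_nbr (typeOf C x.1.1) x.1.2
  unfold tg ty
  rw [← h2, ← bz_toNat, ← h, ZMod.natCast_mod]

theorem ext' {x y : LiftV C b} (h1 : x.1.1 = y.1.1) (h2 : ∀ a, tg x a = tg y a) : x = y := by
  obtain ⟨⟨u, z⟩, hx⟩ := x
  obtain ⟨⟨u', z'⟩, hy⟩ := y
  dsimp only at h1
  subst h1
  have : z = z' := by
    funext a
    have := h2 a.1
    unfold tg at this
    dsimp only at this
    rwa [dif_pos a.2, dif_pos a.2] at this
  subst this
  rfl

/-- a lift vertex from a base vertex and a tag -/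
def mk (b : TV t → Bool) (u : BV C) (f : TV t → Bool)
    (h : ∑ a, bz (tAdj (typeOf C u) a && f a) = bz (b (typeOf C u))) : LiftV C b :=
  ⟨⟨u, fun a => f a.1⟩, by
    have h2 := sum_nbr (typeOf C u) (fun a => f a.1)
    have h3 : ∑ a' : TV t, bz (if h : tAdj (typeOf C u) a' = true then f a' else false) =
        ∑ a, bz (tAdj (typeOf C u) a && f a) := by
      refine Finset.sum_congr rfl fun a _ => ?_
      by_cases ha : tAdj (typeOf C u) a = true <;> simp [ha]
    rw [h3, h, ← bz_toNat, ZMod.natCast_eq_natCast_iff'] at h2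
    dsimp only
    rw [h2]
    cases b (typeOf C u) <;> rfl⟩

theorem mk_base (u : BV C) (f : TV t → Bool) (h) : (mk b u f h).1.1 = u := rfl

theorem tg_mk (u : BV C) (f : TV t → Bool) (h) (a : TV t) :
    tg (mk b u f h) a = (tAdj (typeOf C u) a && f a) := by
  unfold tg
  by_cases ha : tAdj (typeOf C u) a = true
  · rw [dif_pos (by exact ha)]; simp [ha, mk]
  · rw [dif_neg (by exact ha)]; simp [ha]

/-- add `δ` to the tag -/
def flip (b' : TV t → Bool) (x : LiftV C b) (δ : TV t → Bool)
    (hδ : ∀ a, δ a = true → tAdj (ty x) a = true)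
    (h : bz (b (ty x)) + ∑ a, bz (δ a) = bz (b' (ty x))) : LiftV C b' :=
  mk b' x.1.1 (fun a => xor (tg x a) (δ a)) (by
    change ∑ a, bz (tAdj (ty x) a && xor (tg x a) (δ a)) = bz (b' (ty x))
    rw [← h, ← parity x, ← Finset.sum_add_distrib]
    refine Finset.sum_congr rfl fun a _ => ?_
    rw [← bz_xor]
    cases ha : tAdj (ty x) a
    · have h1 := tg_of_not ha
      have h2 : δ a = false := by
        cases hd : δ a
        · rfl
        · rw [hδ a hd] at ha; exact absurd ha (by simp)
      simp [h1, h2]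
    · simp)

theorem flip_base {b' : TV t → Bool} (x : LiftV C b) (δ : TV t → Bool) (hδ) (h) :
    (flip b' x δ hδ h).1.1 = x.1.1 := rfl

theorem ty_flip {b' : TV t → Bool} (x : LiftV C b) (δ : TV t → Bool) (hδ) (h) :
    ty (flip b' x δ hδ h) = ty x := rfl

theorem tg_flip {b' : TV t → Bool} (x : LiftV C b) (δ : TV t → Bool) (hδ) (h) (a : TV t) :
    tg (flip b' x δ hδ h) a = xor (tg x a) (δ a) := by
  unfold flip
  rw [tg_mk]
  change (tAdj (ty x) a && xor (tg x a) (δ a)) = _
  cases ha : tAdj (ty x) a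
  · have h1 := tg_of_not ha
    have h2 : δ a = false := by
      cases hd : δ a
      · rfl
      · rw [hδ a hd] at ha; exact absurd ha (by simp)
    simp [h1, h2]
  · simp


theorem card_triples (S : Finset (Fin t)) :
    (univ.filter fun p : Fin t × Fin t × Fin t =>
      (p.1 < p.2.1 ∧ p.2.1 < p.2.2) ∧ p.1 ∈ S ∧ p.2.1 ∈ S ∧ p.2.2 ∈ S).card = S.card.choose 3 := by
  rw [← Finset.card_powersetCard]
  refine Finset.card_bij (fun p _ => {p.1, p.2.1, p.2.2}) ?_ ?_ ?_
  · rintro ⟨a, b, c⟩ hp
    simp only [mem_filter, mem_univ, true_and] at hp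
    obtain ⟨⟨h1, h2⟩, ha, hb, hc⟩ := hp
    rw [Finset.mem_powersetCard]
    refine ⟨?_, Finset.card_eq_three.2 ⟨a, b, c, h1.ne, (h1.trans h2).ne, h2.ne, rfl⟩⟩
    intro x hx
    simp only [mem_insert, mem_singleton] at hx
    rcases hx with rfl | rfl | rfl <;> assumption
  · rintro ⟨a, b, c⟩ hp ⟨a', b', c'⟩ hp' h
    simp only [mem_filter, mem_univ, true_and] at hp hp'
    obtain ⟨⟨h1, h2⟩, -⟩ := hp
    obtain ⟨⟨h1', h2'⟩, -⟩ := hp'
    dsimp only at h
    have e1 : a ∈ ({a', b', c'} : Finset (Fin t)) := by rw [← h]; simp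
    have e2 : b ∈ ({a', b', c'} : Finset (Fin t)) := by rw [← h]; simp
    have e3 : c ∈ ({a', b', c'} : Finset (Fin t)) := by rw [← h]; simp
    simp only [mem_insert, mem_singleton] at e1 e2 e3
    simp only [Prod.mk.injEq]
    omega
  · intro T hT
    rw [Finset.mem_powersetCard] at hT
    obtain ⟨x, y, z, hxy, hxz, hyz, rfl⟩ := Finset.card_eq_three.1 hT.2
    have hx : x ∈ S := hT.1 (by simp)
    have hy : y ∈ S := hT.1 (by simp)
    have hz : z ∈ S := hT.1 (by simp)
    have key : ∀ a b c : Fin t, a < b → b < c → a ∈ S → b ∈ S → c ∈ S →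
        ({a, b, c} : Finset (Fin t)) = {x, y, z} →
        ∃ p, ∃ _ : p ∈ (univ.filter fun p : Fin t × Fin t × Fin t =>
          (p.1 < p.2.1 ∧ p.2.1 < p.2.2) ∧ p.1 ∈ S ∧ p.2.1 ∈ S ∧ p.2.2 ∈ S),
          ({p.1, p.2.1, p.2.2} : Finset (Fin t)) = {x, y, z} :=
      fun a b c h1 h2 ha hb hc h => ⟨(a, b, c), by simp [h1, h2, ha, hb, hc], h⟩
    rcases lt_or_gt_of_ne hxy with h1 | h1 <;> rcases lt_or_gt_of_ne hxz with h2 | h2 <;>
      rcases lt_or_gt_of_ne hyz with h3 | h3
    · exact key x y z h1 h3 hx hy hz rfl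
    · exact key x z y h2 h3 hx hz hy (by ext; simp; tauto)
    · omega
    · exact key z x y h2 h1 hz hx hy (by ext; simp; tauto)
    · exact key y x z h1 h2 hy hx hz (by ext; simp; tauto)
    · omega
    · exact key y z x h3 h2 hy hz hx (by ext; simp; tauto)
    · exact key z y x h3 h1 hz hy hx (by ext; simp; tauto)

theorem sum_cn3 {V : Type} [Fintype V] (G : V → V → Bool) (v : Fin t → V) :
    ∑ p ∈ univ.filter (fun p : Fin t × Fin t × Fin t => p.1 < p.2.1 ∧ p.2.1 < p.2.2),
      cn3 G (v p.1) (v p.2.1) (v p.2.2) =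
    ∑ z, (univ.filter fun k => G (v k) z = true).card.choose 3 := by
  simp only [cn3, Finset.card_filter]
  rw [Finset.sum_comm]
  refine Finset.sum_congr rfl fun z _ => ?_
  rw [← Finset.card_filter, ← Finset.card_filter, ← card_triples, Finset.filter_filter]
  simp

/-- three helpers adjacent to a given main -/
theorem three_helpers (ht : 4 ≤ t) (s : Fin t) : ∃ h1 h2 h3 : Helper t, h1 ≠ h2 ∧ h1 ≠ h3 ∧ h2 ≠ h3 ∧
    tAdj (Sum.inl s) (Sum.inr h1) = true ∧ tAdj (Sum.inl s) (Sum.inr h2) = true ∧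
    tAdj (Sum.inl s) (Sum.inr h3) = true := by
  have key : ∀ a b c : Fin t, a < b → b < c → (s = a ∨ s = b ∨ s = c) →
      ∃ h1 h2 h3 : Helper t, h1 ≠ h2 ∧ h1 ≠ h3 ∧ h2 ≠ h3 ∧
      tAdj (Sum.inl s) (Sum.inr h1) = true ∧ tAdj (Sum.inl s) (Sum.inr h2) = true ∧
      tAdj (Sum.inl s) (Sum.inr h3) = true := by
    intro a b c hab hbc hs
    refine ⟨⟨(a, b, c), hab, (hab.trans hbc).ne', hbc.ne'⟩, ⟨(a, c, b), hab.trans hbc, hab.ne', hbc.ne⟩,
      ⟨(b, c, a), hbc, hab.ne, (hab.trans hbc).ne⟩, ?_, ?_, ?_, ?_, ?_, ?_⟩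
    · intro h; have := congrArg (fun x : Helper t => x.1.2.1) h; exact hbc.ne this
    · intro h; have := congrArg (fun x : Helper t => x.1.1) h; exact hab.ne this
    · intro h; have := congrArg (fun x : Helper t => x.1.1) h; exact hab.ne this
    · simp only [tAdj, decide_eq_true_eq]; tauto
    · simp only [tAdj, decide_eq_true_eq]; tauto
    · simp only [tAdj, decide_eq_true_eq]; tauto
  by_cases hs : s.1 ≤ 2
  · refine key ⟨0, by omega⟩ ⟨1, by omega⟩ ⟨2, by omega⟩ (by simp [Fin.lt_def]) (by simp [Fin.lt_def]) ?_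
    simp only [Fin.ext_iff]; omega
  · exact key ⟨0, by omega⟩ ⟨1, by omega⟩ s (by simp [Fin.lt_def]) (by simp [Fin.lt_def]; omega)
      (by simp)

/-- `v` is a clique -/
def Clq (v : Fin t → LiftV C b) : Prop := ∀ i j, i ≠ j → liftAdj C b (v i) (v j) = true

theorem Clq.inj {v : Fin t → LiftV C b} (hv : Clq v) : Function.Injective fun k => ty (v k) := by
  intro i j h
  by_contra hij
  have := adj_tAdj (hv i j hij)
  dsimp only at h
  rw [h, tAdj_irrefl] at this
  exact absurd this (by simp)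

theorem two_helpers (ht : 4 ≤ t) {v : Fin t → LiftV C b} (hv : Clq v) (s : Fin t) :
    ∃ h1 h2 : Helper t, h1 ≠ h2 ∧ tAdj (Sum.inl s) (Sum.inr h1) = true ∧
      tAdj (Sum.inl s) (Sum.inr h2) = true ∧ (∀ k, ty (v k) ≠ Sum.inr h1) ∧
      ∀ k, ty (v k) ≠ Sum.inr h2 := by
  obtain ⟨h1, h2, h3, e12, e13, e23, a1, a2, a3⟩ := three_helpers ht s
  have one : ∀ (g g' : Helper t) k k', ty (v k) = Sum.inr g → ty (v k') = Sum.inr g' → g = g' := by
    intro g g' k k' hk hk'
    by_cases hkk : k = k'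
    · subst hkk; rw [hk] at hk'; exact Sum.inr_injective hk'
    · have := adj_tAdj (hv k k' hkk)
      rw [hk, hk'] at this
      simp [tAdj] at this
  by_cases c1 : ∃ k, ty (v k) = Sum.inr h1
  · obtain ⟨k, hk⟩ := c1
    exact ⟨h2, h3, e23, a2, a3, fun k' hk' => e12 (one _ _ _ _ hk hk'),
      fun k' hk' => e13 (one _ _ _ _ hk hk')⟩
  · by_cases c2 : ∃ k, ty (v k) = Sum.inr h2
    · obtain ⟨k, hk⟩ := c2
      exact ⟨h1, h3, e13, a1, a3, fun k' hk' => c1 ⟨k', hk'⟩, fun k' hk' => e23 (one _ _ _ _ hk hk')⟩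
    · exact ⟨h1, h2, e12, a1, a2, fun k' hk' => c1 ⟨k', hk'⟩, fun k' hk' => c2 ⟨k', hk'⟩⟩

theorem sum_main (ht : 4 ≤ t) {v : Fin t → LiftV C b} (hv : Clq v) (s : Fin t) :
    ∑ z ∈ univ.filter (fun z : LiftV C b => ty z = Sum.inl s),
      (((univ.filter fun k => liftAdj C b (v k) z = true).card.choose 3 : ℕ) : ZMod 2) = 0 := by
  obtain ⟨h1, h2, e12, a1, a2, n1, n2⟩ := two_helpers ht hv s
  let δ : TV t → Bool := fun a => decide (a = Sum.inr h1 ∨ a = Sum.inr h2)
  have hδs : ∑ a, bz (δ a) = 0 := by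
    have : ∀ a, bz (δ a) = (if a = Sum.inr h1 then 1 else 0) + (if a = Sum.inr h2 then 1 else 0) := by
      intro a
      by_cases c1 : a = Sum.inr h1
      · subst c1; simp [δ, e12]
      · by_cases c2 : a = Sum.inr h2
        · subst c2; simp [δ, e12.symm]
        · simp [δ, c1, c2]
    simp only [this, Finset.sum_add_distrib, Finset.sum_ite_eq', mem_univ, if_true]
    rfl
  have hδ : ∀ z : LiftV C b, ty z = Sum.inl s → ∀ a, δ a = true → tAdj (ty z) a = true := by
    intro z hz a ha
    simp only [δ, decide_eq_true_eq] at ha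
    rw [hz]
    rcases ha with rfl | rfl <;> assumption
  refine Finset.sum_involution
    (fun z hz => flip b z δ (hδ z (mem_filter.1 hz).2) (by rw [hδs, add_zero])) ?_ ?_ ?_ ?_
  · intro z hz
    have : (univ.filter fun k => liftAdj C b (v k)
        (flip b z δ (hδ z (mem_filter.1 hz).2) (by rw [hδs, add_zero])) = true) =
        univ.filter fun k => liftAdj C b (v k) z = true := by
      refine Finset.filter_congr fun k _ => ?_
      rw [adj_iff, adj_iff, flip_base, ty_flip, tg_flip]
      have : δ (ty (v k)) = false := by simp [δ, n1 k, n2 k]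
      rw [this, Bool.xor_false]
    rw [this]
    exact add_self2 _
  · intro z hz _ h
    have := congrArg (fun x => tg x (Sum.inr h1)) h
    rw [tg_flip] at this
    simp [δ] at this
  · intro z hz
    rw [mem_filter, ty_flip]
    exact ⟨mem_univ _, (mem_filter.1 hz).2⟩
  · intro z hz
    refine ext' rfl fun a => ?_
    rw [tg_flip, tg_flip]
    simp


theorem base_of_ty {x : LiftV C b} {i : Fin t} (h : ty x = Sum.inl i) :
    ∃ d, x.1.1 = Sum.inl ⟨i, d⟩ := by
  unfold ty at h
  rcases hx : x.1.1 with ⟨i', d⟩ | q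
  · rw [hx] at h
    simp only [typeOf, Sum.inl.injEq] at h
    subst h
    exact ⟨d, rfl⟩
  · rw [hx] at h; simp [typeOf] at h

theorem base_of_ty' {x : LiftV C b} {g : Helper t} (h : ty x = Sum.inr g) :
    ∃ q, x.1.1 = Sum.inr ⟨g, q⟩ := by
  unfold ty at h
  rcases hx : x.1.1 with q | ⟨i', d⟩
  · rw [hx] at h; simp [typeOf] at h
  · rw [hx] at h
    simp only [typeOf, Sum.inr.injEq] at h
    subst h
    exact ⟨d, rfl⟩

theorem sum3 {α : Type} [Fintype α] [DecidableEq α] (f : α → ZMod 2) {x y z : α} (hxy : x ≠ y)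
    (hxz : x ≠ z) (hyz : y ≠ z) (h : ∀ a, a ≠ x → a ≠ y → a ≠ z → f a = 0) :
    ∑ a, f a = f x + f y + f z := by
  rw [← Finset.sum_subset (Finset.subset_univ {x, y, z})]
  · rw [Finset.sum_insert (by simp [hxy, hxz]), Finset.sum_pair hyz, add_assoc]
  · intro a _ ha
    simp only [mem_insert, mem_singleton, not_or] at ha
    exact h a ha.1 ha.2.1 ha.2.2

theorem tAdj_helper {g : Helper t} {a : TV t} (h : tAdj a (Sum.inr g) = true) :
    a = Sum.inl g.1.1 ∨ a = Sum.inl g.1.2.1 ∨ a = Sum.inl g.1.2.2 := by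
  rcases a with i | g'
  · simpa [tAdj] using h
  · simp [tAdj] at h

/-- the three mains of `g` occur among the types of `v` -/
def Pres (v : Fin t → LiftV C b) (g : Helper t) : Prop :=
  (∃ k, ty (v k) = Sum.inl g.1.1) ∧ (∃ k, ty (v k) = Sum.inl g.1.2.1) ∧
    ∃ k, ty (v k) = Sum.inl g.1.2.2

theorem hA1 (g : Helper t) (d : Fin (C.dom g.1.1)) (q : Fin (C.lab g.1.1 g.1.2.1)) :
    bAdj C (Sum.inl ⟨g.1.1, d⟩) (Sum.inr ⟨g, q⟩) = true ↔ q = C.lamL _ _ d := by
  have h1 := g.2.1.ne
  have h2 := g.2.2.1.symm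
  simp [bAdj, helperAgree, h1, h2]

theorem hA2 (g : Helper t) (d : Fin (C.dom g.1.2.1)) (q : Fin (C.lab g.1.1 g.1.2.1)) :
    bAdj C (Sum.inl ⟨g.1.2.1, d⟩) (Sum.inr ⟨g, q⟩) = true ↔ q = C.lamR _ _ d := by
  have h1 := g.2.1.ne'
  have h2 := g.2.2.2.symm
  simp [bAdj, helperAgree, h1, h2]

theorem hA3 (g : Helper t) (d : Fin (C.dom g.1.2.2)) (q : Fin (C.lab g.1.1 g.1.2.1)) :
    bAdj C (Sum.inl ⟨g.1.2.2, d⟩) (Sum.inr ⟨g, q⟩) = true := by
  simp [bAdj, helperAgree]

theorem hA4 {i j : Fin t} (hij : i < j) (d : Fin (C.dom i)) (e : Fin (C.dom j)) :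
    bAdj C (Sum.inl ⟨i, d⟩) (Sum.inl ⟨j, e⟩) = true ↔ C.lamL i j d = C.lamR i j e := by
  simp [bAdj, mainAgree, hij, hij.not_gt]

open Classical in
theorem sum_helper (hb : ∀ g, b (Sum.inr g) = false) {v : Fin t → LiftV C b} (hv : Clq v)
    (g : Helper t) :
    ∑ z ∈ univ.filter (fun z : LiftV C b => ty z = Sum.inr g),
      (((univ.filter fun k => liftAdj C b (v k) z = true).card.choose 3 : ℕ) : ZMod 2) =
      if Pres v g then 1 + ∑ k, bz (tg (v k) (Sum.inr g)) else 0 := by
  have n12 : (Sum.inl g.1.1 : TV t) ≠ Sum.inl g.1.2.1 := fun h => g.2.1.ne (Sum.inl_injective h)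
  have n13 : (Sum.inl g.1.1 : TV t) ≠ Sum.inl g.1.2.2 := fun h => g.2.2.1 (Sum.inl_injective h).symm
  have n23 : (Sum.inl g.1.2.1 : TV t) ≠ Sum.inl g.1.2.2 :=
    fun h => g.2.2.2 (Sum.inl_injective h).symm
  split_ifs with hP
  · obtain ⟨⟨k1, e1⟩, ⟨k2, e2⟩, ⟨k3, e3⟩⟩ := hP
    have m12 : k1 ≠ k2 := fun h => n12 (by rw [← e1, ← e2, h])
    have m13 : k1 ≠ k3 := fun h => n13 (by rw [← e1, ← e3, h])
    have m23 : k2 ≠ k3 := fun h => n23 (by rw [← e2, ← e3, h])
    have hk : ∀ k, tAdj (ty (v k)) (Sum.inr g) = true → k = k1 ∨ k = k2 ∨ k = k3 := by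
      intro k hk
      rcases tAdj_helper hk with h | h | h
      · exact Or.inl (hv.inj (h.trans e1.symm))
      · exact Or.inr (Or.inl (hv.inj (h.trans e2.symm)))
      · exact Or.inr (Or.inr (hv.inj (h.trans e3.symm)))
    have hc3 : ({k1, k2, k3} : Finset (Fin t)).card = 3 :=
      Finset.card_eq_three.2 ⟨k1, k2, k3, m12, m13, m23, rfl⟩
    have hterm : ∀ z ∈ univ.filter (fun z : LiftV C b => ty z = Sum.inr g),
        (((univ.filter fun k => liftAdj C b (v k) z = true).card.choose 3 : ℕ) : ZMod 2) =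
        if liftAdj C b (v k1) z = true ∧ liftAdj C b (v k2) z = true ∧
          liftAdj C b (v k3) z = true then 1 else 0 := by
      intro z hz
      have hz := (mem_filter.1 hz).2
      have hsub : (univ.filter fun k => liftAdj C b (v k) z = true) ⊆ {k1, k2, k3} := by
        intro k hk'
        have := adj_tAdj (mem_filter.1 hk').2
        rw [hz] at this
        simpa using hk k this
      split_ifs with hall
      · have : (univ.filter fun k => liftAdj C b (v k) z = true) = {k1, k2, k3} := by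
          refine Finset.Subset.antisymm hsub ?_
          intro k hk'
          simp only [mem_insert, mem_singleton] at hk'
          rcases hk' with rfl | rfl | rfl <;> simp [hall.1, hall.2.1, hall.2.2]
        rw [this, hc3]; simp
      · have hlt : (univ.filter fun k => liftAdj C b (v k) z = true).card < 3 := by
          rw [← hc3]
          refine Finset.card_lt_card ⟨hsub, fun hs => hall ⟨?_, ?_, ?_⟩⟩
          · exact (mem_filter.1 (hs (by simp))).2
          · exact (mem_filter.1 (hs (by simp))).2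
          · exact (mem_filter.1 (hs (by simp))).2
        rw [Nat.choose_eq_zero_of_lt hlt]; simp
    rw [Finset.sum_congr rfl hterm]
    have hsum : ∑ k, bz (tg (v k) (Sum.inr g)) = bz (tg (v k1) (Sum.inr g)) +
        bz (tg (v k2) (Sum.inr g)) + bz (tg (v k3) (Sum.inr g)) := by
      refine sum3 _ m12 m13 m23 fun k h1 h2 h3 => ?_
      rw [tg_of_not, bz_false]
      cases hk' : tAdj (ty (v k)) (Sum.inr g)
      · rfl
      · rcases hk k hk' with h | h | h <;> contradiction
    have hpar : ∀ z : LiftV C b, ty z = Sum.inr g → bz (tg z (Sum.inl g.1.1)) +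
        bz (tg z (Sum.inl g.1.2.1)) + bz (tg z (Sum.inl g.1.2.2)) = 0 := by
      intro z hz
      have := parity z
      rw [hz, hb, bz_false, sum3 _ n12 n13 n23] at this
      · exact this
      · intro a h1 h2 h3
        rw [tg_of_not, bz_false]
        rw [hz, tAdj_symm]
        cases ha : tAdj a (Sum.inr g)
        · rfl
        · rcases tAdj_helper ha with h | h | h <;> contradiction
    obtain ⟨d1, b1⟩ := base_of_ty e1
    obtain ⟨d2, b2⟩ := base_of_ty e2
    obtain ⟨d3, b3⟩ := base_of_ty e3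
    have hlab : C.lamL _ _ d1 = C.lamR _ _ d2 := by
      have := ((adj_iff _ _).1 (hv k1 k2 m12)).1
      rwa [b1, b2, hA4 g.2.1] at this
    rw [hsum]
    by_cases hz : bz (tg (v k1) (Sum.inr g)) + bz (tg (v k2) (Sum.inr g)) +
        bz (tg (v k3) (Sum.inr g)) = 0
    · rw [hz, add_zero]
      let f : TV t → Bool := fun a => if a = Sum.inl g.1.1 then tg (v k1) (Sum.inr g)
        else if a = Sum.inl g.1.2.1 then tg (v k2) (Sum.inr g) else tg (v k3) (Sum.inr g)
      have t1 : tAdj (Sum.inr g) (Sum.inl g.1.1) = true := by simp [tAdj]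
      have t2 : tAdj (Sum.inr g) (Sum.inl g.1.2.1) = true := by simp [tAdj]
      have t3 : tAdj (Sum.inr g) (Sum.inl g.1.2.2) = true := by simp [tAdj]
      have f1 : f (Sum.inl g.1.1) = tg (v k1) (Sum.inr g) := by simp [f]
      have f2 : f (Sum.inl g.1.2.1) = tg (v k2) (Sum.inr g) := by
        simp only [f]; rw [if_neg n12.symm]; simp
      have f3 : f (Sum.inl g.1.2.2) = tg (v k3) (Sum.inr g) := by
        simp only [f]; rw [if_neg n13.symm, if_neg n23.symm]
      let z0 : LiftV C b := mk b (Sum.inr ⟨g, C.lamL _ _ d1⟩) f (by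
        change ∑ a, bz (tAdj (Sum.inr g) a && f a) = bz (b (Sum.inr g))
        rw [hb, bz_false, sum3 _ n12 n13 n23]
        · rw [t1, t2, t3, f1, f2, f3]; simpa using hz
        · intro a h1 h2 h3
          cases ha : tAdj (Sum.inr g) a
          · simp
          · rw [tAdj_symm] at ha
            rcases tAdj_helper ha with h | h | h <;> contradiction)
      have hty0 : ty z0 = Sum.inr g := rfl
      have hb0 : z0.1.1 = Sum.inr ⟨g, C.lamL _ _ d1⟩ := rfl
      have htg0 : ∀ a, tg z0 a = (tAdj (Sum.inr g) a && f a) := fun a => tg_mk _ _ _ a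
      rw [Finset.sum_eq_single z0]
      · rw [if_pos]
        refine ⟨?_, ?_, ?_⟩
        · rw [adj_iff, b1, hb0, hA1, hty0, e1, htg0, t1, f1]; simp
        · rw [adj_iff, b2, hb0, hA2, hty0, e2, htg0, t2, f2]; simp [hlab]
        · rw [adj_iff, b3, hb0, hA3, hty0, e3, htg0, t3, f3]; simp
      · intro z hz' hne
        rw [if_neg]
        rintro ⟨a1, a2, a3⟩
        have hz' := (mem_filter.1 hz').2
        obtain ⟨q, bq⟩ := base_of_ty' hz'
        rw [adj_iff, hz'] at a1 a2 a3
        rw [e1] at a1; rw [e2] at a2; rw [e3] at a3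
        apply hne
        refine ext' ?_ fun a => ?_
        · have := a1.1
          rw [b1, bq, hA1] at this
          rw [bq, hb0, this]
        · rw [htg0]
          cases ha : tAdj (Sum.inr g) a
          · rw [tg_of_not (by rw [hz', ha])]; simp
          · rw [tAdj_symm] at ha
            rcases tAdj_helper ha with rfl | rfl | rfl
            · rw [f1, a1.2]; simp
            · rw [f2, a2.2]; simp
            · rw [f3, a3.2]; simp
      · intro h; exact absurd (by simp [hty0]) h
    · have h1 : ∀ x : ZMod 2, x ≠ 0 → 1 + x = 0 := by decide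
      rw [h1 _ hz]
      refine Finset.sum_eq_zero fun z hz' => ?_
      rw [if_neg]
      rintro ⟨a1, a2, a3⟩
      have hz' := (mem_filter.1 hz').2
      rw [adj_iff, hz'] at a1 a2 a3
      rw [e1] at a1; rw [e2] at a2; rw [e3] at a3
      apply hz
      rw [a1.2, a2.2, a3.2]
      exact hpar z hz'
  · refine Finset.sum_eq_zero fun z hz => ?_
    have hz := (mem_filter.1 hz).2
    have hlt : (univ.filter fun k => liftAdj C b (v k) z = true).card < 3 := by
      by_contra hge
      apply hP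
      have hsub : (univ.filter fun k => liftAdj C b (v k) z = true).image (fun k => ty (v k)) ⊆
          {Sum.inl g.1.1, Sum.inl g.1.2.1, Sum.inl g.1.2.2} := by
        intro a ha
        obtain ⟨k, hk, rfl⟩ := mem_image.1 ha
        have := adj_tAdj (mem_filter.1 hk).2
        rw [hz] at this
        simpa using tAdj_helper this
      have heq := Finset.eq_of_subset_of_card_le hsub (by
        rw [Finset.card_image_of_injective _ hv.inj,
          Finset.card_eq_three.2 ⟨_, _, _, n12, n13, n23, rfl⟩]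
        omega)
      have hmem : ∀ a ∈ ({Sum.inl g.1.1, Sum.inl g.1.2.1, Sum.inl g.1.2.2} : Finset (TV t)),
          ∃ k, ty (v k) = a := by
        intro a ha
        rw [← heq] at ha
        obtain ⟨k, -, hk⟩ := mem_image.1 ha
        exact ⟨k, hk⟩
      exact ⟨hmem _ (by simp), hmem _ (by simp), hmem _ (by simp)⟩
    rw [Nat.choose_eq_zero_of_lt hlt]; simp

open Classical in
/-- the statistic modulo two -/
noncomputable def St (v : Fin t → LiftV C b) : ZMod 2 :=
  ∑ g : Helper t, if Pres v g then 1 + ∑ k, bz (tg (v k) (Sum.inr g)) else 0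

theorem stat_eq (ht : 4 ≤ t) (hb : ∀ g, b (Sum.inr g) = false) {v : Fin t → LiftV C b}
    (hv : Clq v) :
    ((∑ p ∈ univ.filter (fun p : Fin t × Fin t × Fin t => p.1 < p.2.1 ∧ p.2.1 < p.2.2),
      cn3 (liftAdj C b) (v p.1) (v p.2.1) (v p.2.2) : ℕ) : ZMod 2) = St v := by
  rw [sum_cn3]
  push_cast
  rw [← Finset.sum_fiberwise (s := univ) (g := fun z : LiftV C b => ty z), Fintype.sum_sum_type]
  rw [Finset.sum_eq_zero fun s _ => sum_main ht hv s, zero_add]
  exact Finset.sum_congr rfl fun g _ => sum_helper hb hv g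

theorem stat_iff (ht : 4 ≤ t) (hb : ∀ g, b (Sum.inr g) = false) (v : Fin t → LiftV C b) (n : ℕ) :
    CliqueStat (liftAdj C b) (n % 2) v ↔ Clq v ∧ St v = n := by
  unfold CliqueStat
  refine and_congr_right fun hv => ?_
  rw [← stat_eq ht hb hv, ZMod.natCast_eq_natCast_iff']

theorem St_main {v : Fin t → LiftV C b} (hv : Clq v) (hm : ∀ k, ∃ i, ty (v k) = Sum.inl i) :
    St v = (Fintype.card (Helper t) : ZMod 2) + ∑ i, bz (b (Sum.inl i)) := by
  choose π hπ using hm
  have hinj : Function.Injective π := fun k k' h => hv.inj (by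
    change ty (v k) = ty (v k'); rw [hπ, hπ, h])
  have hbij : Function.Bijective π := Finite.injective_iff_bijective.1 hinj
  have hpres : ∀ i, ∃ k, ty (v k) = Sum.inl i := fun i => by
    obtain ⟨k, rfl⟩ := hbij.2 i; exact ⟨k, hπ k⟩
  unfold St
  rw [Finset.sum_congr rfl fun g _ => if_pos ⟨hpres _, hpres _, hpres _⟩, Finset.sum_add_distrib]
  congr 1
  · simp
  have h1 : ∑ k, ∑ a, bz (tg (v k) a) = ∑ i, bz (b (Sum.inl i)) := by
    simp only [parity, hπ]
    exact hbij.sum_comp fun i => bz (b (Sum.inl i))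
  have h2 : ∑ k, ∑ i, bz (tg (v k) (Sum.inl i)) = 0 := by
    have : ∀ k, ∑ i, bz (tg (v k) (Sum.inl i)) = ∑ k', bz (tg (v k) (ty (v k'))) := by
      intro k
      simp only [hπ]
      exact (hbij.sum_comp fun i => bz (tg (v k) (Sum.inl i))).symm
    simp only [this]
    rw [← Finset.sum_product']
    refine Finset.sum_involution (fun p _ => p.swap) ?_ ?_ (fun _ _ => by simp) (fun _ _ => by simp)
    · rintro ⟨k, k'⟩ _
      by_cases hk : k = k'
      · subst hk; exact add_self2 _
      · have := ((adj_iff _ _).1 (hv k k' hk)).2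
        simp only [Prod.swap]
        rw [this]; exact add_self2 _
    · rintro ⟨k, k'⟩ _ h0 h
      apply h0
      simp only [Prod.swap, Prod.mk.injEq] at h
      dsimp only
      rw [h.1, tg_of_not (tAdj_irrefl _), bz_false]
  simp only [Fintype.sum_sum_type, Finset.sum_add_distrib] at h1
  rw [h2, zero_add] at h1
  rw [← h1, Finset.sum_comm]


theorem star_inl (ht : 0 < t) (i : Fin t) :
    liftStarParity t (Sum.inl i) = decide (i = ⟨0, ht⟩) := by
  simp [liftStarParity, ht]

theorem star_inr (g : Helper t) : liftStarParity t (Sum.inr g) = false := by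
  simp [liftStarParity]

theorem star_eq (ht : 0 < t) (a : TV t) :
    liftStarParity t a = decide (a = Sum.inl ⟨0, ht⟩) := by
  simp [liftStarParity, ht]

/-- flip the bit of main `m` in the vertices of type `0` -/
def fl (ht : 0 < t) (m : {m : Fin t // m ≠ ⟨0, ht⟩}) (x : LiftV C (liftStarParity t)) :
    LiftV C (lift0Parity t) :=
  flip (lift0Parity t) x (fun a => decide (ty x = Sum.inl ⟨0, ht⟩ ∧ a = Sum.inl m.1))
    (by
      intro a ha
      simp only [decide_eq_true_eq] at ha
      rw [ha.1, ha.2]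
      simpa [tAdj] using m.2.symm)
    (by
      rw [star_eq ht]
      by_cases h : ty x = Sum.inl ⟨0, ht⟩
      · have : ∀ a : TV t, bz (decide (ty x = Sum.inl ⟨0, ht⟩ ∧ a = Sum.inl m.1)) =
            if a = Sum.inl m.1 then 1 else 0 := by
          intro a; simp [bz, h]
        simp only [this, Finset.sum_ite_eq', mem_univ, if_true]
        simp only [h, decide_true, bz_true, lift0Parity, bz_false]
        rfl
      · simp [h, lift0Parity])

theorem tg_fl (ht : 0 < t) (m : {m : Fin t // m ≠ ⟨0, ht⟩}) (x : LiftV C (liftStarParity t))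
    (a : TV t) : tg (fl ht m x) a =
      xor (tg x a) (decide (ty x = Sum.inl ⟨0, ht⟩ ∧ a = Sum.inl m.1)) := tg_flip _ _ _ _ a

theorem fl_inj (ht : 0 < t) (m : {m : Fin t // m ≠ ⟨0, ht⟩}) :
    Function.Injective (fl (C := C) ht m) := by
  intro x y h
  have h1 : x.1.1 = y.1.1 := congrArg (fun z : LiftV C (lift0Parity t) => z.1.1) h
  have h2 : ty x = ty y := by unfold ty; rw [h1]
  refine ext' h1 fun a => ?_
  have := congrArg (fun z => tg z a) h
  simp only [tg_fl, h2] at this
  simpa using this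

theorem exists_miss (ht : 4 ≤ t) {v : Fin t → LiftV C b} (hm : ¬ ∀ k, ∃ i, ty (v k) = Sum.inl i) :
    ∃ m : {m : Fin t // m ≠ ⟨0, by omega⟩}, ∀ k k', ty (v k) = Sum.inl ⟨0, by omega⟩ →
      ty (v k') ≠ Sum.inl m.1 := by
  by_cases h0 : ∃ k, ty (v k) = Sum.inl ⟨0, by omega⟩
  · by_contra hc
    push Not at hc
    have hall : ∀ i : Fin t, ∃ k, ty (v k) = Sum.inl i := by
      intro i
      by_cases hi : i = ⟨0, by omega⟩
      · rw [hi]; exact h0
      · obtain ⟨k, k', -, hk'⟩ := hc ⟨i, hi⟩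
        exact ⟨k', hk'⟩
    choose κ hκ using hall
    have hinj : Function.Injective κ := fun i j h => by
      have := hκ i
      rw [h, hκ j] at this
      exact (Sum.inl_injective this).symm
    apply hm
    intro k
    obtain ⟨i, rfl⟩ := (Finite.injective_iff_surjective.1 hinj) k
    exact ⟨i, hκ i⟩
  · exact ⟨⟨⟨1, by omega⟩, by simp⟩, fun k k' hk => absurd ⟨k, hk⟩ h0⟩

end Plc

/-- Take `ε = card (Helper t) % 2`. A `t`-clique of main vertices has one vertex of each type and its
base vertices form a successful choice. For three of them, of types `i, j, l`, the common neighbours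
of a main type come in multiples of `2 ^ (deg - 4)` (even: over each base vertex three tag bits are
prescribed besides the parity), and each of the three helpers on `{i, j, l}` gives one common
neighbour if the three tag bits at `h` add up to `0` and none otherwise. The sum of all tag bits of the
clique is the number of unsatisfied helpers modulo `2` (bits between mains cancel in pairs) and it
is the sum of the parities `b`. So in `lift0` all main cliques have parity `ε` and there is one (zero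
tags over a successful choice), in `liftStar` none has. For `t ≥ 5` every `t`-clique is a main clique.
For `t = 4` cliques `(h, i, j, l)` with a helper exist; those with parity `ε` are equally many in both
lifts: flip, in a vertex of type `0` (if present), the tag bit of the missing main type; triples
containing the helper have an even number of common neighbours. -/
theorem cliqueCount_ne {t : ℕ} (ht : 4 ≤ t) (C : ChoiceSystem t) (hC : C.Successful) :
    ∃ ε, cliqueCount (liftAdj C (lift0Parity t)) t ε ≠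
      cliqueCount (liftAdj C (liftStarParity t)) t ε := by
  classical
  have ht0 : 0 < t := by omega
  refine ⟨Fintype.card (Helper t) % 2, ne_of_gt ?_⟩
  unfold cliqueCount
  have hb0 : ∀ g, lift0Parity t (Sum.inr g) = false := fun _ => rfl
  let μ : (Fin t → TV t) → {m : Fin t // m ≠ ⟨0, ht0⟩} := fun σ =>
    if h : ∃ m : {m : Fin t // m ≠ ⟨0, ht0⟩}, ∀ k k', σ k = Sum.inl ⟨0, ht0⟩ → σ k' ≠ Sum.inl m.1
    then h.choose else ⟨⟨1, by omega⟩, by simp⟩
  let ψ : (Fin t → LiftV C (liftStarParity t)) → (Fin t → LiftV C (lift0Parity t)) :=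
    fun v k => Plc.fl ht0 (μ fun k => Plc.ty (v k)) (v k)
  have hψ : Function.Injective ψ := by
    intro v v' h
    have h1 : (fun k => Plc.ty (v k)) = fun k => Plc.ty (v' k) := by
      funext k
      exact congrArg (fun w : Fin t → LiftV C (lift0Parity t) => Plc.ty (w k)) h
    funext k
    have h2 := congrFun h k
    simp only [ψ, h1] at h2
    exact Plc.fl_inj _ _ h2
  obtain ⟨d, hd⟩ := hC
  let v0 : Fin t → LiftV C (lift0Parity t) := fun i =>
    Plc.mk (lift0Parity t) (Sum.inl ⟨i, d i⟩) (fun _ => false) (by simp [lift0Parity])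
  have hv0ty : ∀ i, Plc.ty (v0 i) = Sum.inl i := fun i => rfl
  have hv0tg : ∀ i a, Plc.tg (v0 i) a = false := fun i a => by
    simp only [v0]; rw [Plc.tg_mk]; simp
  have hv0 : Plc.Clq v0 := by
    intro i j hij
    rw [Plc.adj_iff, hv0tg, hv0tg]
    refine ⟨?_, rfl⟩
    change bAdj C (Sum.inl ⟨i, d i⟩) (Sum.inl ⟨j, d j⟩) = true
    rcases lt_or_gt_of_ne hij with h | h
    · rw [Plc.hA4 h]; exact hd i j h
    · simp [bAdj, mainAgree, h, hd j i h]
  have hmem0 : v0 ∈ univ.filter fun v : Fin t → LiftV C (lift0Parity t) =>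
      CliqueStat (liftAdj C (lift0Parity t)) (Fintype.card (Helper t) % 2) v := by
    rw [mem_filter, Plc.stat_iff ht hb0]
    refine ⟨mem_univ _, hv0, ?_⟩
    rw [Plc.St_main hv0 fun k => ⟨k, hv0ty k⟩]
    simp [lift0Parity]
  refine lt_of_le_of_lt ?_ (Finset.card_erase_lt_of_mem hmem0)
  refine Finset.card_le_card_of_injOn ψ ?_ hψ.injOn
  intro v hv
  rw [mem_coe, mem_filter, Plc.stat_iff ht Plc.star_inr] at hv
  obtain ⟨-, hv, hst⟩ := hv
  have hm : ¬ ∀ k, ∃ i, Plc.ty (v k) = Sum.inl i := by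
    intro hm
    rw [Plc.St_main hv hm] at hst
    have : ∑ i : Fin t, Plc.bz (liftStarParity t (Sum.inl i)) = 1 := by
      simp [Plc.star_inl ht0, Plc.bz]
    rw [this] at hst
    simp at hst
  have hex := Plc.exists_miss ht hm
  have hμ : ∀ k k', Plc.ty (v k) = Sum.inl ⟨0, ht0⟩ →
      Plc.ty (v k') ≠ Sum.inl (μ fun k => Plc.ty (v k)).1 := by
    simp only [μ]
    rw [dif_pos hex]
    exact hex.choose_spec
  have hty : ∀ k, Plc.ty (ψ v k) = Plc.ty (v k) := fun k => rfl
  have htg : ∀ k a, Plc.tg (ψ v k) a = xor (Plc.tg (v k) a)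
      (decide (Plc.ty (v k) = Sum.inl ⟨0, ht0⟩ ∧ a = Sum.inl (μ fun k => Plc.ty (v k)).1)) :=
    fun k a => Plc.tg_fl _ _ _ a
  have htg' : ∀ k k', Plc.tg (ψ v k) (Plc.ty (v k')) = Plc.tg (v k) (Plc.ty (v k')) := by
    intro k k'
    rw [htg, decide_eq_false (fun h => hμ k k' h.1 h.2), Bool.xor_false]
  rw [mem_coe, mem_erase, mem_filter, Plc.stat_iff ht hb0]
  refine ⟨fun h => hm fun k => ⟨k, by rw [← hty, h, hv0ty]⟩, mem_univ _, ?_, ?_⟩
  · intro i j hij
    have := (Plc.adj_iff _ _).1 (hv i j hij)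
    rw [Plc.adj_iff, hty, hty, htg', htg']
    exact this
  · rw [← hst]
    unfold Plc.St
    refine Finset.sum_congr rfl fun g _ => ?_
    have e1 : Plc.Pres (ψ v) g ↔ Plc.Pres v g := Iff.rfl
    have e2 : ∀ k, Plc.tg (ψ v k) (Sum.inr g) = Plc.tg (v k) (Sum.inr g) := fun k => by
      rw [htg]; simp
    simp only [e1, e2]

end Crest.Agent.R290
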