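import Crest.Agent.R290.PLC

/-!
Row 290, task PLD: histograms determine the clique statistic; pure comparisons.
-/

set_option autoImplicit false

namespace Crest.Agent.R290

open Crest.WLRefine Crest.WLRefine.ParityLift Finset

namespace Pld

section
variable {V W : Type} [Fintype V] [Fintype W] {G : V → V → Bool} {H : W → W → Bool}

theorem stat_congr {t : ℕ} {u : Fin t → V} {v : Fin t → W}
    (h1 : ∀ i j, G (u i) (u j) = H (v i) (v j))
    (h2 : ∀ a b c, cn3 G (u a) (u b) (u c) = cn3 H (v a) (v b) (v c)) (ε : ℕ) :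
    CliqueStat G ε u ↔ CliqueStat H ε v := by
  simp only [CliqueStat, h1, h2]

/-- `f` embeds `G` as a union of components of `H` -/
structure Emb (G : V → V → Bool) (H : W → W → Bool) (f : V → W) : Prop where
  inj : Function.Injective f
  adj : ∀ a b, H (f a) (f b) = G a b
  cl : ∀ a w, H (f a) w = true → ∃ b, f b = w

theorem Emb.cn3_eq {f : V → W} (h : Emb G H f) (a b c : V) :
    cn3 G a b c = cn3 H (f a) (f b) (f c) := by
  refine card_bij (fun z _ => f z) (fun z hz => ?_) (fun z _ z' _ e => h.inj e) (fun w hw => ?_)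
  · simpa [h.adj] using hz
  · obtain ⟨z, rfl⟩ := h.cl a w (mem_filter.1 hw).2.1
    exact ⟨z, by simpa [h.adj] using hw, rfl⟩

theorem Emb.stat {f : V → W} (h : Emb G H f) {t : ℕ} (u : Fin t → V) (ε : ℕ) :
    CliqueStat G ε u ↔ CliqueStat H ε (f ∘ u) :=
  stat_congr (fun _ _ => (h.adj _ _).symm) (fun _ _ _ => h.cn3_eq _ _ _) ε

/-- number of extensions -/
def ext (G : V → V → Bool) (ε : ℕ) {k : ℕ} (u : Fin k → V) : ℕ :=
  (univ.filter fun z => CliqueStat G ε (Fin.snoc u z : Fin (k + 1) → V)).card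

theorem Emb.ext_eq {f : V → W} (h : Emb G H f) {k : ℕ} (hk : 0 < k) (u : Fin k → V) (ε : ℕ) :
    ext G ε u = ext H ε (f ∘ u) := by
  refine card_bij (fun z _ => f z) (fun z hz => ?_) (fun z _ z' _ e => h.inj e) (fun w hw => ?_)
  · rw [mem_filter] at hz ⊢
    refine ⟨mem_univ _, ?_⟩
    rw [← Fin.comp_snoc, ← h.stat]
    exact hz.2
  · have h1 := (mem_filter.1 hw).2
    have h2 := h1.1 (Fin.castSucc ⟨0, hk⟩) (Fin.last k) (Fin.castSucc_lt_last _).ne
    simp only [Fin.snoc_castSucc, Fin.snoc_last, Function.comp_apply] at h2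
    obtain ⟨z, rfl⟩ := h.cl _ w h2
    refine ⟨z, mem_filter.2 ⟨mem_univ _, ?_⟩, rfl⟩
    rw [h.stat, Fin.comp_snoc]
    exact h1

theorem count_succ [DecidableEq V] (G : V → V → Bool) (k ε : ℕ) :
    cliqueCount G (k + 1) ε = ∑ u : Fin k → V, ext G ε u := by
  simp only [cliqueCount, ext, card_filter]
  rw [← (Fin.snocEquiv fun _ : Fin (k + 1) => V).sum_comp, Fintype.sum_prod_type, sum_comm]
  rfl

theorem count_eq [DecidableEq V] [DecidableEq W] {k ε : ℕ} (E : (Fin k → V) ≃ (Fin k → W))
    (h : ∀ u, CliqueStat G ε u ↔ CliqueStat H ε (E u)) : cliqueCount G k ε = cliqueCount H k ε :=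
  card_equiv E fun u => by simp [h]

theorem count_eq' [DecidableEq V] [DecidableEq W] {k ε : ℕ} (E : (Fin k → V) ≃ (Fin k → W))
    (h : ∀ u, ext G ε u = ext H ε (E u)) : cliqueCount G (k + 1) ε = cliqueCount H (k + 1) ε := by
  rw [count_succ, count_succ, ← E.sum_comp]
  exact sum_congr rfl fun u _ => h u

end

variable {n n' k : ℕ} {G : Fin n → Fin n → Bool} {H : Fin n' → Fin n' → Bool}

theorem exists_fourth {α : Type} [DecidableEq α] (hk : 4 ≤ k) (f : Fin k → α)
    (hf : Function.Injective f) (a b c : α) : ∃ i, f i ≠ a ∧ f i ≠ b ∧ f i ≠ c := by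
  by_contra hc
  have h1 : univ.image f ⊆ {a, b, c} := by
    intro x hx
    obtain ⟨i, -, rfl⟩ := mem_image.1 hx
    by_contra hx
    simp only [mem_insert, mem_singleton, not_or] at hx
    exact hc ⟨i, hx⟩
  have h2 := (card_le_card h1).trans card_le_three
  rw [card_image_of_injective _ hf, card_univ, Fintype.card_fin] at h2
  omega

theorem adj_of_atomic {u : Fin k → Fin n} {v : Fin k → Fin n'}
    (h : atomicType G u = atomicType H v) (i j : Fin k) : G (u i) (u j) = H (v i) (v j) :=
  congrFun (congrFun (congrArg Prod.snd h) i) j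

theorem cn3_of_upd (hk : 4 ≤ k) {u : Fin k → Fin n} {v : Fin k → Fin n'}
    (h : ∀ i, ∃ e : Fin n ≃ Fin n', ∀ z, atomicType G (Function.update u i z) =
      atomicType H (Function.update v i (e z))) (a b c : Fin k) :
    cn3 G (u a) (u b) (u c) = cn3 H (v a) (v b) (v c) := by
  obtain ⟨i, ha, hb, hc⟩ := exists_fourth hk id Function.injective_id a b c
  obtain ⟨e, he⟩ := h i
  refine card_equiv e fun z => ?_
  have key : ∀ j, i ≠ j → G (u j) z = H (v j) (e z) := fun j hj => by
    simpa [Function.update_of_ne hj.symm] using adj_of_atomic (he z) j i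
  simp only [mem_filter, mem_univ, true_and, key a ha, key b hb, key c hc]

theorem stat_of_s (hk : 4 ≤ k) {u : Fin k → Fin n} {v : Fin k → Fin n'}
    (h : scolor G k 1 u = scolor H k 1 v) (ε : ℕ) : CliqueStat G ε u ↔ CliqueStat H ε v :=
  stat_congr (adj_of_atomic (congrArg Prod.fst h)) (cn3_of_upd hk fun i =>
    gm_exists_equiv (f := fun z => atomicType G (Function.update u i z))
      (g := fun z => atomicType H (Function.update v i z)) (congrFun (congrArg Prod.snd h) i)) ε

theorem cn3_of_j (hk : 4 ≤ k) {u : Fin k → Fin n} {v : Fin k → Fin n'}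
    (h : jcolor G k 1 u = jcolor H k 1 v) (a b c : Fin k) :
    cn3 G (u a) (u b) (u c) = cn3 H (v a) (v b) (v c) := by
  obtain ⟨e, he⟩ := gm_exists_equiv (f := fun z i => jcolor G k 0 (Function.update u i z))
    (g := fun z i => jcolor H k 0 (Function.update v i z)) (congrArg Prod.snd h)
  exact cn3_of_upd hk (fun i => ⟨e, fun z => congrFun (he z) i⟩) a b c

theorem snoc_eq {α : Type} (u : Fin k → α) (z : α) (i : Fin k) (a : Fin (k + 1))
    (ha : i.castSucc ≠ a) :
    (Fin.snoc u z : Fin (k + 1) → α) a =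
      Function.update u i z (Fin.lastCases (motive := fun _ => Fin k) i id a) := by
  induction a using Fin.lastCases with
  | last => simp
  | cast j =>
    have : j ≠ i := fun e => ha (by rw [e])
    simp [Function.update_of_ne this]

theorem ext_of_j (hk : 4 ≤ k) {u : Fin k → Fin n} {v : Fin k → Fin n'}
    (h : jcolor G k 2 u = jcolor H k 2 v) (ε : ℕ) : ext G ε u = ext H ε v := by
  obtain ⟨e, he⟩ := gm_exists_equiv (f := fun z i => jcolor G k 1 (Function.update u i z))
    (g := fun z i => jcolor H k 1 (Function.update v i z)) (congrArg Prod.snd h)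
  refine card_equiv e fun z => ?_
  simp only [mem_filter, mem_univ, true_and]
  refine stat_congr (fun a b => ?_) (fun a b c => ?_) ε
  · obtain ⟨i, ha, hb, -⟩ := exists_fourth hk Fin.castSucc (Fin.castSucc_injective k) a b b
    rw [snoc_eq u z i a ha, snoc_eq u z i b hb, snoc_eq v _ i a ha, snoc_eq v _ i b hb]
    exact adj_of_atomic (congrArg Prod.fst (congrFun (he z) i)) _ _
  · obtain ⟨i, ha, hb, hc⟩ := exists_fourth hk Fin.castSucc (Fin.castSucc_injective k) a b c
    rw [snoc_eq u z i a ha, snoc_eq u z i b hb, snoc_eq u z i c hc, snoc_eq v _ i a ha,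
      snoc_eq v _ i b hb, snoc_eq v _ i c hc]
    exact cn3_of_j hk (congrFun (he z) i) _ _ _

theorem emb_inl (G : Fin n → Fin n → Bool) (H : Fin n' → Fin n' → Bool) :
    Emb G (asMatrix (unionAdj G H)) (Fintype.equivFin _ ∘ Sum.inl) where
  inj := (Equiv.injective _).comp Sum.inl_injective
  adj := fun a b => by simp [asMatrix, unionAdj]
  cl := fun a w hw => by
    obtain ⟨x, rfl⟩ := (Fintype.equivFin (Fin n ⊕ Fin n')).surjective w
    cases x with
    | inl b => exact ⟨b, rfl⟩
    | inr b => simp [asMatrix, unionAdj] at hw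

theorem emb_inr (G : Fin n → Fin n → Bool) (H : Fin n' → Fin n' → Bool) :
    Emb H (asMatrix (unionAdj G H)) (Fintype.equivFin _ ∘ Sum.inr) where
  inj := (Equiv.injective _).comp Sum.inr_injective
  adj := fun a b => by simp [asMatrix, unionAdj]
  cl := fun a w hw => by
    obtain ⟨x, rfl⟩ := (Fintype.equivFin (Fin n ⊕ Fin n')).surjective w
    cases x with
    | inr b => exact ⟨b, rfl⟩
    | inl b => simp [asMatrix, unionAdj] at hw

/-- pairs of the first kind -/
def sL (s : Finset ((Fin n ⊕ Fin n') × (Fin n ⊕ Fin n'))) : Finset (Fin n × Fin n') :=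
  univ.filter fun p => (Sum.inl p.1, Sum.inr p.2) ∈ s

/-- pairs of the second kind -/
def sR (s : Finset ((Fin n ⊕ Fin n') × (Fin n ⊕ Fin n'))) : Finset (Fin n × Fin n') :=
  univ.filter fun p => (Sum.inr p.2, Sum.inl p.1) ∈ s

theorem strat_union {m : ℕ} {P : Finset (Fin n × Fin n') → Prop} (h : Strat m G H P) :
    Strat m (unionAdj G H) (unionAdj G H) fun s =>
      (∀ p ∈ s, ∃ a b, p = (Sum.inl a, Sum.inr b) ∨ p = (Sum.inr b, Sum.inl a)) ∧
        P (sL s) ∧ P (sR s) where
  empty := ⟨by simp, by simpa [sL] using h.empty, by simpa [sR] using h.empty⟩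
  sub := fun s t ht hst => ⟨fun p hp => ht.1 p (hst hp),
    h.sub _ _ ht.2.1 fun p hp => mem_filter.2 ⟨mem_univ _, hst (mem_filter.1 hp).2⟩,
    h.sub _ _ ht.2.2 fun p hp => mem_filter.2 ⟨mem_univ _, hst (mem_filter.1 hp).2⟩⟩
  eq := by
    rintro s ⟨h0, h1, h2⟩ p hp q hq
    obtain ⟨a, b, rfl | rfl⟩ := h0 p hp <;> obtain ⟨a', b', rfl | rfl⟩ := h0 q hq
    · simpa using h.eq _ h1 (a, b) (by simpa [sL] using hp) (a', b') (by simpa [sL] using hq)
    · simp
    · simp
    · simpa using (h.eq _ h2 (a, b) (by simpa [sR] using hp) (a', b') (by simpa [sR] using hq)).symm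
  adj := by
    rintro s ⟨h0, h1, h2⟩ p hp q hq
    obtain ⟨a, b, rfl | rfl⟩ := h0 p hp <;> obtain ⟨a', b', rfl | rfl⟩ := h0 q hq
    · exact h.adj _ h1 (a, b) (by simpa [sL] using hp) (a', b') (by simpa [sL] using hq)
    · rfl
    · rfl
    · exact (h.adj _ h2 (a, b) (by simpa [sR] using hp) (a', b') (by simpa [sR] using hq)).symm
  ext := by
    rintro s ⟨h0, h1, h2⟩ hc
    have c1 : (sL s).card ≤ s.card :=
      card_le_card_of_injOn (fun p => (Sum.inl p.1, Sum.inr p.2)) (fun p hp => by
        simpa [sL] using hp) (fun p _ q _ e => by simpa [Prod.ext_iff] using e)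
    have c2 : (sR s).card ≤ s.card :=
      card_le_card_of_injOn (fun p => (Sum.inr p.2, Sum.inl p.1)) (fun p hp => by
        simpa [sR] using hp) (fun p _ q _ e => by simpa [Prod.ext_iff, and_comm] using e)
    obtain ⟨e₁, he₁⟩ := h.ext _ h1 (by omega)
    obtain ⟨e₂, he₂⟩ := h.ext _ h2 (by omega)
    refine ⟨(Equiv.sumCongr e₁ e₂.symm).trans (Equiv.sumComm _ _), fun z => ?_⟩
    cases z with
    | inl a =>
      refine ⟨fun p hp => ?_, h.sub _ _ (he₁ a) fun p hp => ?_, h.sub _ _ h2 fun p hp => ?_⟩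
      · rcases mem_insert.1 hp with rfl | hp
        · exact ⟨a, e₁ a, Or.inl rfl⟩
        · exact h0 p hp
      · simpa [sL, Prod.ext_iff] using hp
      · simpa [sR] using hp
    | inr b =>
      refine ⟨fun p hp => ?_, h.sub _ _ h1 fun p hp => ?_,
        h.sub _ _ (he₂ (e₂.symm b)) fun p hp => ?_⟩
      · rcases mem_insert.1 hp with rfl | hp
        · exact ⟨e₂.symm b, b, Or.inr rfl⟩
        · exact h0 p hp
      · simpa [sL] using hp
      · simpa [sR, Prod.ext_iff, and_comm] using hp

theorem exists_union {m : ℕ} (h : Game m G H) (hk : k ≤ m) :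
    ∃ (P : Finset (Fin (Fintype.card (Fin n ⊕ Fin n')) × Fin (Fintype.card (Fin n ⊕ Fin n'))) → Prop)
      (E : (Fin k → Fin n) ≃ (Fin k → Fin n')),
      Strat m (asMatrix (unionAdj G H)) (asMatrix (unionAdj G H)) P ∧
      ∀ u, P (univ.image fun i => ((Fintype.equivFin _ ∘ Sum.inl ∘ u) i,
        (Fintype.equivFin _ ∘ Sum.inr ∘ E u) i)) := by
  obtain ⟨P, hP⟩ := h
  obtain ⟨E, hE⟩ := hP.tuples hk
  refine ⟨_, E, (strat_union hP).congr (Fintype.equivFin _) (Fintype.equivFin _)
    (fun a b => by simp [asMatrix]) (fun a b => by simp [asMatrix]), fun u => ?_⟩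
  simp only [image_image, Function.comp_def, Equiv.symm_apply_apply]
  refine ⟨fun p hp => ?_, hP.sub _ _ (hE u) fun p hp => ?_, hP.sub _ _ hP.empty fun p hp => ?_⟩
  · obtain ⟨i, -, rfl⟩ := mem_image.1 hp
    exact ⟨_, _, Or.inl rfl⟩
  · simpa [sL, Prod.ext_iff] using hp
  · simp [sR] at hp

end Pld

theorem cliqueCount_asMatrix {V : Type} [Fintype V] [DecidableEq V] (G : V → V → Bool) (t ε : ℕ) :
    cliqueCount (asMatrix G) t ε = cliqueCount G t ε := by
  have h : Pld.Emb G (asMatrix G) (Fintype.equivFin V) :=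
    ⟨Equiv.injective _, fun a b => by simp [asMatrix], fun _ w _ => Equiv.surjective _ w⟩
  exact (Pld.count_eq (Equiv.arrowCongr (Equiv.refl _) (Fintype.equivFin V))
    fun u => h.stat u ε).symm

theorem game_asMatrix {V W : Type} [Fintype V] [DecidableEq V] [Fintype W] [DecidableEq W]
    {G : V → V → Bool} {H : W → W → Bool} {m : ℕ} (h : Game m G H) :
    Game m (asMatrix G) (asMatrix H) :=
  (Game.congr (Fintype.equivFin V) (Fintype.equivFin W) (fun a b => by simp [asMatrix])
    (fun a b => by simp [asMatrix])).1 h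

variable {n n' k : ℕ} {G : Fin n → Fin n → Bool} {H : Fin n' → Fin n' → Bool}

/-- `CliqueStat G ε v` is a function of `scolor G k 1 v` (`k ≥ 4`: for a triple use a fourth coordinate
`c`, whose multiset counts the `z` adjacent to the triple), the same function for all graphs. -/
theorem cliqueCount_of_shist (hk : 4 ≤ k)
    (h : univ.val.map (scolor G k 1) = univ.val.map (scolor H k 1)) (ε : ℕ) :
    cliqueCount G k ε = cliqueCount H k ε := by
  obtain ⟨E, hE⟩ := gm_exists_equiv h
  exact Pld.count_eq E fun u => Pld.stat_of_s hk (hE u) ε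

/-- The number of `z` with `CliqueStat G ε (Fin.snoc v z)` is a function of `jcolor G k 2 v`: a triple
of the `k + 1` vertices avoids some coordinate `i` of `v`, and `jcolor G k 1 (update v i z)` counts its
common neighbours through a further coordinate. -/
theorem cliqueCount_of_jhist (hk : 4 ≤ k)
    (h : univ.val.map (jcolor G k 2) = univ.val.map (jcolor H k 2)) (ε : ℕ) :
    cliqueCount G (k + 1) ε = cliqueCount H (k + 1) ε := by
  obtain ⟨E, hE⟩ := gm_exists_equiv h
  exact Pld.count_eq' E fun u => Pld.ext_of_j hk (hE u) ε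

/-- In the union the vertices of the other side are adjacent to nothing, so the same functions of the
colours compute the statistic of each side. -/
theorem cliqueCount_of_pureS (hk : 4 ≤ k) (h : PureSHistEq k 1 G H) (ε : ℕ) :
    cliqueCount G k ε = cliqueCount H k ε := by
  obtain ⟨E, hE⟩ := gm_exists_equiv h
  exact Pld.count_eq E fun u => ((Pld.emb_inl G H).stat u ε).trans
    ((Pld.stat_of_s hk (hE u) ε).trans ((Pld.emb_inr G H).stat (E u) ε).symm)

theorem cliqueCount_of_pureJ (hk : 4 ≤ k) (h : PureJHistEq k 2 G H) (ε : ℕ) :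
    cliqueCount G (k + 1) ε = cliqueCount H (k + 1) ε := by
  obtain ⟨E, hE⟩ := gm_exists_equiv h
  exact Pld.count_eq' E fun u => ((Pld.emb_inl G H).ext_eq (by omega) u ε).trans
    ((Pld.ext_of_j hk (hE u) ε).trans ((Pld.emb_inr G H).ext_eq (by omega) (E u) ε).symm)

/-- From a strategy `P` on `(G, H)` define one on `(G ⊕ H, G ⊕ H)` swapping the sides: a position is
good when its pairs are `(inl a, inr b)` or `(inr b, inl a)`, the pairs `(a, b)` of the first kind form
a position of `P`, and so do those of the second kind; the bijection is `inl a ↦ inr (e₁ a)`,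
`inr b ↦ inl (e₂.symm b)`. Transport by `Strat.congr`, then `Strat.tuples` for `P` and
`Strat.jcolor_eq`. -/
theorem Game.pureJ (h : Game (k + 1) G H) : PureJEquiv k G H := by
  obtain ⟨P, E, hP, hE⟩ := Pld.exists_union (k := k) h (by omega)
  exact fun s => gm_map_eq E fun u => hP.jcolor_eq s _ _ (hE u)

theorem Game.pureS (h : Game k G H) : PureSEquiv k G H := by
  obtain ⟨P, E, hP, hE⟩ := Pld.exists_union (k := k) h le_rfl
  exact fun s => gm_map_eq E fun u => hP.scolor_eq s _ _ (hE u)

end Crest.Agent.R290
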