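import Crest.Agent.R290.Defs

/-!
Row 290, task PTS: the compressed system is computed in polynomial time.
-/

set_option autoImplicit false

namespace Crest.Agent.R290

open Crest.Agent.PT Crest.Agent.QC Crest.Agent.R317

variable {α β : Type} [Enc α] [Enc β]

@[fun_prop] theorem pt_nil : PT (fun _ : α => ([] : List β)) := PT.const _

theorem pts_enc_append (l l' : List β) : enc (l ++ l') = enc l ++ enc l' := by
  induction l with
  | nil => rfl
  | cons x l ih => simp only [List.cons_append, enc_cons, ih, List.append_assoc]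

/-- `enc (l ++ l') = enc l ++ enc l'`. -/
@[fun_prop] theorem pt_append {l l' : α → List β} (hl : PT l) (hl' : PT l') :
    PT (fun a => l a ++ l' a) :=
  (PT.app (PT.toRaw.comp hl) (PT.toRaw.comp hl')).of_enc_eq (fun _ => (pts_enc_append _ _).symm)

/-- Through `PT.concat`. -/
theorem pt_flatMap_range {n : α → ℕ} {f : α → ℕ → List β} (hn : PT n)
    (hf : PT (fun p : α × ℕ => f p.1 p.2)) : PT (fun a => (List.range (n a)).flatMap (f a)) := by
  refine (PT.concat (f := fun a i => (⟨enc (f a i)⟩ : Raw)) hn (PT.toRaw.comp hf)).of_enc_eq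
    (fun a => ?_)
  show (List.range (n a)).flatMap (fun i => enc (f a i)) = _
  induction List.range (n a) with
  | nil => rfl
  | cons x l ih => simp only [List.flatMap_cons, pts_enc_append, ih]

theorem pt_map_range {n : α → ℕ} {f : α → ℕ → β} (hn : PT n)
    (hf : PT (fun p : α × ℕ => f p.1 p.2)) : PT (fun a => (List.range (n a)).map (f a)) :=
  pt_mkL hn hf

theorem pts_take {l : α → List β} {k : α → ℕ} (d : β) (hl : PT l) (hk : PT k) :
    PT (fun a => (l a).take (k a)) := by
  have h : PT (fun a => mkL (min (k a) (l a).length) (fun i => (l a).getD i d)) :=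
    pt_mkL (f := fun a i => (l a).getD i d) (by fun_prop) (by fun_prop)
  refine h.congr (fun a => List.ext_getElem (by simp) (fun i h1 h2 => ?_))
  have h3 : i < (l a).length := by simp at h2; omega
  simp only [mkL, List.getElem_map, List.getElem_range, List.getElem_take,
    List.getD_eq_getElem _ _ h3]

theorem pts_map {γ : Type} [Enc γ] {l : α → List β} {f : α → β → γ} (d : β) (hl : PT l)
    (hf : PT (fun p : α × β => f p.1 p.2)) : PT (fun a => (l a).map (f a)) := by
  have h : PT (fun a => mkL (l a).length (fun i => f a ((l a).getD i d))) :=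
    pt_mkL (f := fun a i => f a ((l a).getD i d)) (by fun_prop)
      (hf.comp (f := fun p : α × ℕ => (p.1, (l p.1).getD p.2 d)) (by fun_prop))
  refine h.congr (fun a => List.ext_getElem (by simp) (fun i h1 h2 => ?_))
  have h3 : i < (l a).length := by simpa using h2
  simp only [mkL, List.getElem_map, List.getElem_range, List.getD_eq_getElem _ _ h3]

theorem pts_prime {q : α → ℕ} (hq : PT q) : DT (fun a => (q a).Prime) := by
  have h : DT (fun a => 2 ≤ q a ∧ All (q a) (fun m => ¬ m ∣ q a ∨ m = 1)) := by fun_prop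
  refine h.congr (fun a => ?_)
  simp only [Nat.prime_def_lt, All, imp_iff_not_or (a := _ ∣ _)]

theorem pt_primesFrom {B R : α → ℕ} (hB : PT B) (hR : PT R) :
    PT (fun a => primesFrom (B a) (R a)) := by
  have h : PT (fun a => (List.range ((B a + R a + 2) ^ 3)).flatMap
      (fun q => if B a ≤ q ∧ q.Prime then [q] else [])) :=
    pt_flatMap_range (f := fun a q => if B a ≤ q ∧ q.Prime then [q] else []) (by fun_prop)
      (PT.iteD (DT.and (by fun_prop) (pts_prime (by fun_prop))) (by fun_prop) (by fun_prop))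
  refine pts_take 0 (h.congr (fun a => ?_)) hR
  induction List.range ((B a + R a + 2) ^ 3) with
  | nil => rfl
  | cons x l ih =>
    rw [List.flatMap_cons, ih, List.filter_cons]
    by_cases h : B a ≤ x ∧ x.Prime <;> simp [h]

theorem pts_bit {x : α → Raw} {j : α → ℕ} (hx : PT x) (hj : PT j) :
    PT (fun a => (x a).val.getD (j a) false) := by
  have key : ∀ (j : ℕ) (x : List Bool), Raw.tail^[j] ⟨x⟩ = ⟨x.drop j⟩ := by
    intro j
    induction j with
    | zero => intro x; rfl
    | succ j ih =>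
      intro x
      rw [Function.iterate_succ_apply]
      exact (ih x.tail).trans (by cases x <;> simp)
  refine (pt_iterShrink (PT.tail PT.id') (fun x => by simp) hj hx).head.congr (fun a => ?_)
  rw [key (j a) (x a).val]
  simp [Raw.head, List.getD_eq_getElem?_getD]

@[fun_prop] theorem pts_inS {S j : α → ℕ} (hS : PT S) (hj : PT j) :
    PT (fun a => inS (S a) (j a)) := by
  unfold inS; fun_prop

@[fun_prop] theorem pts_rule1 {h s d : α → ℕ} (hh : PT h) (hs : PT s) (hd : BT d) :
    PT (fun a => rule1 (h a) (s a) (d a)) := by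
  unfold rule1; fun_prop

@[fun_prop] theorem pts_shiftOf {W τ : α → ℕ} (hW : BT W) (hτ : PT τ) :
    BT (fun a => shiftOf (W a) (τ a)) := by
  unfold shiftOf; fun_prop

@[fun_prop] theorem pts_inst {W : α → ℕ} {ρ : α → TRule} (hW : BT W) (hρ : PT ρ) :
    PT (fun a => inst (W a) (ρ a)) := by
  unfold inst; fun_prop

/-- The row width is binary; `code.2.map (inst W)` through `mkL` and `getD`; bits of `x` through
`PT.iter Raw.tail` and `Raw.head`. -/
theorem pt_horn {code : α → Code} {x : α → Raw} {W : α → ℕ} (hc : PT code) (hx : PT x)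
    (hW : BT W) : PT (fun a => horn (code a) (x a).val (W a)) := by
  have h1 : PT (fun a => (x a).val.length) := hx.len
  have h2 : PT (fun p : α × ℕ => (x p.1).val.getD p.2 false) := pts_bit (by fun_prop) (by fun_prop)
  have h3 : PT (fun p : α × ℕ => if (x p.1).val.getD p.2 false = true then (9 : ℕ) else 8) :=
    PT.iteD (dt_beq h2 (PT.const _)) (PT.const _) (PT.const _)
  have h4 : PT (fun p : α × ℕ => (x p.1).val.length) := h1.comp (by fun_prop)
  have h5 : PT (fun p : α × ℕ => if p.2 < (x p.1).val.length then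
      (if (x p.1).val.getD p.2 false = true then (9 : ℕ) else 8) else 7) :=
    PT.ite_lt (by fun_prop) h4 h3 (PT.const _)
  have h6 : PT (fun p : α × ℕ => if p.2 < (x p.1).val.length then (4 : ℕ) else 5) :=
    PT.ite_lt (by fun_prop) h4 (PT.const _) (PT.const _)
  refine pt_append (pts_map (f := fun a ρ => inst (W a) ρ) (0, 0, 0, 0, 0) hc.snd (by fun_prop))
    (pt_flatMap_range (h1.add (PT.const 1)) (pt_cons (by fun_prop) (pt_cons ?_ (pt_cons
      (by fun_prop) (pt_cons (by fun_prop) (pt_cons ?_ pt_nil))))))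
  · exact pts_rule1 h5 (by fun_prop) (BT.const 0)
  · exact pts_rule1 h6 (by fun_prop) (BT.const 0)

theorem pt_mkPar {code : α → Code} {x : α → Raw} {k B : α → ℕ} (hc : PT code) (hx : PT x)
    (hk : PT k) (hB : PT B) : PT (fun a => mkPar (code a) (x a).val (k a) (B a)) := by
  have h1 : PT (fun a => (x a).val.length) := hx.len
  have h2 : PT (fun a => (k a - 16) / 4) := by fun_prop
  have h3 : PT (fun a => 2 * theta (3 * (k a + 1)) + 1) := by unfold theta; fun_prop
  exact ((pt_horn hc hx (W := fun a => B a ^ (k a / C0)) (by fun_prop)).pair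
    (((hc.fst.add h1).add (PT.const 2)).pair (h2.pair (h3.pair
      (pt_primesFrom hB h2))))).of_enc_eq (fun _ => rfl)

namespace Pts

variable {Q : α → Par}

theorem tup (hQ : PT Q) : PT (fun a => ((Q a).P, (Q a).S, (Q a).R, (Q a).L, (Q a).p)) :=
  hQ.of_enc_eq (fun _ => rfl)

@[fun_prop] theorem pt_P (hQ : PT Q) : PT (fun a => (Q a).P) := (tup hQ).fst
@[fun_prop] theorem pt_S (hQ : PT Q) : PT (fun a => (Q a).S) := (tup hQ).snd.fst
@[fun_prop] theorem pt_R (hQ : PT Q) : PT (fun a => (Q a).R) := (tup hQ).snd.snd.fst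
@[fun_prop] theorem pt_L (hQ : PT Q) : PT (fun a => (Q a).L) := (tup hQ).snd.snd.snd.fst
@[fun_prop] theorem pt_p (hQ : PT Q) : PT (fun a => (Q a).p) := (tup hQ).snd.snd.snd.snd

@[fun_prop] theorem pt_x {s e i r : α → ℕ} (hs : PT s) (he : PT e) (hi : PT i) (hr : PT r) :
    PT (fun a => Var.x (s a) (e a) (i a) (r a)) :=
  ((PT.const 1).pair (hs.pair (he.pair (hi.pair hr)))).of_enc_eq (fun _ => rfl)

@[fun_prop] theorem pt_y {s e i r : α → ℕ} (hs : PT s) (he : PT e) (hi : PT i) (hr : PT r) :
    PT (fun a => Var.y (s a) (e a) (i a) (r a)) :=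
  ((PT.const 2).pair (hs.pair (he.pair (hi.pair hr)))).of_enc_eq (fun _ => rfl)

@[fun_prop] theorem pt_z {e i : α → ℕ} (he : PT e) (hi : PT i) :
    PT (fun a => Var.z (e a) (i a)) :=
  ((PT.const 3).pair (he.pair (hi.pair (PT.const ((0, 0) : ℕ × ℕ))))).of_enc_eq (fun _ => rfl)

@[fun_prop] theorem pt_sig {ρ : α → Rule} {l : α → ℕ} (hρ : PT ρ) (hl : PT l) :
    PT (fun a => (ρ a).sig (l a)) := by
  unfold Rule.sig; fun_prop

@[fun_prop] theorem bt_sh {ρ : α → Rule} (hρ : PT ρ) : BT (fun a => (ρ a).sh) :=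
  BT.val hρ.snd.snd.snd.snd

variable {π j i r u l e b : α → ℕ}

@[fun_prop] theorem pt_md (hQ : PT Q) (hi : PT i) : PT (fun a => (Q a).md (i a)) := by
  unfold Par.md; fun_prop

@[fun_prop] theorem pt_A (hQ : PT Q) : PT (fun a => (Q a).A) := by
  unfold Par.A; fun_prop

@[fun_prop] theorem pt_mu (hQ : PT Q) : PT (fun a => (Q a).mu) := by
  unfold Par.mu; fun_prop

@[fun_prop] theorem pt_NP (hQ : PT Q) : PT (fun a => (Q a).NP) := by
  unfold Par.NP; fun_prop

@[fun_prop] theorem pt_bl (hQ : PT Q) : PT (fun a => (Q a).bl) := by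
  unfold Par.bl; fun_prop

@[fun_prop] theorem pt_len (hQ : PT Q) : PT (fun a => (Q a).len) := by
  unfold Par.len; fun_prop

@[fun_prop] theorem pt_ridx (hQ : PT Q) (hπ : PT π) : PT (fun a => (Q a).ridx (π a)) := by
  unfold Par.ridx; fun_prop

@[fun_prop] theorem pt_gw (hQ : PT Q) (hπ : PT π) : PT (fun a => (Q a).gw (π a)) := by
  unfold Par.gw; fun_prop

@[fun_prop] theorem dt_Reg (hQ : PT Q) (hπ : PT π) : DT (fun a => (Q a).Reg (π a)) :=
  DT.and (DT.ne (BT.ofPT hπ) (BT.const 0))
    (DT.lt (BT.ofPT (pt_ridx hQ hπ)) (BT.ofPT (pt_length (pt_P hQ))))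

@[fun_prop] theorem pt_rule (hQ : PT Q) (hπ : PT π) : PT (fun a => (Q a).rule (π a)) := by
  unfold Par.rule; fun_prop

@[fun_prop] theorem pt_psig (hQ : PT Q) (hπ : PT π) (hl : PT l) :
    PT (fun a => (Q a).psig (π a) (l a)) := by
  unfold Par.psig; fun_prop

@[fun_prop] theorem pt_hd (hQ : PT Q) (hπ : PT π) : PT (fun a => (Q a).hd (π a)) := by
  unfold Par.hd; fun_prop

@[fun_prop] theorem pt_pc (hQ : PT Q) (hπ : PT π) : PT (fun a => (Q a).pc (π a)) := by
  unfold Par.pc; fun_prop

@[fun_prop] theorem pt_tr (hQ : PT Q) (hu : PT u) : PT (fun a => (Q a).tr (u a)) := by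
  unfold Par.tr; fun_prop

@[fun_prop] theorem pt_upos (hQ : PT Q) (hj : PT j) : PT (fun a => (Q a).upos (j a)) := by
  unfold Par.upos; fun_prop

@[fun_prop] theorem pt_wire (hQ : PT Q) (hb : PT b) (hu : PT u) :
    PT (fun a => (Q a).wire (b a) (u a)) := by
  unfold Par.wire; fun_prop

@[fun_prop] theorem pt_inp (hQ : PT Q) (hπ : PT π) (hj : PT j) (hi : PT i) (hr : PT r) :
    PT (fun a => (Q a).inp (π a) (j a) (i a) (r a)) := by
  unfold Par.inp; fun_prop

@[fun_prop] theorem pt_Z (hQ : PT Q) (he : PT e) (hi : PT i) :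
    PT (fun a => (Q a).Z (e a) (i a)) :=
  PT.iteD (DT.or (DT.eq (BT.ofPT hi) (BT.const 0)) (DT.eq (BT.ofPT hi) (BT.ofPT (pt_R hQ))))
    (PT.const _) (pt_z he hi)

@[fun_prop] theorem pt_link (hQ : PT Q) (he : PT e) (hi : PT i) :
    PT (fun a => (Q a).link (e a) (i a)) := by
  unfold Par.link; fun_prop

/-- `pout` with the residue cut off. -/
def pout' (Q : Par) (π i r : ℕ) : Var :=
  if π = 0 then .o
  else if Q.Reg π then .x (Q.hd π) (Q.gw π) i (un (Q.md i) ((r + (Q.rule π).sh) % Q.md i))
  else if i = Q.pc π then .x (Q.hd π) (Q.gw π) i r else .o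

/-- `Y` with the residue cut off. -/
def Y' (Q : Par) (π j i r : ℕ) : Var :=
  if j = 0 then pout' Q π i r else if j = Q.len then .o else .y π j i r

/-- `step` with the residue cut off. -/
def step' (Q : Par) (tw : Bool) (π j i r : ℕ) : Eqn Var :=
  (Y' Q π j i r, Q.inp π j i r, Y' Q π (j + 1) i r,
    tw && decide (π = 0 ∧ j = 0 ∧ i = 0 ∧ r = 0))

theorem step'_eq (Q : Par) (tw : Bool) (π j : ℕ) {i r : ℕ} (h : r < Q.md i) :
    step' Q tw π j i r = Q.step tw π j i r := by
  have : un (Q.md i) ((r + (Q.rule π).sh) % Q.md i) = (r + (Q.rule π).sh) % Q.md i :=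
    min_eq_left (Nat.mod_lt _ (by omega)).le
  simp only [step', Y', pout', this]
  rfl

@[fun_prop] theorem pt_pout' (hQ : PT Q) (hπ : PT π) (hi : PT i) (hr : PT r) :
    PT (fun a => pout' (Q a) (π a) (i a) (r a)) := by
  have h : PT (fun a => un ((Q a).md (i a)) ((r a + ((Q a).rule (π a)).sh) % (Q a).md (i a))) :=
    pt_un (pt_md hQ hi) (BT.mod (BT.add (BT.ofPT hr) (bt_sh (pt_rule hQ hπ)))
      (BT.ofPT (pt_md hQ hi)))
  exact PT.ite_eq hπ (PT.const _) (PT.const _) (PT.iteD (dt_Reg hQ hπ)
    (pt_x (pt_hd hQ hπ) (pt_gw hQ hπ) hi h) (by fun_prop))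

@[fun_prop] theorem pt_Y' (hQ : PT Q) (hπ : PT π) (hj : PT j) (hi : PT i) (hr : PT r) :
    PT (fun a => Y' (Q a) (π a) (j a) (i a) (r a)) := by
  unfold Y'; fun_prop

@[fun_prop] theorem pt_step' {tw : α → Bool} (hQ : PT Q) (ht : PT tw) (hπ : PT π) (hj : PT j)
    (hi : PT i) (hr : PT r) : PT (fun a => step' (Q a) (tw a) (π a) (j a) (i a) (r a)) := by
  unfold step'; fun_prop

end Pts

/-- Accessors of `Par` and constructors of `Var` are `PT` by `PT.reinterp`/`of_enc_eq`; then `md`, `A`,
`mu`, `NP`, ..., `pout` (the residue `(r + sh) % md i` is binary, made unary by `un (md i) _` when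
`md i > 0`; for `md i = 0` note `r < md i` in `sys`, so replace the function by one that agrees on
the range, or handle the modulus inside `BT` and cut off by `un (md i)` after showing equality under
`List.map_congr_left`). -/
theorem pt_sys {Q : α → Par} {tw : α → Bool} (hQ : PT Q) (ht : PT tw) :
    PT (fun a => (Q a).sys (tw a)) := by
  have h1 : PT (fun a => (List.range (Q a).mu).flatMap fun e =>
      (List.range (Q a).R).map fun i => (Q a).link e i) :=
    pt_flatMap_range (by fun_prop) (pt_map_range (by fun_prop) (by fun_prop))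
  have h2 : PT (fun a => (List.range (Q a).NP).flatMap fun π => (List.range (Q a).len).flatMap
      fun j => (List.range (Q a).R).flatMap fun i => (List.range ((Q a).md i)).map
        fun r => Pts.step' (Q a) (tw a) π j i r) :=
    pt_flatMap_range (by fun_prop) (pt_flatMap_range (by fun_prop) (pt_flatMap_range (by fun_prop)
      (pt_map_range (by fun_prop) (by fun_prop))))
  refine pt_cons (PT.const _) (pt_append h1 (h2.congr (fun a => ?_)))
  refine congrArg (List.flatMap · _) (funext fun π => congrArg (List.flatMap · _) (funext fun j =>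
    congrArg (List.flatMap · _) (funext fun i => List.map_congr_left (fun r hr => ?_))))
  exact Pts.step'_eq _ _ _ _ (List.mem_range.1 hr)

end Crest.Agent.R290
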