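import Crest.Agent.R290.SBas

/-!
Row 290, task S-ETA: normalisation of a certificate.
-/

set_option autoImplicit false

namespace Crest.Agent.R290

namespace Par

variable {Q : Par} {M w : ℕ} {F : Var →₀ ZMod 2} {c : ZMod 2} {T : ℕ → ℕ → Pv}
  {t : ℕ → ℕ → ZMod 2} {η : ℕ → ℕ → Iv} {ζ : ℕ → ℕ → Iv}

theorem zc_nonreg (ζ : ℕ → ℕ → Iv) (π : ℕ) (h : ¬ Q.Reg π) : Q.zc ζ π = 0 := by
  simp [zc, h]

theorem eta_mem_zc {π m : ℕ} (h : m ∈ (Q.zc ζ π).support) :
    Q.Reg π ∧ m ∈ (ζ π 0).support ∧ m ∈ (ζ π 1).support ∧ m ∈ (ζ π 2).support := by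
  classical
  unfold zc at h
  split_ifs at h with hr
  · rw [Finsupp.support_filter, Finset.mem_filter] at h
    exact ⟨hr, h.1, h.2⟩
  · simp at h

theorem eta_ref_le (hζ : Q.Refs T ζ) {π l : ℕ} (hπ : π < Q.NP) (hl : l < 3) :
    (ζ π l).support.card ≤ 156 :=
  (Finset.single_le_sum (f := fun π => (ζ π l).support.card) (fun _ _ => Nat.zero_le _)
    (Finset.mem_range.2 hπ)).trans (hζ.sum l hl)

theorem eta_tri {ι : Type} (A B C : ι →₀ ZMod 2) : A + C = (A + B) + (B + C) := by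
  rw [add_assoc, ← add_assoc B, add_self_fs, zero_add]

theorem eta_pair (H : Q.Hyp M w) (h : Q.Cert F c T t η) (hζ : Q.Refs T ζ) {π l j s : ℕ}
    (hπ : π < Q.NP) (hl : l < 3) (hj : j < Q.len) {ζ' : Iv} (h1 : Q.Tr s ζ')
    (h2 : T π j = Q.cmp ζ') (h3 : ζ'.support.card ≤ 800) :
    (ζ' + ζ π l).support.card * Q.R ≤ 2 * Q.J F π := by
  obtain ⟨j', hj', e⟩ := hζ.pos π hπ l hl
  have h4 := eta_ref_le hζ hπ hl
  have h5 := H.spread2 h1 (hζ.tr π hπ l hl) (by omega)
  rw [← h2, ← e] at h5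
  have h6 := h.diff hπ hj (pos_lt hl hj')
  omega

theorem zc_tr (hζ : Q.Refs T ζ) {π l : ℕ} (hπ : π < Q.NP) (hl : l < 3) :
    Q.Tr (Q.psig π l) (Q.zc ζ π) := by
  intro m hm
  obtain ⟨-, h0, h1, h2⟩ := eta_mem_zc hm
  refine hζ.tr π hπ l hl m ?_
  obtain rfl | rfl | rfl : l = 0 ∨ l = 1 ∨ l = 2 := by omega
  exacts [h0, h1, h2]

theorem zc_card_le (ζ : ℕ → ℕ → Iv) (π : ℕ) :
    (Q.zc ζ π).support.card ≤ (ζ π 0).support.card :=
  Finset.card_le_card fun _ hm => (eta_mem_zc hm).2.1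

/-- The rule fires at the common indices. -/
theorem outs_tr (hζ : Q.Refs T ζ) (s e : ℕ) : Q.Tr s (Q.outs (Q.zc ζ) s e) := by
  refine Tr.sum _ fun π hπ => ?_
  have hπ' := Finset.mem_range.1 hπ
  split_ifs with hc
  · intro m hm
    obtain ⟨m₀, hm₀, rfl⟩ := Finset.mem_image.1 (Finsupp.mapDomain_support hm)
    have e : ∀ l, Q.psig π l = (Q.rule π).sig l := fun l => by simp [psig, hc.1]
    have e' : s = (Q.rule π).1 := by rw [← hc.2.1]; simp [hd, hc.1]
    rw [e']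
    refine Holds.rule _ m₀ (rule_mem hc.1) ?_ ?_ ?_ <;> rw [← e] <;>
      exact zc_tr hζ hπ' (by omega) m₀ hm₀
  · exact Tr.zero s

/-- The support of `ζ π 0 + zc π` lies in those of `ζ π 0 + ζ π 1` and `ζ π 0 + ζ π 2`, each of weight
at most `2 J / R` (`spread2`, `Cert.diff`); for a path that is not regular `ζ π 0 = 0`. -/
theorem zc_diff (H : Q.Hyp M w) (h : Q.Cert F c T t η) (hζ : Q.Refs T ζ) {π : ℕ} (hπ : π < Q.NP) :
    (ζ π 0 + Q.zc ζ π).support.card * Q.R ≤ 4 * Q.J F π := by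
  classical
  by_cases hr : Q.Reg π
  · obtain ⟨j, hj, e⟩ := hζ.pos π hπ 0 (by omega)
    have h0 := eta_ref_le hζ hπ (l := 0) (by omega)
    have h1 := eta_pair H h hζ hπ (l := 1) (by omega) (pos_lt (by omega) hj)
      (hζ.tr π hπ 0 (by omega)) e (by omega)
    have h2 := eta_pair H h hζ hπ (l := 2) (by omega) (pos_lt (by omega) hj)
      (hζ.tr π hπ 0 (by omega)) e (by omega)
    have h3 : (ζ π 0 + Q.zc ζ π).support ⊆ (ζ π 0 + ζ π 1).support ∪ (ζ π 0 + ζ π 2).support := by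
      intro m hm
      simp only [zc, hr, if_true, Finsupp.mem_support_iff, Finsupp.add_apply, Finsupp.filter_apply,
        Finset.mem_union] at hm ⊢
      split_ifs at hm with hc
      · exact (hm (CharTwo.add_self_eq_zero _)).elim
      · rw [add_zero] at hm
        by_cases h4 : ζ π 1 m = 0
        · left; rwa [h4, add_zero]
        · right
          have h5 : ζ π 2 m = 0 := by
            by_contra h5
            exact hc ⟨h4, h5⟩
          rwa [h5, add_zero]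
    have h4 := Nat.mul_le_mul_right Q.R ((Finset.card_le_card h3).trans (Finset.card_union_le _ _))
    rw [Nat.add_mul] at h4
    omega
  · have h1 := hζ.tr π hπ 0 (by omega)
    have e : Q.psig π 0 = 1 := by simp [psig, hr]
    rw [e] at h1
    simp [H.tr_one h1, zc_nonreg ζ π hr]

/-- Use `Cert.shift`: `cmp η'` is the sum of `Fx` (`≤ w`), the outputs (`≤ 5 J` each: `T π 0 + cmp (zc π)`
is `T π 0 + T π ref` plus `cmp (ζ π 0 + zc π)`, `cmp_card_le`), `inb` (`≤ 3 w`) and `chn` (`≤ R`), in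
total at most `118 R`; a priori the weight is at most `472 + 156`; apply `Spread`. -/
theorem eta_small (H : Q.Hyp M w) (hF : F.support.card ≤ w) (h : Q.Cert F c T t η)
    (hη : ∀ s e, Q.Tr s (η s e) ∧ (η s e).support.card ≤ 472) (hζ : Q.Refs T ζ) (s e : ℕ) :
    (η s e + Q.outs (Q.zc ζ) s e).support.card ≤ 236 := by
  classical
  have h' := h.shift (zc_nonreg ζ)
  have hx := h'.x s e
  have hin := h'.inb_card_le s e
  have hch := chn_card_le (Q := Q) t s e
  have hFx := Fx_card_le F s e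
  have hom : (∑ π ∈ Finset.range Q.NP, Q.om π s e (T π 0 + Q.cmp (Q.zc ζ π))).support.card ≤
      5 * F.support.card := by
    refine (card_sum_le _ _).trans ?_
    refine le_trans ?_ (Nat.mul_le_mul_left 5 (Q.sum_J_le F))
    rw [Finset.mul_sum]
    refine Finset.sum_le_sum fun π hπ => (om_card_le _ _ _ _).trans ?_
    have hπ' := Finset.mem_range.1 hπ
    obtain ⟨j, hj, e⟩ := hζ.pos π hπ' 0 (by omega)
    have hl := pos_lt (Q := Q) (l := 0) (by omega) hj
    have h1 := h.diff hπ' (j := 0) (by omega) hl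
    have h2 := cmp_card_le Q (ζ π 0 + Q.zc ζ π)
    have h3 := zc_diff H h hζ hπ'
    have h4 := card_add_le (T π 0 + T π (Q.bl * 0 + j)) (T π (Q.bl * 0 + j) + Q.cmp (Q.zc ζ π))
    rw [← eta_tri] at h4
    rw [map_add, ← e] at h2
    omega
  have hcmp : Q.cmp (η s e + Q.outs (Q.zc ζ) s e) = Fx F s e +
      ∑ π ∈ Finset.range Q.NP, Q.om π s e (T π 0 + Q.cmp (Q.zc ζ π)) +
      Q.inb (fun π j => T π j + Q.cmp (Q.zc ζ π)) s e + Q.chn t s e := by
    rw [hx]
    generalize Q.cmp (η s e + Q.outs (Q.zc ζ) s e) = A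
    generalize ∑ π ∈ Finset.range Q.NP, Q.om π s e (T π 0 + Q.cmp (Q.zc ζ π)) = B
    generalize Q.inb (fun π j => T π j + Q.cmp (Q.zc ζ π)) s e = C
    generalize Q.chn t s e = D
    have : A + B + C + D + B + C + D = A + (B + B) + (C + C) + (D + D) := by abel
    rw [this, add_self_fs, add_self_fs, add_self_fs, add_zero, add_zero, add_zero]
  have hout : (Q.outs (Q.zc ζ) s e).support.card ≤ 156 := by
    refine (card_sum_le _ _).trans (le_trans (Finset.sum_le_sum fun π _ => ?_) (hζ.sum 0 (by omega)))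
    split_ifs
    · exact (Finset.card_le_card Finsupp.mapDomain_support).trans
        (Finset.card_image_le.trans (zc_card_le ζ π))
    · simp
  have htr := (hη s e).1.add (outs_tr hζ s e)
  have hs := H.spr _ (fun m hm => (H.rng s m (htr m hm)).2) ((card_add_le _ _).trans (by
    have := (hη s e).2
    omega))
  rw [hcmp] at hs
  have c1 := card_add_le (Fx F s e)
    (∑ π ∈ Finset.range Q.NP, Q.om π s e (T π 0 + Q.cmp (Q.zc ζ π)))
  have c2 := card_add_le (Fx F s e +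
    ∑ π ∈ Finset.range Q.NP, Q.om π s e (T π 0 + Q.cmp (Q.zc ζ π)))
    (Q.inb (fun π j => T π j + Q.cmp (Q.zc ζ π)) s e)
  have c3 := card_add_le (Fx F s e +
    ∑ π ∈ Finset.range Q.NP, Q.om π s e (T π 0 + Q.cmp (Q.zc ζ π)) +
    Q.inb (fun π j => T π j + Q.cmp (Q.zc ζ π)) s e) (Q.chn t s e)
  have hwR := H.wR
  refine Nat.le_of_mul_le_mul_right (c := Q.R) ?_ H.ok.R_pos
  omega

/-- `ζ' + zc π = (ζ' + ζ π 0) + (ζ π 0 + zc π)`, weights `2 J / R` and `4 J / R`. -/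
theorem near_shift (H : Q.Hyp M w) (h : Q.Cert F c T t η) (hζ : Q.Refs T ζ) {π l j : ℕ}
    (hπ : π < Q.NP) (hl : l < 3) (hj : j < Q.bl)
    (hn : Q.Near (Q.psig π l) (T π (Q.bl * l + j)) (785 * Q.R)) :
    Q.Near (Q.psig π l) (T π (Q.bl * l + j) + Q.cmp (Q.zc ζ π)) (6 * Q.J F π) := by
  obtain ⟨ζ', h1, h2, h3⟩ := hn
  have h4 : ζ'.support.card ≤ 785 := Nat.le_of_mul_le_mul_right h3 H.ok.R_pos
  refine ⟨ζ' + Q.zc ζ π, h1.add (zc_tr hζ hπ hl), by rw [map_add, h2], ?_⟩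
  have h5 := eta_pair H h hζ hπ (l := 0) (by omega) (pos_lt hl hj) h1 h2 (by omega)
  have h6 := zc_diff H h hζ hπ
  have h7 := Nat.mul_le_mul_right Q.R (card_add_le (ζ' + ζ π 0) (ζ π 0 + Q.zc ζ π))
  rw [← eta_tri, Nat.add_mul] at h7
  omega

end Par

end Crest.Agent.R290
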