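import Crest.Agent.R290.SysBasic

/-!
Row 290, task S-GRID: the counting lemma for a block.
-/

set_option autoImplicit false

namespace Crest.Agent.R290

namespace SGrid

theorem row_le {L a a' b b' : ℕ} (hb' : b' < L) (h : a * L + b < a' * L + b' + L) : a ≤ a' + 1 := by
  by_contra hc
  have : (a' + 2) * L ≤ a * L := Nat.mul_le_mul_right _ (by omega)
  rw [add_mul] at this
  omega

theorem col_le {L a b b' : ℕ} (h : b * L + a < b' * L + a + L) : b ≤ b' := by
  by_contra hc
  have : (b' + 1) * L ≤ b * L := Nat.mul_le_mul_right _ (by omega)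
  rw [add_mul] at this
  omega

theorem eq_of_close {L v v' : ℕ} (hL : 0 < L) (h1 : v < v' + L) (h2 : v' < v + L)
    (hp : v / L % 2 = v' / L % 2) (h3 : v % L * L + v / L < v' % L * L + v' / L + L)
    (h4 : v' % L * L + v' / L < v % L * L + v / L + L) : v = v' := by
  have e := Nat.div_add_mod' v L
  have e' := Nat.div_add_mod' v' L
  have a1 : v / L ≤ v' / L + 1 := row_le (b := v % L) (Nat.mod_lt v' hL) (by rw [e, e']; exact h1)
  have a2 : v' / L ≤ v / L + 1 := row_le (b := v' % L) (Nat.mod_lt v hL) (by rw [e, e']; exact h2)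
  have a3 : v / L = v' / L := by omega
  rw [a3] at h3 h4
  have a4 : v % L = v' % L := le_antisymm (col_le h3) (col_le h4)
  rw [← e, ← e', a3, a4]

/-- Number of break points up to `j`. -/
def cl (J : Finset ℕ) (j : ℕ) : ℕ := (J.filter (· ≤ j)).card

theorem cl_eq {J : Finset ℕ} {j j' : ℕ} (hj : j ≤ j') (h : cl J j = cl J j') {i : ℕ} (h1 : j < i)
    (h2 : i ≤ j') : i ∉ J := by
  intro hi
  have hs : J.filter (· ≤ j) = J.filter (· ≤ j') :=
    Finset.eq_of_subset_of_card_le
      (fun x hx => by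
        rw [Finset.mem_filter] at hx ⊢
        exact ⟨hx.1, hx.2.trans hj⟩) h.ge
  have : i ∈ J.filter (· ≤ j) := by rw [hs]; exact Finset.mem_filter.2 ⟨hi, h2⟩
  have := (Finset.mem_filter.1 this).2
  omega

theorem near_le {B H K : ℕ} (b₁ : ℕ → Prop) [DecidablePred b₁] (Jm : Finset ℕ)
    (hc : ∀ j, 0 < j → j < B → j ∉ Jm → (b₁ (j - 1) ↔ b₁ j))
    (hb : ((Finset.range B).filter b₁).card < K) {j j' : ℕ} (hj : j ≤ j') (hj' : j' < B)
    (h : cl (insert H Jm) j = cl (insert H Jm) j') (h1 : b₁ j) :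
    j' < j + K ∧ (j < H ↔ j' < H) := by
  have hno : ∀ i, j < i → i ≤ j' → i ≠ H ∧ i ∉ Jm := fun i a b => by
    simpa using cl_eq hj h a b
  have hall : ∀ i, j ≤ i → i ≤ j' → b₁ i := by
    intro i hi
    induction i, hi using Nat.le_induction with
    | base => exact fun _ => h1
    | succ i hi ih =>
      intro h2
      exact (hc (i + 1) (by omega) (by omega) (hno _ (by omega) h2).2).1 (ih (by omega))
  have hsub : Finset.Icc j j' ⊆ (Finset.range B).filter b₁ := by
    intro i hi
    rw [Finset.mem_Icc] at hi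
    exact Finset.mem_filter.2 ⟨Finset.mem_range.2 (by omega), hall i hi.1 hi.2⟩
  have hcard := Finset.card_le_card hsub
  rw [Nat.card_Icc] at hcard
  refine ⟨by omega, fun h3 => ?_, fun h3 => by omega⟩
  by_contra h4
  exact (hno H h3 (by omega)).1 rfl

theorem near {B H K : ℕ} (b₁ : ℕ → Prop) [DecidablePred b₁] (Jm : Finset ℕ)
    (hc : ∀ j, 0 < j → j < B → j ∉ Jm → (b₁ (j - 1) ↔ b₁ j))
    (hb : ((Finset.range B).filter b₁).card < K) {j j' : ℕ} (hj : j < B) (hj' : j' < B)
    (h : cl (insert H Jm) j = cl (insert H Jm) j') (h1 : b₁ j) (h2 : b₁ j') :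
    j' < j + K ∧ j < j' + K ∧ (j < H ↔ j' < H) := by
  rcases le_total j j' with hle | hle
  · obtain ⟨a, b⟩ := near_le b₁ Jm hc hb hle hj' h h1
    exact ⟨a, by omega, b⟩
  · obtain ⟨a, b⟩ := near_le b₁ Jm hc hb hle hj h.symm h2
    exact ⟨by omega, a, b.symm⟩

/-- Offset in the half. -/
def off (Q : Par) (j : ℕ) : ℕ := if j < Q.L ^ 2 then j else j - Q.L ^ 2

/-- The other position with the same grid point. -/
def par (Q : Par) (j : ℕ) : ℕ :=
  if j < Q.L ^ 2 then Q.L ^ 2 + Q.tr j else Q.tr (j - Q.L ^ 2)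

end SGrid

open SGrid in
/-- Let `cl j` be the number of elements of `insert (L ^ 2) Jm` that are `≤ j` (at most `w + 2`
values). Two positions with the same `cl`, one of them in `b₁`, lie in the same half, the whole interval
between them is in `b₁`, so they differ by less than `2 θ < L`. Send a position `j` with `b₂ j`, written
`j = v` or `j = L ^ 2 + v` with `v < L ^ 2`, whose grid point is not in `X`, to
`(cl j, cl (partner j), v / L % 2)`, the partner being `L ^ 2 + tr v` resp. `tr v` (it is in `b₁`).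
This is injective: the rows `v / L` differ by at most one and have the same parity, and then the
partners differ by a multiple of `L`. At most `2 * X.card` positions have their grid point in `X`. -/
theorem grid (Q : Par) {w : ℕ} (hL : 2 * theta w < Q.L) (b₁ b₂ : ℕ → Prop) [DecidablePred b₁]
    [DecidablePred b₂] (Jm X : Finset ℕ) (hJ : Jm.card ≤ w) (hX : X.card ≤ 6 * w)
    (h21 : ∀ j < Q.bl, b₂ j → b₁ j)
    (hc : ∀ j, 0 < j → j < Q.bl → j ∉ Jm → (b₁ (j - 1) ↔ b₁ j))
    (hb : ((Finset.range Q.bl).filter b₁).card ≤ 2 * theta w)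
    (hp : ∀ u < Q.L ^ 2, u ∉ X →
      (b₂ u → b₁ (Q.L ^ 2 + Q.tr u)) ∧ (b₂ (Q.L ^ 2 + Q.tr u) → b₁ u)) :
    ((Finset.range Q.bl).filter b₂).card ≤ theta w := by
  have hL0 : 0 < Q.L := by omega
  have hbl : Q.bl = 2 * Q.L ^ 2 := rfl
  have hb' : ((Finset.range Q.bl).filter b₁).card < Q.L := by omega
  have hpar : ∀ j < Q.bl, par Q j < Q.bl := by
    intro j hj
    unfold par
    split_ifs with h
    · have := Par.tr_lt h; omega
    · have := Par.tr_lt (Q := Q) (u := j - Q.L ^ 2) (by omega); omega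
  have hparb : ∀ j < Q.bl, b₂ j → Q.upos j ∉ X → b₁ (par Q j) := by
    intro j hj h2 hx
    unfold par
    unfold Par.upos at hx
    split_ifs at hx ⊢ with h
    · exact (hp j h hx).1 h2
    · have hv : j - Q.L ^ 2 < Q.L ^ 2 := by omega
      refine (hp _ (Par.tr_lt hv) hx).2 ?_
      rw [Par.tr_tr hv, show Q.L ^ 2 + (j - Q.L ^ 2) = j by omega]
      exact h2
  rw [← Finset.card_filter_add_card_filter_not (fun j => Q.upos j ∈ X)]
  have c1 : (((Finset.range Q.bl).filter b₂).filter fun j => Q.upos j ∈ X).card ≤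
      (X ×ˢ (Finset.univ : Finset Bool)).card := by
    refine Finset.card_le_card_of_injOn (fun j => (Q.upos j, decide (j < Q.L ^ 2))) ?_ ?_
    · intro j hj
      simp only [Finset.coe_filter, Set.mem_ofPred_eq] at hj
      exact Finset.mem_coe.2 (Finset.mem_product.2 ⟨hj.2, Finset.mem_univ _⟩)
    · intro j hj j' hj' h
      simp only [Finset.coe_filter, Set.mem_ofPred_eq, Finset.mem_filter, Finset.mem_range] at hj hj'
      simp only [Prod.mk.injEq, decide_eq_decide] at h
      obtain ⟨h1, h2⟩ := h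
      unfold Par.upos at h1
      by_cases h3 : j < Q.L ^ 2
      · rwa [if_pos h3, if_pos (h2.1 h3)] at h1
      · have h4 : ¬ j' < Q.L ^ 2 := fun h => h3 (h2.2 h)
        rw [if_neg h3, if_neg h4] at h1
        have := congrArg Q.tr h1
        rw [Par.tr_tr (by omega), Par.tr_tr (by omega)] at this
        omega
  have hcl : ∀ j, cl (insert (Q.L ^ 2) Jm) j < w + 2 := fun j =>
    lt_of_le_of_lt ((Finset.card_filter_le _ _).trans (Finset.card_insert_le _ _)) (by omega)
  have c2 : (((Finset.range Q.bl).filter b₂).filter fun j => ¬ Q.upos j ∈ X).card ≤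
      (Finset.range (w + 2) ×ˢ Finset.range (w + 2) ×ˢ Finset.range 2).card := by
    refine Finset.card_le_card_of_injOn (fun j => (cl (insert (Q.L ^ 2) Jm) j,
      cl (insert (Q.L ^ 2) Jm) (par Q j), off Q j / Q.L % 2)) ?_ ?_
    · intro j _
      simp only [Finset.coe_product, Set.mem_prod, Finset.coe_range, Set.mem_Iio]
      exact ⟨hcl _, hcl _, Nat.mod_lt _ (by omega)⟩
    · intro j hj j' hj' h
      simp only [Finset.coe_filter, Set.mem_ofPred_eq, Finset.mem_filter, Finset.mem_range] at hj hj'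
      simp only [Prod.mk.injEq] at h
      obtain ⟨h1, h2, h3⟩ := h
      obtain ⟨a1, a2, a3⟩ := near b₁ Jm hc hb' hj.1.1 hj'.1.1 h1 (h21 _ hj.1.1 hj.1.2)
        (h21 _ hj'.1.1 hj'.1.2)
      obtain ⟨a4, a5, _⟩ := near b₁ Jm hc hb' (hpar _ hj.1.1) (hpar _ hj'.1.1) h2
        (hparb _ hj.1.1 hj.1.2 hj.2) (hparb _ hj'.1.1 hj'.1.2 hj'.2)
      unfold par Par.tr at a4 a5
      unfold off at h3
      by_cases h4 : j < Q.L ^ 2
      · have h5 := a3.1 h4
        rw [if_pos h4, if_pos h5] at a4 a5 h3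
        exact eq_of_close hL0 a2 a1 h3 (by omega) (by omega)
      · have h5 : ¬ j' < Q.L ^ 2 := fun h => h4 (a3.2 h)
        rw [if_neg h4, if_neg h5] at a4 a5 h3
        have := eq_of_close hL0 (v := j - Q.L ^ 2) (v' := j' - Q.L ^ 2) (by omega) (by omega) h3
          a5 a4
        omega
  simp only [Finset.card_product, Finset.card_range, Finset.card_univ, Fintype.card_bool] at c1 c2
  unfold theta
  nlinarith

end Crest.Agent.R290
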