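import Crest.Agent.R290.SExc
import Crest.Agent.R290.SEta
import Crest.Agent.R290.SGrid

/-!
Row 290, task S-ADD: the invariant is closed under narrow sums.
-/

set_option autoImplicit false

namespace Crest.Agent.R290

namespace Par

variable {Q : Par} {M w : ℕ}

theorem Near.add {s : ℕ} {A B : Pv} {a b : ℕ} (h : Q.Near s A a) (h' : Q.Near s B b) :
    Q.Near s (A + B) (a + b) := by
  obtain ⟨ζ, h1, rfl, h3⟩ := h
  obtain ⟨ζ', h1', rfl, h3'⟩ := h'
  refine ⟨ζ + ζ', h1.add h1', by rw [map_add], ?_⟩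
  have := Nat.mul_le_mul_right Q.R (card_add_le ζ ζ')
  rw [Nat.add_mul] at this
  omega

theorem Near.mono {s : ℕ} {A : Pv} {a b : ℕ} (h : Q.Near s A a) (hab : a ≤ b) : Q.Near s A b := by
  obtain ⟨ζ, h1, h2, h3⟩ := h
  exact ⟨ζ, h1, h2, h3.trans hab⟩

theorem Hyp.theta_lt (H : Q.Hyp M w) : 2 * theta w < Q.bl := by
  have := H.hL
  have h2 : Q.L ≤ Q.L ^ 2 := Nat.le_self_pow (by norm_num) _
  unfold bl; omega

open Classical in
theorem inv_add (H : Q.Hyp M w) {F F' : Var →₀ ZMod 2} {c c' : ZMod 2} (h : Q.Inv w F c)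
    (h' : Q.Inv w F' c') (hF : F.support.card ≤ w) (hF' : F'.support.card ≤ w)
    (hs : (F + F').support.card ≤ w) : Q.Inv w (F + F') (c + c') := by
  obtain ⟨T1, t1, η1, hc1, hη1, hb1⟩ := h
  obtain ⟨T2, t2, η2, hc2, hη2, hb2⟩ := h'
  have hc := hc1.add hc2
  set T : ℕ → ℕ → Pv := fun π j => T1 π j + T2 π j with hT
  set η : ℕ → ℕ → Iv := fun s e => η1 s e + η2 s e with hη
  have hR := H.ok.R_pos
  have hwR := H.wR
  have hηb : ∀ s e, Q.Tr s (η s e) ∧ (η s e).support.card ≤ 472 := fun s e =>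
    ⟨(hη1 s e).1.add (hη2 s e).1, (card_add_le _ _).trans (by
      have := (hη1 s e).2; have := (hη2 s e).2; omega)⟩
  -- positions that are not good for the sum
  have hbad : ∀ π < Q.NP, ∀ l < 3, ((Finset.range Q.bl).filter fun j =>
      ¬ Q.Near (Q.psig π l) (T π (Q.bl * l + j)) (6 * Q.J F π + 6 * Q.J F' π)).card ≤
        2 * theta w := by
    intro π hπ l hl
    have e1 := hb1 π hπ l hl
    have e2 := hb2 π hπ l hl
    refine le_trans (Finset.card_le_card ?_) ((Finset.card_union_le _ _).trans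
      (le_trans (Nat.add_le_add e1 e2) (by omega)))
    intro j hj
    simp only [Finset.mem_filter, Finset.mem_union] at hj ⊢
    by_contra hcon
    push Not at hcon
    exact hj.2 ((hcon.1 hj.1).add (hcon.2 hj.1))
  -- reference values
  have hex : ∀ π l, ∃ ζ : Iv, π < Q.NP → l < 3 →
      (∃ j < Q.bl, T π (Q.bl * l + j) = Q.cmp ζ) ∧ Q.Tr (Q.psig π l) ζ ∧
        ζ.support.card * Q.R ≤ 6 * Q.J F π + 6 * Q.J F' π := by
    intro π l
    by_cases hπ : π < Q.NP
    · by_cases hl : l < 3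
      · have e := hbad π hπ l hl
        have : ∃ j ∈ Finset.range Q.bl,
            Q.Near (Q.psig π l) (T π (Q.bl * l + j)) (6 * Q.J F π + 6 * Q.J F' π) := by
          by_contra hcon
          push Not at hcon
          rw [Finset.filter_true_of_mem hcon, Finset.card_range] at e
          have := H.theta_lt
          omega
        obtain ⟨j, hj, ζ, h1, h2, h3⟩ := this
        exact ⟨ζ, fun _ _ => ⟨⟨j, Finset.mem_range.mp hj, h2⟩, h1, h3⟩⟩
      · exact ⟨0, fun _ h => (hl h).elim⟩
    · exact ⟨0, fun h => (hπ h).elim⟩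
  choose ζ hζ using hex
  have hrefs : Q.Refs T ζ := by
    refine ⟨fun π hπ l hl => (hζ π l hπ hl).1, fun π hπ l hl => (hζ π l hπ hl).2.1, fun l hl => ?_⟩
    have e1 : (∑ π ∈ Finset.range Q.NP, (ζ π l).support.card) * Q.R ≤
        ∑ π ∈ Finset.range Q.NP, (6 * Q.J F π + 6 * Q.J F' π) := by
      rw [Finset.sum_mul]
      exact Finset.sum_le_sum fun π hπ => (hζ π l (Finset.mem_range.mp hπ) hl).2.2
    rw [Finset.sum_add_distrib, ← Finset.mul_sum, ← Finset.mul_sum] at e1
    have e2 := Q.sum_J_le F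
    have e3 := Q.sum_J_le F'
    refine Nat.le_of_mul_le_mul_right (c := Q.R) ?_ hR
    omega
  refine ⟨_, _, _, hc.shift (zc_nonreg ζ), fun s e => ⟨(hηb s e).1.add (outs_tr hrefs s e),
    eta_small H hs hc hηb hrefs s e⟩, fun π hπ l hl => ?_⟩
  obtain ⟨X, hX, hXp⟩ := exc H hs hc hηb hrefs hπ hl
  have hJJ : 6 * Q.J F π + 6 * Q.J F' π ≤ 156 * Q.R := by
    have := Q.J_le F π
    have := Q.J_le F' π
    omega
  have hg := grid Q H.hL
    (fun j => ¬ Q.Near (Q.psig π l) (T π (Q.bl * l + j)) (6 * Q.J F π + 6 * Q.J F' π))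
    (fun j => ¬ Q.Near (Q.psig π l) (T π (Q.bl * l + j)) (785 * Q.R))
    ((Finset.range Q.bl).filter fun j => Fy (F + F') π (Q.bl * l + j) ≠ 0) X ?_ hX
    (fun j _ h1 h2 => h1 (h2.mono (by omega))) ?_ (hbad π hπ l hl) ?_
  · refine le_trans (Finset.card_le_card ?_) hg
    intro j hj
    simp only [Finset.mem_filter, Finset.mem_range] at hj ⊢
    exact ⟨hj.1, fun hn => hj.2 (near_shift H hc hrefs hπ hl hj.1 hn)⟩
  · refine le_trans ?_ ((Q.J_le (F + F') π).trans hs)
    unfold J
    calc _ = ∑ j ∈ (Finset.range Q.bl).filter (fun j => Fy (F + F') π (Q.bl * l + j) ≠ 0), 1 := by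
          simp
      _ ≤ ∑ j ∈ (Finset.range Q.bl).filter (fun j => Fy (F + F') π (Q.bl * l + j) ≠ 0),
            (Fy (F + F') π (Q.bl * l + j)).support.card := by
          refine Finset.sum_le_sum fun j hj => ?_
          exact Finset.card_pos.mpr (Finsupp.support_nonempty_iff.mpr (Finset.mem_filter.mp hj).2)
      _ ≤ ∑ j ∈ Finset.range Q.bl, (Fy (F + F') π (Q.bl * l + j)).support.card :=
          Finset.sum_le_sum_of_subset (Finset.filter_subset _ _)
      _ = ∑ j ∈ (Finset.range Q.bl).image (fun j => Q.bl * l + j),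
            (Fy (F + F') π j).support.card := by
          rw [Finset.sum_image (fun a _ b _ hab => Nat.add_left_cancel hab)]
      _ ≤ _ := by
          refine Finset.sum_le_sum_of_subset fun j hj => ?_
          obtain ⟨j', hj', rfl⟩ := Finset.mem_image.mp hj
          exact Finset.mem_range.mpr (pos_lt hl (Finset.mem_range.mp hj'))
  · intro j hj0 hj hjm
    have e0 : Fy (F + F') π (Q.bl * l + j) = 0 := by
      by_contra hne
      exact hjm (Finset.mem_filter.mpr ⟨Finset.mem_range.mpr hj, hne⟩)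
    have e1 := hc.y π hπ (Q.bl * l + j) (by omega) (pos_lt hl hj)
    rw [e0] at e1
    have e2 : T π (Q.bl * l + (j - 1)) = T π (Q.bl * l + j) := by
      have e3 : Q.bl * l + j - 1 = Q.bl * l + (j - 1) := by omega
      rw [e3] at e1
      have e4 := add_self_fs (T π (Q.bl * l + j))
      have e5 : T π (Q.bl * l + (j - 1)) + T π (Q.bl * l + j) =
          T π (Q.bl * l + j) + T π (Q.bl * l + j) := by rw [e4]; exact e1.symm
      exact add_right_cancel e5
    simp only [e2]
  · intro u hu huX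
    obtain ⟨ξ, h1, h2, h3⟩ := hXp u hu huX
    have hn : Q.Near (Q.psig π l) (Q.two T π l u) (629 * Q.R) :=
      ⟨ξ, h1, h3, Nat.mul_le_mul_right _ h2⟩
    constructor
    · intro hb hn'
      refine hb ?_
      have e := (hn.add hn').mono (b := 785 * Q.R) (by omega)
      have e2 : Q.two T π l u + T π (Q.bl * l + (Q.L ^ 2 + Q.tr u)) = T π (Q.bl * l + u) := by
        unfold two
        rw [add_assoc, add_self_fs, add_zero]
      rwa [e2] at e
    · intro hb hn'
      refine hb ?_
      have e := (hn.add hn').mono (b := 785 * Q.R) (by omega)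
      have e2 : Q.two T π l u + T π (Q.bl * l + u) = T π (Q.bl * l + (Q.L ^ 2 + Q.tr u)) := by
        unfold two
        rw [add_comm (T π (Q.bl * l + u)), add_assoc, add_self_fs, add_zero]
      rwa [e2] at e

end Par

end Crest.Agent.R290
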