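import Crest.Agent.R290.SDefs

/-!
Row 290, task S-BAS: linear algebra of certificates.
-/

set_option autoImplicit false

namespace Crest.Agent.R290

theorem Fx_add (F F' : Var →₀ ZMod 2) (s e : ℕ) : Fx (F + F') s e = Fx F s e + Fx F' s e := by
  ext α; simp

theorem Fy_add (F F' : Var →₀ ZMod 2) (π j : ℕ) : Fy (F + F') π j = Fy F π j + Fy F' π j := by
  ext α; simp

theorem add_self_fs {ι : Type} (A : ι →₀ ZMod 2) : A + A = 0 := by
  ext a; simp [CharTwo.add_self_eq_zero]

theorem card_add_le {ι : Type} (A B : ι →₀ ZMod 2) :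
    (A + B).support.card ≤ A.support.card + B.support.card := by
  classical
  exact (Finset.card_le_card Finsupp.support_add).trans (Finset.card_union_le _ _)

theorem card_sum_le {ι κ : Type} (s : Finset κ) (A : κ → ι →₀ ZMod 2) :
    (∑ k ∈ s, A k).support.card ≤ ∑ k ∈ s, (A k).support.card := by
  classical
  induction s using Finset.induction_on with
  | empty => simp
  | insert a s ha ih =>
    rw [Finset.sum_insert ha, Finset.sum_insert ha]
    exact (card_add_le _ _).trans (Nat.add_le_add_left ih _)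

theorem Fx_card_le (F : Var →₀ ZMod 2) (s e : ℕ) : (Fx F s e).support.card ≤ F.support.card := by
  refine Finset.card_le_card_of_injOn (fun α : ℕ × ℕ => Var.x s e α.1 α.2) ?_ ?_
  · intro α hα
    simpa using hα
  · intro α _ α' _ h
    simp only [Var.x.injEq, true_and] at h
    exact Prod.ext h.1 h.2

theorem sbas_sum_Fy_le (F : Var →₀ ZMod 2) (S : Finset (ℕ × ℕ)) :
    ∑ p ∈ S, (Fy F p.1 p.2).support.card ≤ F.support.card := by
  rw [← Finset.card_sigma]
  refine Finset.card_le_card_of_injOn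
    (fun q : Σ _ : ℕ × ℕ, ℕ × ℕ => Var.y q.1.1 q.1.2 q.2.1 q.2.2) ?_ ?_
  · intro q hq
    have := (Finset.mem_sigma.1 hq).2
    simpa using this
  · rintro ⟨⟨a, b⟩, ⟨c, d⟩⟩ _ ⟨⟨a', b'⟩, ⟨c', d'⟩⟩ _ h
    simp only [Var.y.injEq] at h
    obtain ⟨rfl, rfl, rfl, rfl⟩ := h
    rfl

theorem sbas_eq_of_add {ι : Type} {A B : ι →₀ ZMod 2} (h : A + B = 0) : A = B := by
  have : A = A + B + B := by rw [add_assoc, add_self_fs, add_zero]
  rw [this, h, zero_add]

namespace Par

variable {Q : Par} {F F' : Var →₀ ZMod 2} {c c' : ZMod 2} {T T' : ℕ → ℕ → Pv}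
  {t t' : ℕ → ℕ → ZMod 2} {η η' : ℕ → ℕ → Iv}

theorem Tr.add {s : ℕ} {ζ ζ' : Iv} (h : Q.Tr s ζ) (h' : Q.Tr s ζ') : Q.Tr s (ζ + ζ') := by
  classical
  intro m hm
  rcases Finset.mem_union.1 (Finsupp.support_add hm) with h1 | h1
  · exact h m h1
  · exact h' m h1

theorem Tr.zero (s : ℕ) : Q.Tr s 0 := by
  intro m hm
  simp at hm

theorem Tr.sum {s : ℕ} {κ : Type} (S : Finset κ) {ζ : κ → Iv} (h : ∀ k ∈ S, Q.Tr s (ζ k)) :
    Q.Tr s (∑ k ∈ S, ζ k) := by
  classical
  induction S using Finset.induction_on with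
  | empty => simpa using Tr.zero s
  | insert a S ha ih =>
    rw [Finset.sum_insert ha]
    exact (h a (Finset.mem_insert_self _ _)).add (ih fun k hk => h k (Finset.mem_insert_of_mem hk))

theorem om_add (π s e : ℕ) (A B : Pv) : Q.om π s e (A + B) = Q.om π s e A + Q.om π s e B := by
  unfold om
  split_ifs
  · exact Finsupp.mapDomain_add
  · exact Finsupp.filter_add
  · simp

theorem om_zero (π s e : ℕ) : Q.om π s e 0 = 0 := by
  unfold om
  split_ifs
  · exact Finsupp.mapDomain_zero
  · exact Finsupp.filter_zero _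
  · rfl

theorem om_card_le (π s e : ℕ) (A : Pv) : (Q.om π s e A).support.card ≤ A.support.card := by
  unfold om
  split_ifs
  · exact (Finset.card_le_card Finsupp.mapDomain_support).trans Finset.card_image_le
  · rw [Finsupp.support_filter]
    exact Finset.card_filter_le _ _
  · simp

theorem cmp_shift (d : ℕ) (ζ : Iv) :
    (Q.cmp ζ).mapDomain (Q.shf d) = Q.cmp (ζ.mapDomain (· + d)) := by
  induction ζ using Finsupp.induction_linear with
  | zero => simp
  | add f g hf hg => rw [map_add, Finsupp.mapDomain_add, Finsupp.mapDomain_add, map_add, hf, hg]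
  | single m a =>
    rw [Finsupp.mapDomain_single]
    unfold cmp
    rw [Finsupp.linearCombination_single, Finsupp.linearCombination_single, Finsupp.mapDomain_smul]
    congr 1
    unfold chi
    rw [Finsupp.mapDomain_finsetSum]
    refine Finset.sum_congr rfl fun i _ => ?_
    rw [Finsupp.mapDomain_single]
    simp [shf]

theorem chn_card_le (t : ℕ → ℕ → ZMod 2) (s e : ℕ) : (Q.chn t s e).support.card ≤ Q.R := by
  unfold chn
  split_ifs
  · refine (card_sum_le _ _).trans ?_
    refine (Finset.sum_le_card_nsmul _ _ 1 fun i _ => ?_).trans (by simp)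
    exact (Finset.card_le_card Finsupp.support_single_subset).trans (by simp)
  · simp

/-- The slices at different `(π, j)` use different variables. -/
theorem sum_J_le (F : Var →₀ ZMod 2) :
    ∑ π ∈ Finset.range Q.NP, Q.J F π ≤ F.support.card := by
  have := sbas_sum_Fy_le F (Finset.range Q.NP ×ˢ Finset.range Q.len)
  rwa [Finset.sum_product] at this

theorem J_le (F : Var →₀ ZMod 2) (π : ℕ) : Q.J F π ≤ F.support.card := by
  have := sbas_sum_Fy_le F ({π} ×ˢ Finset.range Q.len)
  rwa [Finset.sum_product, Finset.sum_singleton] at this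

theorem card_nonconst (F : Var →₀ ZMod 2) :
    ((Finset.range Q.NP).filter fun π => Q.J F π ≠ 0).card ≤ F.support.card := by
  refine le_trans ?_ (sum_J_le (Q := Q) F)
  rw [Finset.card_filter]
  refine Finset.sum_le_sum fun π _ => ?_
  split_ifs with h
  · omega
  · omega

theorem sbas_two_add (π l u : ℕ) :
    Q.two (fun π j => T π j + T' π j) π l u = Q.two T π l u + Q.two T' π l u := by
  unfold two
  exact add_add_add_comm _ _ _ _

theorem sbas_inb_add (s e : ℕ) :
    Q.inb (fun π j => T π j + T' π j) s e = Q.inb T s e + Q.inb T' s e := by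
  unfold inb
  simp only [← Finset.sum_add_distrib]
  refine Finset.sum_congr rfl fun π _ => Finset.sum_congr rfl fun l _ =>
    Finset.sum_congr rfl fun u _ => ?_
  split_ifs
  · exact sbas_two_add π l u
  · simp

theorem sbas_chn_add (s e : ℕ) :
    Q.chn (fun e i => t e i + t' e i) s e = Q.chn t s e + Q.chn t' s e := by
  unfold chn
  split_ifs
  · simp only [← Finset.sum_add_distrib, Finsupp.single_add]
  · simp

theorem Cert.add (h : Q.Cert F c T t η) (h' : Q.Cert F' c' T' t' η') :
    Q.Cert (F + F') (c + c') (fun π j => T π j + T' π j) (fun e i => t e i + t' e i)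
      (fun s e => η s e + η' s e) := by
  refine ⟨fun π hπ j h0 hj => ?_, fun e i h0 hi => ?_, fun s e => ?_, ?_⟩
  · rw [Fy_add, h.y π hπ j h0 hj, h'.y π hπ j h0 hj]; abel
  · rw [Finsupp.add_apply, h.z e i h0 hi, h'.z e i h0 hi]; abel
  · rw [Fx_add, h.x s e, h'.x s e, sbas_inb_add, sbas_chn_add, map_add]
    simp only [om_add, Finset.sum_add_distrib]
    abel
  · rw [h.c, h'.c]; rfl

theorem Cert.sbas_tel (h : Q.Cert F c T t η) {π j : ℕ} (hπ : π < Q.NP) (n : ℕ)
    (hj : j + n < Q.len) :
    T π j + T π (j + n) = ∑ i ∈ Finset.Ioc j (j + n), Fy F π i := by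
  induction n with
  | zero => simp [add_self_fs]
  | succ n ih =>
    rw [← add_assoc, Finset.sum_Ioc_succ_top (Nat.le_add_right j n), ← ih (by omega),
      h.y π hπ (j + n + 1) (by omega) (by omega), Nat.add_sub_cancel]
    rw [add_assoc (T π j), ← add_assoc (T π (j + n)), add_self_fs, zero_add]

/-- Telescoping along the path. -/
theorem Cert.diff (h : Q.Cert F c T t η) {π j j' : ℕ} (hπ : π < Q.NP) (hj : j < Q.len)
    (hj' : j' < Q.len) : (T π j + T π j').support.card ≤ Q.J F π := by
  have key : ∀ j j', j ≤ j' → j' < Q.len → (T π j + T π j').support.card ≤ Q.J F π := by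
    intro j j' hle hj'
    obtain ⟨n, rfl⟩ := Nat.exists_eq_add_of_le hle
    rw [h.sbas_tel hπ n hj']
    refine (card_sum_le _ _).trans (Finset.sum_le_sum_of_subset ?_)
    intro i hi
    rw [Finset.mem_Ioc] at hi
    rw [Finset.mem_range]; omega
  rcases le_total j j' with hle | hle
  · exact key j j' hle hj'
  · rw [add_comm]; exact key j' j hle hj

theorem Cert.const (h : Q.Cert F c T t η) {π j j' : ℕ} (hπ : π < Q.NP) (hJ : Q.J F π = 0)
    (hj : j < Q.len) (hj' : j' < Q.len) : T π j = T π j' := by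
  have := h.diff hπ hj hj'
  rw [hJ, Nat.le_zero, Finset.card_eq_zero, Finsupp.support_eq_empty] at this
  exact sbas_eq_of_add this

theorem pos_lt {l j : ℕ} (hl : l < 3) (hj : j < Q.bl) : Q.bl * l + j < Q.len := by
  unfold len
  nlinarith

theorem Cert.two_card_le (h : Q.Cert F c T t η) {π l u : ℕ} (hπ : π < Q.NP) (hl : l < 3)
    (hu : u < Q.L ^ 2) : (Q.two T π l u).support.card ≤ Q.J F π := by
  have h1 := Q.tr_lt hu
  exact h.diff hπ (pos_lt hl (by unfold bl; omega)) (pos_lt hl (by unfold bl; omega))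

/-- In every block at most one grid point carries the wire `e` (`wire_inj`). -/
theorem Cert.inb_card_le (h : Q.Cert F c T t η) (s e : ℕ) :
    (Q.inb T s e).support.card ≤ 3 * F.support.card := by
  unfold inb
  refine (card_sum_le _ _).trans ?_
  refine le_trans ?_ (Nat.mul_le_mul_left 3 (sum_J_le (Q := Q) F))
  rw [Finset.mul_sum]
  refine Finset.sum_le_sum fun π hπ => (card_sum_le _ _).trans ?_
  refine (Finset.sum_le_card_nsmul _ _ (Q.J F π) fun l hl => ?_).trans (by simp)
  rw [Finset.mem_range] at hπ hl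
  by_cases hex : ∃ u ∈ Finset.range (Q.L ^ 2), Q.psig π l = s ∧ Q.wire (3 * π + l) u = e
  · obtain ⟨u, hu, hue⟩ := hex
    rw [Finset.sum_eq_single u]
    · rw [if_pos hue]; exact h.two_card_le hπ hl (Finset.mem_range.1 hu)
    · intro u' hu' hne
      rw [if_neg]
      intro h'
      exact hne (wire_inj (Finset.mem_range.1 hu') (Finset.mem_range.1 hu) (h'.2.trans hue.2.symm))
    · intro h'; exact absurd hu h'
  · rw [Finset.sum_eq_zero]
    · simp
    · intro u hu
      rw [if_neg fun h' => hex ⟨u, hu, h'⟩]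

/-- Removing constants from regular paths: `two` does not change, the outputs move to `η`. -/
theorem Cert.shift (h : Q.Cert F c T t η) {ξ : ℕ → Iv} (hξ : ∀ π, ¬ Q.Reg π → ξ π = 0) :
    Q.Cert F c (fun π j => T π j + Q.cmp (ξ π)) t (fun s e => η s e + Q.outs ξ s e) := by
  refine ⟨fun π hπ j h0 hj => ?_, h.z, fun s e => ?_, ?_⟩
  · rw [h.y π hπ j h0 hj]
    have := add_self_fs (Q.cmp (ξ π))
    calc T π (j - 1) + T π j = T π (j - 1) + T π j + (Q.cmp (ξ π) + Q.cmp (ξ π)) := by
          rw [this, add_zero]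
      _ = _ := by abel
  · have h1 : Q.inb (fun π j => T π j + Q.cmp (ξ π)) s e = Q.inb T s e := by
      rw [sbas_inb_add (T' := fun π _ => Q.cmp (ξ π))]
      have : Q.inb (fun π _ => Q.cmp (ξ π)) s e = 0 := by
        unfold inb two
        simp [add_self_fs]
      rw [this, add_zero]
    have h2 : ∑ π ∈ Finset.range Q.NP, Q.om π s e (Q.cmp (ξ π)) = Q.cmp (Q.outs ξ s e) := by
      unfold outs
      rw [map_sum]
      refine Finset.sum_congr rfl fun π _ => ?_
      by_cases hR : Q.Reg π
      · unfold om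
        by_cases hc : Q.hd π = s ∧ Q.gw π = e
        · rw [if_pos ⟨hR.1, hc⟩, if_pos hR, if_pos ⟨hR, hc⟩, cmp_shift]
        · rw [if_neg fun h' => hc h'.2, if_neg fun h' => hc h'.2, map_zero]
      · rw [hξ π hR, map_zero, om_zero, if_neg fun h' => hR h'.1, map_zero]
    rw [h.x s e, h1, map_add]
    simp only [om_add, Finset.sum_add_distrib, h2]
    have := add_self_fs (Q.cmp (Q.outs ξ s e))
    calc _ = Q.cmp (η s e) + ∑ π ∈ Finset.range Q.NP, Q.om π s e (T π 0) + Q.inb T s e +
          Q.chn t s e + (Q.cmp (Q.outs ξ s e) + Q.cmp (Q.outs ξ s e)) := by rw [this, add_zero]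
      _ = _ := by abel
  · rw [h.c, hξ 0 (fun h' => h'.1 rfl), map_zero, add_zero]

variable {M w : ℕ}

theorem Hyp.tr_one (H : Q.Hyp M w) {ζ : Iv} (h : Q.Tr 1 ζ) : ζ = 0 := by
  rw [← Finsupp.support_eq_empty, Finset.eq_empty_iff_forall_notMem]
  intro m hm
  exact (H.rng 1 m (h m hm)).1 rfl

/-- `Spread` for a sum of two true sums (possibly for different signals). -/
theorem Hyp.spread2 (H : Q.Hyp M w) {s s' : ℕ} {ζ ζ' : Iv} (h : Q.Tr s ζ) (h' : Q.Tr s' ζ')
    (hc : ζ.support.card + ζ'.support.card ≤ 1000) :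
    (ζ + ζ').support.card * Q.R ≤ 2 * (Q.cmp ζ + Q.cmp ζ').support.card := by
  classical
  rw [← map_add]
  refine H.spr _ (fun m hm => ?_) ((card_add_le _ _).trans hc)
  rcases Finset.mem_union.1 (Finsupp.support_add hm) with h1 | h1
  · exact (H.rng _ _ (h m h1)).2
  · exact (H.rng _ _ (h' m h1)).2

end Par

end Crest.Agent.R290
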