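import Crest.Agent.R290.SysBasic
import Crest.Agent.R290.Primes

/-!
Row 290: certificates for the soundness proof. A derived equation `F = c` is written as a combination
of path steps (coefficient vectors `T π j`), chain links (coefficients `t e i`) and true facts
(`cmp (η s e)`), expressed slice by slice.
-/

set_option autoImplicit false

namespace Crest.Agent.R290

/-- Vectors of positions. -/
abbrev Pv : Type := (ℕ × ℕ) →₀ ZMod 2

/-- Formal sums of indices. -/
abbrev Iv : Type := ℕ →₀ ZMod 2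

/-- The slice of a form at the wire `(s, e)`. -/
noncomputable def Fx (F : Var →₀ ZMod 2) (s e : ℕ) : Pv :=
  F.comapDomain (fun α : ℕ × ℕ => Var.x s e α.1 α.2) (fun α _ α' _ h => by
    simp only [Var.x.injEq, true_and] at h; exact Prod.ext h.1 h.2)

/-- The slice of a form at position `j` of path `π`. -/
noncomputable def Fy (F : Var →₀ ZMod 2) (π j : ℕ) : Pv :=
  F.comapDomain (fun α : ℕ × ℕ => Var.y π j α.1 α.2) (fun α _ α' _ h => by
    simp only [Var.y.injEq, true_and] at h; exact Prod.ext h.1 h.2)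

@[simp] theorem Fx_apply (F : Var →₀ ZMod 2) (s e : ℕ) (α : ℕ × ℕ) :
    Fx F s e α = F (Var.x s e α.1 α.2) := rfl

@[simp] theorem Fy_apply (F : Var →₀ ZMod 2) (π j : ℕ) (α : ℕ × ℕ) :
    Fy F π j α = F (Var.y π j α.1 α.2) := rfl

namespace Par

variable (Q : Par)

/-- Number of partial-sum variables of path `π` in `F`. -/
noncomputable def J (F : Var →₀ ZMod 2) (π : ℕ) : ℕ :=
  ∑ j ∈ Finset.range Q.len, (Fy F π j).support.card

/-- Shift of positions. -/
def shf (d : ℕ) (α : ℕ × ℕ) : ℕ × ℕ := (α.1, (α.2 + d) % Q.md α.1)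

/-- Contribution of the first step of path `π`, taken with the vector `A`, to the wire `(s, e)`
through the output variable. -/
noncomputable def om (π s e : ℕ) (A : Pv) : Pv :=
  if π ≠ 0 ∧ Q.hd π = s ∧ Q.gw π = e then
    (if Q.Reg π then A.mapDomain (Q.shf (Q.rule π).sh) else A.filter fun α => α.1 = Q.pc π)
  else 0

/-- The two reads of grid point `u` in block `l` of path `π`. -/
noncomputable def two (T : ℕ → ℕ → Pv) (π l u : ℕ) : Pv :=
  T π (Q.bl * l + u) + T π (Q.bl * l + (Q.L ^ 2 + Q.tr u))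

/-- Contribution of the inputs of all paths to the wire `(s, e)`. -/
noncomputable def inb (T : ℕ → ℕ → Pv) (s e : ℕ) : Pv :=
  ∑ π ∈ Finset.range Q.NP, ∑ l ∈ Finset.range 3, ∑ u ∈ Finset.range (Q.L ^ 2),
    if Q.psig π l = s ∧ Q.wire (3 * π + l) u = e then Q.two T π l u else 0

/-- Contribution of the initial chain. -/
noncomputable def chn (t : ℕ → ℕ → ZMod 2) (s e : ℕ) : Pv :=
  if s = 0 then ∑ i ∈ Finset.range Q.R, Finsupp.single (i, 0) (t e i) else 0

/-- The linear conditions. -/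
structure Cert (F : Var →₀ ZMod 2) (c : ZMod 2) (T : ℕ → ℕ → Pv) (t : ℕ → ℕ → ZMod 2)
    (η : ℕ → ℕ → Iv) : Prop where
  y : ∀ π < Q.NP, ∀ j, 0 < j → j < Q.len → Fy F π j = T π (j - 1) + T π j
  z : ∀ e i, 0 < i → i < Q.R → F (Var.z e i) = t e (i - 1) + t e i
  x : ∀ s e, Fx F s e = Q.cmp (η s e) + ∑ π ∈ Finset.range Q.NP, Q.om π s e (T π 0) +
    Q.inb T s e + Q.chn t s e
  c : c = T 0 0 (0, 0)

/-- A formal sum of indices at which the signal `s` holds. -/
def Tr (s : ℕ) (ζ : Iv) : Prop := ∀ m ∈ ζ.support, Holds Q.P s m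

/-- `A` is the compression of a short sum of true indices (`weight * R ≤ b`). -/
def Near (s : ℕ) (A : Pv) (b : ℕ) : Prop :=
  ∃ ζ : Iv, Q.Tr s ζ ∧ A = Q.cmp ζ ∧ ζ.support.card * Q.R ≤ b

open Classical in
/-- The invariant of narrow derivations. -/
def Inv (w : ℕ) (F : Var →₀ ZMod 2) (c : ZMod 2) : Prop :=
  ∃ T t η, Q.Cert F c T t η ∧ (∀ s e, Q.Tr s (η s e) ∧ (η s e).support.card ≤ 236) ∧
    ∀ π < Q.NP, ∀ l < 3, ((Finset.range Q.bl).filter fun j =>
      ¬ Q.Near (Q.psig π l) (T π (Q.bl * l + j)) (6 * Q.J F π)).card ≤ theta w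

/-- Reference values: one position in every block where `T` is a short true sum. -/
structure Refs (T : ℕ → ℕ → Pv) (ζ : ℕ → ℕ → Iv) : Prop where
  pos : ∀ π < Q.NP, ∀ l < 3, ∃ j < Q.bl, T π (Q.bl * l + j) = Q.cmp (ζ π l)
  tr : ∀ π < Q.NP, ∀ l < 3, Q.Tr (Q.psig π l) (ζ π l)
  sum : ∀ l < 3, ∑ π ∈ Finset.range Q.NP, (ζ π l).support.card ≤ 156

open Classical in
/-- The common part of the three reference values of a regular path. -/
noncomputable def zc (ζ : ℕ → ℕ → Iv) (π : ℕ) : Iv :=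
  if Q.Reg π then (ζ π 0).filter fun m => m ∈ (ζ π 1).support ∧ m ∈ (ζ π 2).support else 0

/-- The facts produced when the constant `cmp (ξ π)` is removed from every regular path. -/
noncomputable def outs (ξ : ℕ → Iv) (s e : ℕ) : Iv :=
  ∑ π ∈ Finset.range Q.NP,
    if Q.Reg π ∧ Q.hd π = s ∧ Q.gw π = e then (ξ π).mapDomain (· + (Q.rule π).sh) else 0

/-- Standing hypotheses of the soundness proof. -/
structure Hyp (M w : ℕ) : Prop where
  ok : Q.Ok
  rng : ∀ s m, Holds Q.P s m → s ≠ 1 ∧ m < M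
  spr : Q.Spread M
  w3 : 3 ≤ w
  wR : w ≤ 13 * Q.R
  hL : 2 * theta w < Q.L

end Par

end Crest.Agent.R290
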