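import Crest.Agent.R290.SBas

/-!
Row 290, task S-EXC: for most grid points the two reads differ by a short true sum.
-/

set_option autoImplicit false

namespace Crest.Agent.R290

theorem exc_eq_of_add {ι : Type} {A B : ι →₀ ZMod 2} (h : A + B = 0) : A = B := by
  calc A = A + (B + B) := by rw [add_self_fs, add_zero]
    _ = B := by rw [← add_assoc, h, zero_add]

theorem exc_card_le {ι : Type} (S : Finset ℕ) (I : Finset ι) (R : ι → ℕ → Prop)
    (h1 : ∀ u ∈ S, ∃ i ∈ I, R i u) (h2 : ∀ i, ∀ u ∈ S, ∀ u' ∈ S, R i u → R i u' → u = u') :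
    S.card ≤ I.card := by
  classical
  choose f hf hf2 using fun u : S => h1 u u.2
  rw [← Finset.card_attach]
  refine Finset.card_le_card_of_injOn f (fun u _ => hf u) fun u _ u' _ h => ?_
  exact Subtype.ext (h2 (f u) u u.2 u' u'.2 (hf2 u) (h ▸ hf2 u'))

namespace Par

variable {Q : Par} {M w : ℕ} {F : Var →₀ ZMod 2} {c : ZMod 2} {T : ℕ → ℕ → Pv}
  {t : ℕ → ℕ → ZMod 2} {η : ℕ → ℕ → Iv} {ζ : ℕ → ℕ → Iv}

/-- A constant path: the three reference values agree (`spread2`, the compressions being equal), so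
for a regular path the rule fires at all their indices; for the other paths `ζ π 0 = 0` (`tr_one`). -/
theorem om_const (H : Q.Hyp M w) (h : Q.Cert F c T t η) (hζ : Q.Refs T ζ) {π : ℕ} (hπ : π < Q.NP)
    (hJ : Q.J F π = 0) (s e : ℕ) :
    ∃ ξ : Iv, Q.Tr s ξ ∧ ξ.support.card ≤ (ζ π 0).support.card ∧
      Q.om π s e (T π 0) = Q.cmp ξ := by
  have hT : ∀ l < 3, T π 0 = Q.cmp (ζ π l) := by
    intro l hl
    obtain ⟨j, hj, hj'⟩ := hζ.pos π hπ l hl
    have h1 := pos_lt (Q := Q) hl hj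
    rw [← hj']
    exact h.const hπ hJ (by omega) h1
  have hc : ∀ l < 3, (ζ π l).support.card ≤ 156 := fun l hl =>
    (Finset.single_le_sum (f := fun π => (ζ π l).support.card) (fun _ _ => Nat.zero_le _)
      (Finset.mem_range.2 hπ)).trans (hζ.sum l hl)
  have heq : ∀ l < 3, ζ π 0 = ζ π l := by
    intro l hl
    have h1 := H.spread2 (hζ.tr π hπ 0 (by omega)) (hζ.tr π hπ l hl)
      (by have := hc 0 (by omega); have := hc l hl; omega)
    rw [← hT 0 (by omega), ← hT l hl, add_self_fs] at h1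
    have h2 : (ζ π 0 + ζ π l).support.card = 0 := by
      have := H.ok.R_pos
      simp only [Finsupp.support_zero, Finset.card_empty, mul_zero, nonpos_iff_eq_zero,
        mul_eq_zero] at h1
      omega
    exact exc_eq_of_add (Finsupp.support_eq_empty.1 (Finset.card_eq_zero.1 h2))
  by_cases hR : Q.Reg π
  · by_cases hs : π ≠ 0 ∧ Q.hd π = s ∧ Q.gw π = e
    · refine ⟨(ζ π 0).mapDomain (· + (Q.rule π).sh), ?_, ?_, ?_⟩
      · intro m hm
        obtain ⟨m', hm', rfl⟩ := Finset.mem_image.1 (Finsupp.mapDomain_support hm)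
        have hh : ∀ l < 3, Holds Q.P ((Q.rule π).sig l) m' := by
          intro l hl
          have := hζ.tr π hπ l hl m' (by rw [← heq l hl]; exact hm')
          rwa [psig, if_pos hR] at this
        have h1 := Holds.rule (Q.rule π) m' (rule_mem hR) (hh 0 (by omega)) (hh 1 (by omega))
          (hh 2 (by omega))
        rw [← hs.2.1, hd, if_pos hR]
        exact h1
      · exact (Finset.card_le_card Finsupp.mapDomain_support).trans Finset.card_image_le
      · rw [om, if_pos hs, if_pos hR, hT 0 (by omega), cmp_shift]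
    · exact ⟨0, Tr.zero s, by simp, by rw [om, if_neg hs, map_zero]⟩
  · have h0 : ζ π 0 = 0 := H.tr_one (by
      have := hζ.tr π hπ 0 (by omega)
      rwa [psig, if_neg hR] at this)
    exact ⟨0, Tr.zero s, by simp, by rw [hT 0 (by omega), h0, map_zero, om_zero]⟩

/-- A chain without partial sums in `F` contributes `0` or `chi 0`. -/
theorem chn_const (h : Q.Cert F c T t η) {e : ℕ} (he : ∀ i, F (Var.z e i) = 0) (s : ℕ) :
    ∃ ξ : Iv, Q.Tr s ξ ∧ ξ.support.card ≤ 1 ∧ Q.chn t s e = Q.cmp ξ := by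
  have ht : ∀ i < Q.R, t e i = t e 0 := by
    intro i
    induction i with
    | zero => exact fun _ => rfl
    | succ i ih =>
      intro hi
      have h1 := h.z e (i + 1) (by omega) hi
      rw [he, Nat.add_sub_cancel, ih (by omega)] at h1
      have h2 : t e (i + 1) = t e 0 + (t e 0 + t e (i + 1)) := by
        rw [← add_assoc, CharTwo.add_self_eq_zero, zero_add]
      rw [h2, ← h1, add_zero]
  by_cases hs : s = 0
  · refine ⟨Finsupp.single 0 (t e 0), ?_, ?_, ?_⟩
    · intro m hm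
      rw [Finset.mem_singleton.1 (Finsupp.support_single_subset hm), hs]
      exact Holds.init
    · exact (Finset.card_le_card Finsupp.support_single_subset).trans (by simp)
    · rw [chn, if_pos hs, cmp, Finsupp.linearCombination_single, chi, Finset.smul_sum]
      refine Finset.sum_congr rfl fun i hi => ?_
      rw [ht i (Finset.mem_range.1 hi)]
      simp
  · exact ⟨0, Tr.zero s, by simp, by rw [chn, if_neg hs, map_zero]⟩

/-- Let `s = psig π l`, `e u = wire (3 π + l) u` (injective in `u`). `X` is the set of `u < L ^ 2` such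
that `Fx F s (e u) ≠ 0` (at most `w`), or `gw π' = e u` for a path with `J F π' ≠ 0` (at most `w`), or
`wire (3 π' + l') u = e u` for another block of a path with `J F π' ≠ 0` (at most `3 w`, `wire_meet`),
or `F (z (e u) i) ≠ 0` for some `i` (at most `w`). For `u ∉ X` read `Cert.x` at `(s, e u)`: in `inb` only
the term `(π, l, u)` survives. Weight `472 + 156 + 1`. -/
theorem exc (H : Q.Hyp M w) (hF : F.support.card ≤ w) (h : Q.Cert F c T t η)
    (hη : ∀ s e, Q.Tr s (η s e) ∧ (η s e).support.card ≤ 472) (hζ : Q.Refs T ζ) {π l : ℕ}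
    (hπ : π < Q.NP) (hl : l < 3) :
    ∃ X : Finset ℕ, X.card ≤ 6 * w ∧ ∀ u < Q.L ^ 2, u ∉ X →
      ∃ ξ : Iv, Q.Tr (Q.psig π l) ξ ∧ ξ.support.card ≤ 629 ∧ Q.two T π l u = Q.cmp ξ := by
  classical
  set s := Q.psig π l with hs
  set N := (Finset.range Q.NP).filter fun π' => Q.J F π' ≠ 0 with hN
  have hNc : N.card ≤ w := (card_nonconst F).trans hF
  set U := Finset.range (Q.L ^ 2) with hU
  set X1 := U.filter fun u => Fx F s (Q.wire (3 * π + l) u) ≠ 0 with hX1
  set X2 := U.filter fun u => ∃ π' ∈ N, Q.gw π' = Q.wire (3 * π + l) u with hX2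
  set X3 := U.filter fun u => ∃ p ∈ N ×ˢ Finset.range 3, 3 * p.1 + p.2 ≠ 3 * π + l ∧
    Q.wire (3 * p.1 + p.2) u = Q.wire (3 * π + l) u with hX3
  set X4 := U.filter fun u => ∃ i, F (Var.z (Q.wire (3 * π + l) u) i) ≠ 0 with hX4
  have hlt : ∀ {u : ℕ} {p : ℕ → Prop} [DecidablePred p], u ∈ U.filter p → u < Q.L ^ 2 :=
    fun hu => Finset.mem_range.1 (Finset.mem_filter.1 hu).1
  have c1 : X1.card ≤ w := by
    refine le_trans (exc_card_le X1 F.support
      (fun v u => ∃ α : ℕ × ℕ, v = Var.x s (Q.wire (3 * π + l) u) α.1 α.2) ?_ ?_) hF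
    · intro u hu
      obtain ⟨α, hα⟩ := Finsupp.ne_iff.1 (Finset.mem_filter.1 hu).2
      exact ⟨_, Finsupp.mem_support_iff.2 (by simpa using hα), α, rfl⟩
    · rintro v u hu u' hu' ⟨α, rfl⟩ ⟨α', h'⟩
      simp only [Var.x.injEq, true_and] at h'
      exact wire_inj (hlt hu) (hlt hu') h'.1
  have c2 : X2.card ≤ w := by
    refine le_trans (exc_card_le X2 N (fun π' u => Q.gw π' = Q.wire (3 * π + l) u) ?_ ?_) hNc
    · exact fun u hu => (Finset.mem_filter.1 hu).2
    · intro π' u hu u' hu' h1 h2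
      exact wire_inj (hlt hu) (hlt hu') (h1.symm.trans h2)
  have c3 : X3.card ≤ 3 * w := by
    refine le_trans (exc_card_le X3 (N ×ˢ Finset.range 3)
      (fun p u => 3 * p.1 + p.2 ≠ 3 * π + l ∧
        Q.wire (3 * p.1 + p.2) u = Q.wire (3 * π + l) u) ?_ ?_) ?_
    · exact fun u hu => (Finset.mem_filter.1 hu).2
    · intro p u hu u' hu' h1 h2
      exact wire_meet h1.1 (hlt hu) (hlt hu') h1.2 h2.2
    · rw [Finset.card_product, Finset.card_range]; omega
  have c4 : X4.card ≤ w := by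
    refine le_trans (exc_card_le X4 F.support
      (fun v u => ∃ i, v = Var.z (Q.wire (3 * π + l) u) i) ?_ ?_) hF
    · intro u hu
      obtain ⟨i, hi⟩ := (Finset.mem_filter.1 hu).2
      exact ⟨_, Finsupp.mem_support_iff.2 hi, i, rfl⟩
    · rintro v u hu u' hu' ⟨i, rfl⟩ ⟨i', h'⟩
      simp only [Var.z.injEq] at h'
      exact wire_inj (hlt hu) (hlt hu') h'.1
  refine ⟨X1 ∪ X2 ∪ X3 ∪ X4, ?_, fun u hu hX => ?_⟩
  · have a1 := Finset.card_union_le (X1 ∪ X2 ∪ X3) X4
    have a2 := Finset.card_union_le (X1 ∪ X2) X3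
    have a3 := Finset.card_union_le X1 X2
    omega
  have huU : u ∈ U := Finset.mem_range.2 hu
  simp only [Finset.mem_union, not_or] at hX
  obtain ⟨⟨⟨n1, n2⟩, n3⟩, n4⟩ := hX
  have e1 : Fx F s (Q.wire (3 * π + l) u) = 0 := by
    by_contra hne
    exact n1 (Finset.mem_filter.2 ⟨huU, hne⟩)
  have e2 : ∀ π' ∈ Finset.range Q.NP, ∃ ξ : Iv, Q.Tr s ξ ∧
      ξ.support.card ≤ (ζ π' 0).support.card ∧
      Q.om π' s (Q.wire (3 * π + l) u) (T π' 0) = Q.cmp ξ := by
    intro π' hπ'
    by_cases hJ : Q.J F π' = 0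
    · exact om_const H h hζ (Finset.mem_range.1 hπ') hJ s _
    · refine ⟨0, Tr.zero s, by simp, ?_⟩
      rw [om, if_neg, map_zero]
      rintro ⟨-, -, hg⟩
      exact n2 (Finset.mem_filter.2 ⟨huU, π', Finset.mem_filter.2 ⟨hπ', hJ⟩, hg⟩)
  choose! ξ hξ using e2
  have e3 : Q.inb T s (Q.wire (3 * π + l) u) = Q.two T π l u := by
    have key : ∀ π' ∈ Finset.range Q.NP, ∀ l' ∈ Finset.range 3, ∀ u' ∈ Finset.range (Q.L ^ 2),
        (π' ≠ π ∨ l' ≠ l ∨ u' ≠ u) →
        (if Q.psig π' l' = s ∧ Q.wire (3 * π' + l') u' = Q.wire (3 * π + l) u then Q.two T π' l' u'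
          else 0) = 0 := by
      intro π' hπ' l' hl' u' hu' hne
      split_ifs with hc
      · have hl3 := Finset.mem_range.1 hl'
        have huu : u' = u := wire_inj (Finset.mem_range.1 hu') hu hc.2
        subst huu
        have hb : 3 * π' + l' ≠ 3 * π + l := by omega
        have hJ : Q.J F π' = 0 := by
          by_contra hJ
          exact n3 (Finset.mem_filter.2 ⟨huU, (π', l'),
            Finset.mem_product.2 ⟨Finset.mem_filter.2 ⟨hπ', hJ⟩, hl'⟩, hb, hc.2⟩)
        have := h.two_card_le (Finset.mem_range.1 hπ') hl3 hu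
        rw [hJ] at this
        exact Finsupp.support_eq_empty.1 (Finset.card_eq_zero.1 (Nat.le_zero.1 this))
      · rfl
    rw [inb, Finset.sum_eq_single_of_mem π (Finset.mem_range.2 hπ), Finset.sum_eq_single_of_mem l
      (Finset.mem_range.2 hl), Finset.sum_eq_single_of_mem u (Finset.mem_range.2 hu),
      if_pos ⟨rfl, rfl⟩]
    · exact fun u' hu' hne => key π (Finset.mem_range.2 hπ) l (Finset.mem_range.2 hl) u' hu'
        (Or.inr (Or.inr hne))
    · exact fun l' hl' hne => Finset.sum_eq_zero fun u' hu' =>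
        key π (Finset.mem_range.2 hπ) l' hl' u' hu' (Or.inr (Or.inl hne))
    · exact fun π' hπ' hne => Finset.sum_eq_zero fun l' hl' => Finset.sum_eq_zero fun u' hu' =>
        key π' hπ' l' hl' u' hu' (Or.inl hne)
  obtain ⟨ξc, t4, k4, e4⟩ := chn_const h (e := Q.wire (3 * π + l) u) (fun i => by
    by_contra hne
    exact n4 (Finset.mem_filter.2 ⟨huU, i, hne⟩)) s
  have hx := h.x s (Q.wire (3 * π + l) u)
  rw [e1, e3, e4, Finset.sum_congr rfl fun π' hπ' => (hξ π' hπ').2.2, ← map_sum] at hx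
  refine ⟨η s (Q.wire (3 * π + l) u) + ∑ π' ∈ Finset.range Q.NP, ξ π' + ξc,
    ((hη _ _).1.add (Tr.sum _ fun π' hπ' => (hξ π' hπ').1)).add t4, ?_, ?_⟩
  · have a1 := card_add_le (η s (Q.wire (3 * π + l) u) + ∑ π' ∈ Finset.range Q.NP, ξ π') ξc
    have a2 := card_add_le (η s (Q.wire (3 * π + l) u)) (∑ π' ∈ Finset.range Q.NP, ξ π')
    have a3 := (card_sum_le (Finset.range Q.NP) ξ).trans
      ((Finset.sum_le_sum fun π' hπ' => (hξ π' hπ').2.1).trans (hζ.sum 0 (by omega)))
    have a4 := (hη s (Q.wire (3 * π + l) u)).2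
    omega
  · refine exc_eq_of_add ?_
    rw [map_add, map_add, hx]
    abel

end Par

end Crest.Agent.R290
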