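import Crest.Agent.R290.Lin

/-!
Row 290, task SYB: basic facts on the compressed system.
-/

set_option autoImplicit false

namespace Crest.Agent.R290

namespace Par

variable {Q : Par}

theorem mem_sys {tw : Bool} {q : Eqn Var} : q ∈ Q.sys tw ↔ q = (.o, .o, .o, false) ∨
    (∃ e < Q.mu, ∃ i < Q.R, q = Q.link e i) ∨
    ∃ π < Q.NP, ∃ j < Q.len, ∃ i < Q.R, ∃ r < Q.md i, q = Q.step tw π j i r := by
  simp only [sys, List.mem_cons, List.mem_append, List.mem_flatMap, List.mem_map, List.mem_range,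
    eq_comm (a := q)]

theorem hom_sys (tw : Bool) : hom (Q.sys tw) = Q.sys false := by
  simp only [hom, sys, List.map_cons, List.map_append, List.map_flatMap, List.map_map]
  rfl

theorem length_sys_le {X : ℕ} (hX : ∀ i < Q.R, Q.md i ≤ X) (tw : Bool) :
    (Q.sys tw).length ≤ 1 + Q.mu * Q.R + Q.NP * Q.len * Q.R * X := by
  have key : ∀ {α : Type} (n b : ℕ) (f : ℕ → List α), (∀ i < n, (f i).length ≤ b) →
      ((List.range n).flatMap f).length ≤ n * b := by
    intro α n b f h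
    induction n with
    | zero => simp
    | succ n ih =>
      rw [List.range_succ, List.flatMap_append, List.length_append, Nat.succ_mul]
      have := ih fun i hi => h i (by omega)
      have := h n (by omega)
      simp only [List.flatMap_cons, List.flatMap_nil, List.append_nil]
      omega
  have h1 := key Q.mu Q.R (fun e => (List.range Q.R).map fun i => Q.link e i) (by simp)
  have h2 := key Q.NP (Q.len * (Q.R * X)) (fun π => (List.range Q.len).flatMap fun j =>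
    (List.range Q.R).flatMap fun i => (List.range (Q.md i)).map fun r => Q.step tw π j i r)
    (fun π _ => key _ _ _ fun j _ => key _ _ _ fun i hi => by simpa using hX i hi)
  rw [sys, List.length_cons, List.length_append, mul_assoc, mul_assoc]
  omega

theorem tr_lt {u : ℕ} (hu : u < Q.L ^ 2) : Q.tr u < Q.L ^ 2 := by
  have hL : 0 < Q.L := Nat.pos_of_ne_zero (by rintro h; simp [h] at hu)
  have h1 : u / Q.L < Q.L := Nat.div_lt_of_lt_mul (by rwa [sq] at hu)
  have h2 : (u % Q.L + 1) * Q.L ≤ Q.L * Q.L := Nat.mul_le_mul_right _ (Nat.mod_lt u hL)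
  rw [add_mul] at h2
  rw [tr, sq]
  omega

theorem tr_tr {u : ℕ} (hu : u < Q.L ^ 2) : Q.tr (Q.tr u) = u := by
  have hL : 0 < Q.L := Nat.pos_of_ne_zero (by rintro h; simp [h] at hu)
  have h1 : u / Q.L < Q.L := Nat.div_lt_of_lt_mul (by rwa [sq] at hu)
  have e1 : (u % Q.L * Q.L + u / Q.L) % Q.L = u / Q.L := by
    rw [Nat.mul_add_mod_of_lt h1]
  have e2 : (u % Q.L * Q.L + u / Q.L) / Q.L = u % Q.L := by
    rw [add_comm, Nat.add_mul_div_right _ _ hL, Nat.div_eq_of_lt h1, zero_add]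
  rw [tr, tr, e1, e2, Nat.div_add_mod']

theorem upos_lt {j : ℕ} (hj : j < Q.bl) : Q.upos j < Q.L ^ 2 := by
  unfold upos
  split_ifs with h
  · exact h
  · exact tr_lt (by unfold bl at hj; omega)

theorem upos_left {u : ℕ} (hu : u < Q.L ^ 2) : Q.upos u = u := by
  exact if_pos hu

theorem upos_right {u : ℕ} (hu : u < Q.L ^ 2) : Q.upos (Q.L ^ 2 + Q.tr u) = u := by
  rw [upos, if_neg (by omega), Nat.add_sub_cancel_left, tr_tr hu]

theorem wire_mod {β u : ℕ} (hu : u < Q.L ^ 2) : Q.wire β u % Q.L ^ 2 = u := by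
  rw [wire, Nat.add_mul_mod_self_left, Nat.mod_eq_of_lt hu]

theorem wire_inj {β β' u u' : ℕ} (hu : u < Q.L ^ 2) (hu' : u' < Q.L ^ 2)
    (h : Q.wire β u = Q.wire β' u') : u = u' := by
  rw [← wire_mod (β := β) hu, h, wire_mod hu']

/-- Two different blocks share at most one wire (two lines meet in at most one point). -/
theorem wire_meet {β β' u u' : ℕ} (hβ : β ≠ β') (hu : u < Q.L ^ 2) (hu' : u' < Q.L ^ 2)
    (h : Q.wire β u = Q.wire β' u) (h' : Q.wire β u' = Q.wire β' u') : u = u' := by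
  have hL : 0 < Q.L ^ 2 := by omega
  unfold wire at h h'
  have e1 := Nat.eq_of_mul_eq_mul_left hL (Nat.add_left_cancel h)
  have e2 := Nat.eq_of_mul_eq_mul_left hL (Nat.add_left_cancel h')
  have hne : β / Q.A ≠ β' / Q.A := by
    intro hd
    rw [hd] at e1
    exact hβ (by rw [← Nat.div_add_mod β Q.A, ← Nat.div_add_mod β' Q.A, hd,
      Nat.add_right_cancel e1])
  have hz : ((β / Q.A : ℕ) - (β' / Q.A : ℕ) : ℤ) * ((u : ℤ) - u') = 0 := by
    have e1' := congrArg (Nat.cast : ℕ → ℤ) e1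
    have e2' := congrArg (Nat.cast : ℕ → ℤ) e2
    simp only [Nat.cast_add, Nat.cast_mul] at e1' e2'
    linear_combination e1' - e2'
  rcases mul_eq_zero.1 hz with h0 | h0
  · exact absurd (by exact_mod_cast sub_eq_zero.1 h0) hne
  · exact_mod_cast sub_eq_zero.1 h0

/-- `3 π + l < 3 NP ≤ A * A`, so both line parameters are below `A`. -/
theorem wire_lt {π l u : ℕ} (hπ : π < Q.NP) (hl : l < 3) (hu : u < Q.L ^ 2) :
    Q.wire (3 * π + l) u < Q.mu := by
  have hA : Q.A = 3 * (Q.P.length + Q.S * Q.R) * Q.L ^ 4 + 3 := rfl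
  have hA0 : 0 < Q.A := by omega
  have h1 : 3 * π + l < Q.A * Q.A := by
    have e : Q.A * Q.A = 3 * ((Q.P.length + Q.S * Q.R) * Q.mu) + 3 * Q.A := by
      rw [mu]
      nth_rewrite 1 [hA]
      ring
    unfold NP at hπ
    omega
  obtain ⟨a, ha⟩ := Nat.exists_eq_add_of_lt (Nat.div_lt_of_lt_mul h1)
  obtain ⟨b, hb⟩ := Nat.exists_eq_add_of_lt (Nat.mod_lt (3 * π + l) hA0)
  obtain ⟨c, hc⟩ := Nat.exists_eq_add_of_lt hu
  have e4 : Q.L ^ 4 = Q.L ^ 2 * Q.L ^ 2 := by ring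
  rw [wire, mu, e4]
  generalize (3 * π + l) / Q.A = x at *
  generalize (3 * π + l) % Q.A = y at *
  generalize Q.L ^ 2 = K at *
  have h2 : y + x * u + 1 ≤ K * Q.A := by
    have h3 : x * u ≤ Q.A * u := Nat.mul_le_mul_right _ (by omega)
    have h4 : Q.A * (u + 1) ≤ Q.A * K := Nat.mul_le_mul_left _ (by omega)
    rw [mul_add] at h4
    rw [mul_comm K]
    omega
  have h5 := Nat.mul_le_mul_left K h2
  rw [mul_add K _ 1, ← mul_assoc] at h5
  omega

theorem mu_pos (hQ : Q.Ok) : 0 < Q.mu := by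
  have := hQ.L_pos
  unfold mu A
  positivity

theorem gw_lt (hQ : Q.Ok) (π : ℕ) : Q.gw π < Q.mu := by
  exact Nat.mod_lt _ (mu_pos hQ)

theorem rule_mem {π : ℕ} (h : Q.Reg π) : Q.rule π ∈ Q.P := by
  have : Q.rule π = Q.P[Q.ridx π]'h.2 := by simp [rule, List.getD_eq_getElem?_getD, h.2]
  rw [this]
  exact List.getElem_mem _

theorem psig_lt (hQ : Q.Ok) (π l : ℕ) : Q.psig π l < Q.S := by
  unfold psig
  split_ifs with h
  · exact (hQ.bdd _ (rule_mem h)).2 l
  · have := hQ.two; omega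

theorem hd_lt (hQ : Q.Ok) {π : ℕ} (hπ : π < Q.NP) (h0 : π ≠ 0) : Q.hd π < Q.S := by
  unfold hd
  split_ifs with h
  · exact (hQ.bdd _ (rule_mem h)).1
  · have h1 : Q.ridx π < Q.P.length + Q.S * Q.R :=
      Nat.div_lt_of_lt_mul (by unfold NP at hπ; rw [mul_comm]; omega)
    have h2 : 0 < Q.S * Q.R := Nat.mul_pos (by have := hQ.two; omega) hQ.R_pos
    exact Nat.div_lt_of_lt_mul (by rw [mul_comm]; omega)

theorem idx_spec (hQ : Q.Ok) {k g : ℕ} (hk : k < Q.P.length + Q.S * Q.R) (hg : g < Q.mu) :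
    k * Q.mu + g + 1 < Q.NP ∧ Q.ridx (k * Q.mu + g + 1) = k ∧ Q.gw (k * Q.mu + g + 1) = g := by
  refine ⟨?_, ?_, ?_⟩
  · have : (k + 1) * Q.mu ≤ (Q.P.length + Q.S * Q.R) * Q.mu := Nat.mul_le_mul_right _ hk
    rw [add_mul] at this
    unfold NP
    omega
  · rw [ridx, Nat.add_sub_cancel, add_comm, Nat.add_mul_div_right _ _ (mu_pos hQ),
      Nat.div_eq_of_lt hg, zero_add]
  · rw [gw, Nat.add_sub_cancel, Nat.mul_add_mod_of_lt hg]

/-- The path of a rule and an output wire. -/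
theorem exists_reg (hQ : Q.Ok) {ρ : Rule} (hρ : ρ ∈ Q.P) {g : ℕ} (hg : g < Q.mu) :
    ∃ π < Q.NP, Q.Reg π ∧ Q.rule π = ρ ∧ Q.gw π = g := by
  obtain ⟨k, hk, rfl⟩ := List.getElem_of_mem hρ
  obtain ⟨h1, h2, h3⟩ := idx_spec hQ (k := k) (by omega) hg
  refine ⟨_, h1, ⟨by omega, by rw [h2]; exact hk⟩, ?_, h3⟩
  simp [rule, h2, List.getD_eq_getElem?_getD, hk]

/-- The projection path of a signal, a coordinate and an output wire. -/
theorem exists_proj (hQ : Q.Ok) {s i g : ℕ} (hs : s < Q.S) (hi : i < Q.R) (hg : g < Q.mu) :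
    ∃ π < Q.NP, π ≠ 0 ∧ ¬ Q.Reg π ∧ Q.hd π = s ∧ Q.pc π = i ∧ Q.gw π = g := by
  have hk : s * Q.R + i < Q.S * Q.R := by
    have : (s + 1) * Q.R ≤ Q.S * Q.R := Nat.mul_le_mul_right _ hs
    rw [add_mul] at this
    omega
  obtain ⟨h1, h2, h3⟩ := idx_spec hQ (k := Q.P.length + (s * Q.R + i)) (by omega) hg
  have hn : ¬ Q.Reg ((Q.P.length + (s * Q.R + i)) * Q.mu + g + 1) := fun h => by
    have := h.2
    omega
  refine ⟨_, h1, by omega, hn, ?_, ?_, h3⟩
  · rw [hd, if_neg hn, h2, Nat.add_sub_cancel_left, add_comm, Nat.add_mul_div_right _ _ hQ.R_pos,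
      Nat.div_eq_of_lt hi, zero_add]
  · rw [pc, h2, Nat.add_sub_cancel_left, Nat.mul_add_mod_of_lt hi]

/-- A sum over the positions of a path, block by block and grid point by grid point. -/
theorem sum_len {M : Type} [AddCommMonoid M] (f : ℕ → M) :
    ∑ j ∈ Finset.range Q.len, f j = ∑ l ∈ Finset.range 3, ∑ u ∈ Finset.range (Q.L ^ 2),
      (f (Q.bl * l + u) + f (Q.bl * l + (Q.L ^ 2 + Q.tr u))) := by
  have key : ∀ g : ℕ → M, ∑ j ∈ Finset.range Q.bl, g j =
      ∑ u ∈ Finset.range (Q.L ^ 2), (g u + g (Q.L ^ 2 + Q.tr u)) := by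
    intro g
    rw [bl, two_mul, Finset.sum_range_add, Finset.sum_add_distrib]
    congr 1
    refine Finset.sum_nbij' Q.tr Q.tr ?_ ?_ ?_ ?_ ?_
    · intro u hu; exact Finset.mem_range.2 (tr_lt (Finset.mem_range.1 hu))
    · intro u hu; exact Finset.mem_range.2 (tr_lt (Finset.mem_range.1 hu))
    · intro u hu; exact tr_tr (Finset.mem_range.1 hu)
    · intro u hu; exact tr_tr (Finset.mem_range.1 hu)
    · intro u hu; rw [tr_tr (Finset.mem_range.1 hu)]
  have e : Q.len = Q.bl * 1 + Q.bl + Q.bl := by unfold len; ring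
  have e2 : Q.bl * 1 + Q.bl = Q.bl * 2 := by ring
  rw [e, Finset.sum_range_add, Finset.sum_range_add, e2, Finset.sum_range_succ,
    Finset.sum_range_succ, Finset.sum_range_one, ← key fun j => f (Q.bl * 0 + j),
    ← key fun j => f (Q.bl * 1 + j), ← key fun j => f (Q.bl * 2 + j)]
  simp

theorem inp_left {π l u i r : ℕ} (hu : u < Q.L ^ 2) :
    Q.inp π (Q.bl * l + u) i r = .x (Q.psig π l) (Q.wire (3 * π + l) u) i r := by
  have h : u < Q.bl := by unfold bl; omega
  rw [inp, Nat.mul_add_div (by omega), Nat.div_eq_of_lt h, add_zero, Nat.mul_add_mod,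
    Nat.mod_eq_of_lt h, upos_left hu]

theorem inp_right {π l u i r : ℕ} (hu : u < Q.L ^ 2) :
    Q.inp π (Q.bl * l + (Q.L ^ 2 + Q.tr u)) i r = .x (Q.psig π l) (Q.wire (3 * π + l) u) i r := by
  have h : Q.L ^ 2 + Q.tr u < Q.bl := by have := tr_lt hu; unfold bl; omega
  rw [inp, Nat.mul_add_div (by omega), Nat.div_eq_of_lt h, add_zero, Nat.mul_add_mod,
    Nat.mod_eq_of_lt h, upos_right hu]

end Par

end Crest.Agent.R290
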