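import Crest.Agent.R290.Defs

/-!
Row 290, task TAB: signals, rules and numbering of the computation table.
-/

set_option autoImplicit false

namespace Crest.Agent.R290.Tab

open Crest.Agent.PT Crest.Agent.QC Crest.Agent.R317

/-- Signals of the table. -/
inductive Sg (L K : Type) : Type
  | start
  | acc
  | z
  | pz
  | mid
  | en
  | row0
  | lab (o : Option L)
  | sym (k : Option K) (o : Option Bool)

/-- Numbering of the signals. -/
def num {L K : Type} (e : Option L ⊕ (K × Option Bool) → ℕ) : Sg L K → ℕ
  | .start => 0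
  | .acc => 1
  | .z => 2
  | .pz => 3
  | .mid => 4
  | .en => 5
  | .row0 => 6
  | .lab o => 10 + e (.inl o)
  | .sym none none => 7
  | .sym none (some false) => 8
  | .sym none (some true) => 9
  | .sym (some k) o => 10 + e (.inr (k, o))

theorem num_inj {L K : Type} {e : Option L ⊕ (K × Option Bool) → ℕ} (he : Function.Injective e) :
    Function.Injective (num e) := by
  intro a b h
  rcases a with _ | _ | _ | _ | _ | _ | _ | o | ⟨_ | k, _ | _ | _⟩ <;>
    rcases b with _ | _ | _ | _ | _ | _ | _ | o' | ⟨_ | k', _ | _ | _⟩ <;>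
    simp only [num] at h <;>
    first
      | rfl
      | omega
      | (have h' := he (Nat.add_left_cancel h); simp_all)

theorem num_lt {L K : Type} {e : Option L ⊕ (K × Option Bool) → ℕ} {N : ℕ} (he : ∀ a, e a < N)
    (g : Sg L K) : num e g < 10 + N := by
  rcases g with _ | _ | _ | _ | _ | _ | _ | o | ⟨_ | k, _ | _ | _⟩ <;> simp only [num] <;>
    first
      | omega
      | exact Nat.add_lt_add_left (he _) _

/-- The register touched by an instruction. -/
def reg {K L : Type} : Instr K L → K
  | .push k _ _ => k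
  | .pop k _ => k

variable {τ : Type}

/-- The tagged rules, on signals. -/
inductive IsRule (M : Mach (Option τ)) :
    Sg M.L τ → Sg M.L τ → Sg M.L τ → Sg M.L τ → ℕ → Prop
  | blank (k : τ) : IsRule M (.sym (some k) none) .row0 .row0 .row0 0
  | entry : IsRule M (.lab M.entry) .start .start .start 0
  | labmid (o : Option M.L) : IsRule M (.lab o) (.lab o) .mid .mid 1
  | acc0 : IsRule M .acc (.lab none) .z (.sym none (some true)) 0
  | acc1 : IsRule M .acc .acc .acc .acc 1
  | mid (l : M.L) : IsRule M .mid (.lab (some l)) (.lab (some l)) (.lab (some l)) 3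
  | pz (l : M.L) : IsRule M .pz (.lab (some l)) (.lab (some l)) (.lab (some l)) 4
  | z (l : M.L) : IsRule M .z (.lab (some l)) .z .z 3
  | en (l : M.L) : IsRule M .en (.lab (some l)) .en .en 4
  | symEnd (l : M.L) (k : Option τ) : IsRule M (.sym k none) (.lab (some l)) .en .en 4
  | keep (l : M.L) (k : Option τ) (o : Option Bool) : k ≠ reg (M.prog l) →
      IsRule M (.sym k o) (.lab (some l)) (.sym k o) (.sym k o) 3
  | push0 (l : M.L) (k : Option τ) (b : Bool) (nx : Option M.L) : M.prog l = .push k b nx →
      IsRule M (.sym k (some b)) (.lab (some l)) .z .z 3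
  | push1 (l : M.L) (k : Option τ) (b : Bool) (nx : Option M.L) (o : Option Bool) :
      M.prog l = .push k b nx → IsRule M (.sym k o) (.lab (some l)) (.sym k o) (.sym k o) 4
  | pushL (l : M.L) (k : Option τ) (b : Bool) (nx : Option M.L) : M.prog l = .push k b nx →
      IsRule M (.lab nx) (.lab (some l)) .z .z 3
  | pop0 (l : M.L) (k : Option τ) (nx : Option Bool → Option M.L) (o : Option Bool) :
      M.prog l = .pop k nx → IsRule M (.sym k o) (.lab (some l)) (.sym k o) .pz 2
  | pop1 (l : M.L) (k : Option τ) (nx : Option Bool → Option M.L) :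
      M.prog l = .pop k nx → IsRule M (.sym k none) (.lab (some l)) .en .en 3
  | popL (l : M.L) (k : Option τ) (nx : Option Bool → Option M.L) (o : Option Bool) :
      M.prog l = .pop k nx → IsRule M (.lab (nx o)) (.lab (some l)) .z (.sym k o) 3

theorem IsRule.tag_lt {M : Mach (Option τ)} {h a b c : Sg M.L τ} {d : ℕ} (H : IsRule M h a b c d) :
    d < 5 := by
  cases H <;> omega

/-- A list of all the numbered rules exists. -/
theorem exists_list (M : Mach (Option τ)) (e : Option M.L ⊕ (τ × Option Bool) → ℕ) (N : ℕ)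
    (he : ∀ a, e a < N) : ∃ R : List TRule, ∀ ρ, ρ ∈ R ↔
      ∃ h a b c d, IsRule M h a b c d ∧ ρ = (num e h, num e a, num e b, num e c, d) := by
  have hfin : Set.Finite {ρ : TRule | ∃ h a b c d, IsRule M h a b c d ∧
      ρ = (num e h, num e a, num e b, num e c, d)} := by
    refine Set.Finite.subset
      ((Set.finite_Iio (10 + N)).prod ((Set.finite_Iio (10 + N)).prod
        ((Set.finite_Iio (10 + N)).prod ((Set.finite_Iio (10 + N)).prod (Set.finite_Iio 5))))) ?_
    rintro ρ ⟨h, a, b, c, d, H, rfl⟩
    exact ⟨num_lt he h, num_lt he a, num_lt he b, num_lt he c, H.tag_lt⟩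
  refine ⟨hfin.toFinset.toList, fun ρ => ?_⟩
  rw [Finset.mem_toList, Set.Finite.mem_toFinset]
  rfl

/-- The configuration at time `t`. -/
noncomputable def cfg (M : Mach (Option τ)) (x : List Bool) (t : ℕ) :
    Option M.L × (Option τ → List Bool) := M.step^[t] (M.entry, st x)

theorem cfg_zero (M : Mach (Option τ)) (x : List Bool) : cfg M x 0 = (M.entry, st x) := rfl

theorem cfg_succ (M : Mach (Option τ)) (x : List Bool) (t : ℕ) :
    cfg M x (t + 1) = M.step (cfg M x t) := by
  unfold cfg; rw [Function.iterate_succ_apply']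

theorem cfg_succ_some (M : Mach (Option τ)) (x : List Bool) (t : ℕ) {l : M.L}
    (h : (cfg M x t).1 = some l) : cfg M x (t + 1) = (M.prog l).exec (cfg M x t).2 := by
  rw [cfg_succ]
  generalize cfg M x t = c at h ⊢
  obtain ⟨o, S⟩ := c
  simp only at h
  subst h
  rfl

theorem cfg_stay (M : Mach (Option τ)) (x : List Bool) {t t' : ℕ} (h : (cfg M x t).1 = none)
    (ht : t ≤ t') : cfg M x t' = cfg M x t := by
  obtain ⟨d, rfl⟩ := Nat.exists_eq_add_of_le' ht
  have e : cfg M x (d + t) = M.step^[d] (cfg M x t) := by
    unfold cfg; rw [Function.iterate_add_apply]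
  rw [show d + t = d + t from rfl, e]
  generalize cfg M x t = c at h ⊢
  obtain ⟨o, S⟩ := c
  simp only at h
  subst h
  exact M.iter_none S d

theorem cfg_push (M : Mach (Option τ)) (x : List Bool) (t : ℕ) {l : M.L}
    (h : (cfg M x t).1 = some l) {k : Option τ} {b : Bool} {nx : Option M.L}
    (hp : M.prog l = .push k b nx) :
    (cfg M x (t + 1)).1 = nx ∧ (cfg M x (t + 1)).2 k = b :: (cfg M x t).2 k := by
  rw [cfg_succ_some M x t h, hp]
  simp [Instr.exec]

theorem cfg_pop (M : Mach (Option τ)) (x : List Bool) (t : ℕ) {l : M.L}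
    (h : (cfg M x t).1 = some l) {k : Option τ} {nx : Option Bool → Option M.L}
    (hp : M.prog l = .pop k nx) :
    (cfg M x (t + 1)).1 = nx ((cfg M x t).2 k)[0]? ∧
      (cfg M x (t + 1)).2 k = ((cfg M x t).2 k).tail := by
  rw [cfg_succ_some M x t h, hp]
  simp [Instr.exec, List.head?_eq_getElem?]

theorem cfg_keep (M : Mach (Option τ)) (x : List Bool) (t : ℕ) {l : M.L}
    (h : (cfg M x t).1 = some l) {k : Option τ} (hk : k ≠ reg (M.prog l)) :
    (cfg M x (t + 1)).2 k = (cfg M x t).2 k := by
  rw [cfg_succ_some M x t h]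
  generalize M.prog l = i at hk
  cases i with
  | push k' b n => exact upd_ne _ _ hk
  | pop k' n => exact upd_ne _ _ hk

theorem cfg_len (M : Mach (Option τ)) (x : List Bool) (t : ℕ) (k : Option τ) :
    ((cfg M x t).2 k).length ≤ x.length + t := by
  induction t with
  | zero =>
    rw [cfg_zero]
    cases k <;> simp [st]
  | succ t ih =>
    cases h : (cfg M x t).1 with
    | none =>
      rw [cfg_stay M x h (Nat.le_succ t)]
      omega
    | some l =>
      by_cases hk : k = reg (M.prog l)
      · cases hp : M.prog l with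
        | push k' b n =>
          rw [hp] at hk
          obtain rfl : k = k' := hk
          rw [(cfg_push M x t h hp).2, List.length_cons]
          omega
        | pop k' n =>
          rw [hp] at hk
          obtain rfl : k = k' := hk
          rw [(cfg_pop M x t h hp).2, List.length_tail]
          omega
      · rw [cfg_keep M x t h hk]
        omega

/-- The entries of the table. -/
def Tru (M : Mach (Option τ)) (x : List Bool) (t j : ℕ) : Sg M.L τ → Prop
  | .start => t = 0 ∧ j = 0
  | .acc => False
  | .z => j = 0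
  | .pz => 1 ≤ j
  | .mid => j < x.length + t
  | .en => j = x.length + t
  | .row0 => t = 0
  | .lab o => o = (cfg M x t).1
  | .sym k o => o = ((cfg M x t).2 k)[j]?

end Crest.Agent.R290.Tab
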