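import Crest.Agent.R290.TabA

/-!
Row 290, task TAB: soundness of the table rules.
-/

set_option autoImplicit false

namespace Crest.Agent.R290.Tab

open Crest.Agent.PT Crest.Agent.QC Crest.Agent.R317

variable {τ : Type}

/-- One rule preserves the entries of the table (rejecting run). -/
theorem rule_sound (M : Mach (Option τ)) (x : List Bool) {t₀ W : ℕ} (hW : 1 ≤ W)
    (h₀ : cfg M x t₀ = (none, st [false])) {h a b c : Sg M.L τ} {d : ℕ} (H : IsRule M h a b c d)
    {t j : ℕ} (ht : t ≤ t₀) (hj : j ≤ x.length + t) (ha : Tru M x t j a) (hb : Tru M x t j b)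
    (hc : Tru M x t j c) :
    ∃ t' j', t * W + j + shiftOf W d = t' * W + j' ∧ t' ≤ t₀ ∧ j' ≤ x.length + t' ∧
      Tru M x t' j' h := by
  have hlt : ∀ l : M.L, some l = (cfg M x t).1 → t + 1 ≤ t₀ := by
    intro l hl
    rcases Nat.lt_or_ge t t₀ with h | h
    · exact h
    · obtain rfl : t = t₀ := le_antisymm ht h
      rw [h₀] at hl
      cases hl
  have s0 : t * W + j + shiftOf W 0 = t * W + j := by simp [shiftOf]
  have s1 : t * W + j + shiftOf W 1 = t * W + (j + 1) := by simp [shiftOf, Nat.add_assoc]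
  have s3 : t * W + j + shiftOf W 3 = (t + 1) * W + j := by simp [shiftOf]; ring
  have s4 : t * W + j + shiftOf W 4 = (t + 1) * W + (j + 1) := by simp [shiftOf]; ring
  have s2 : 1 ≤ j → t * W + j + shiftOf W 2 = (t + 1) * W + (j - 1) := by
    intro h1
    simp only [shiftOf]
    norm_num
    rw [Nat.add_mul]
    omega
  have hlen := cfg_len M x
  cases H with
  | blank k =>
    refine ⟨t, j, s0, ht, hj, ?_⟩
    obtain rfl : t = 0 := ha
    simp [Tru, cfg_zero, st]
  | entry =>
    refine ⟨t, j, s0, ht, hj, ?_⟩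
    obtain ⟨rfl, -⟩ := ha
    rfl
  | labmid o =>
    have hb' : j < x.length + t := hb
    exact ⟨t, j + 1, s1, ht, hb', ha⟩
  | acc0 =>
    exfalso
    have ha' : none = (cfg M x t).1 := ha
    obtain rfl : j = 0 := hb
    have hc' : some true = ((cfg M x t).2 none)[0]? := hc
    rw [← cfg_stay M x ha'.symm ht, h₀] at hc'
    simp [st] at hc'
  | acc1 => exact ha.elim
  | mid l =>
    refine ⟨t + 1, j, s3, hlt l ha, by omega, ?_⟩
    show j < x.length + (t + 1)
    omega
  | pz l =>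
    refine ⟨t + 1, j + 1, s4, hlt l ha, by omega, ?_⟩
    show 1 ≤ j + 1
    omega
  | z l => exact ⟨t + 1, j, s3, hlt l ha, by omega, hb⟩
  | en l =>
    refine ⟨t + 1, j + 1, s4, hlt l ha, by omega, ?_⟩
    have hb' : j = x.length + t := hb
    show j + 1 = x.length + (t + 1)
    omega
  | symEnd l k =>
    refine ⟨t + 1, j + 1, s4, hlt l ha, by omega, ?_⟩
    have hb' : j = x.length + t := hb
    show none = _
    rw [eq_comm, List.getElem?_eq_none_iff]
    have := hlen (t + 1) k
    omega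
  | keep l k o hk =>
    refine ⟨t + 1, j, s3, hlt l ha, by omega, ?_⟩
    show o = _
    rw [cfg_keep M x t (Eq.symm ha) hk]
    exact hb
  | push0 l k b nx hp =>
    refine ⟨t + 1, j, s3, hlt l ha, by omega, ?_⟩
    obtain rfl : j = 0 := hb
    show some b = _
    rw [(cfg_push M x t (Eq.symm ha) hp).2]
    rfl
  | push1 l k b nx o hp =>
    refine ⟨t + 1, j + 1, s4, hlt l ha, by omega, ?_⟩
    show o = _
    rw [(cfg_push M x t (Eq.symm ha) hp).2, List.getElem?_cons_succ]
    exact hb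
  | pushL l k b nx hp =>
    refine ⟨t + 1, j, s3, hlt l ha, by omega, ?_⟩
    exact (cfg_push M x t (Eq.symm ha) hp).1.symm
  | pop0 l k nx o hp =>
    have hc' : 1 ≤ j := hc
    refine ⟨t + 1, j - 1, s2 hc', hlt l ha, by omega, ?_⟩
    show o = _
    rw [(cfg_pop M x t (Eq.symm ha) hp).2, List.getElem?_tail, Nat.sub_add_cancel hc']
    exact hb
  | pop1 l k nx hp =>
    refine ⟨t + 1, j, s3, hlt l ha, by omega, ?_⟩
    have hb' : j = x.length + t := hb
    show none = _
    rw [(cfg_pop M x t (Eq.symm ha) hp).2, eq_comm, List.getElem?_eq_none_iff, List.length_tail]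
    have := hlen t k
    omega
  | popL l k nx o hp =>
    refine ⟨t + 1, j, s3, hlt l ha, by omega, ?_⟩
    obtain rfl : j = 0 := hb
    have hc' : o = ((cfg M x t).2 k)[0]? := hc
    show nx o = _
    rw [(cfg_pop M x t (Eq.symm ha) hp).1, hc']

theorem pos_unique {W t j t' j' : ℕ} (hj : j < W) (hj' : j' < W) (h : t * W + j = t' * W + j') :
    t = t' ∧ j = j' := by
  have h1 : (t * W + j) / W = t := by
    rw [Nat.add_comm, Nat.add_mul_div_right _ _ (by omega), Nat.div_eq_of_lt hj, Nat.zero_add]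
  have h2 : (t' * W + j') / W = t' := by
    rw [Nat.add_comm, Nat.add_mul_div_right _ _ (by omega), Nat.div_eq_of_lt hj', Nat.zero_add]
  have : t = t' := by rw [← h1, h, h2]
  subst this
  exact ⟨rfl, by omega⟩

theorem mem_inRules {S₀ : ℕ} {x : List Bool} {ρ : Rule} : ρ ∈ inRules S₀ x ↔
    ∃ j ≤ x.length, ρ = rule1 (inS S₀ (j + 1)) (inS S₀ j) 1 ∨
      ρ = rule1 (if j < x.length then (if x.getD j false = true then 9 else 8) else 7)
        (inS S₀ j) 0 ∨
      ρ = rule1 6 (inS S₀ j) 0 ∨ ρ = rule1 (if j = 0 then 2 else 3) (inS S₀ j) 0 ∨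
      ρ = rule1 (if j < x.length then 4 else 5) (inS S₀ j) 0 := by
  simp only [inRules, List.mem_flatMap, List.mem_range, List.mem_cons, List.not_mem_nil, or_false,
    Nat.lt_succ_iff]

theorem num_input {L K : Type} (e : Option L ⊕ (K × Option Bool) → ℕ) (x : List Bool) (j : ℕ) :
    num e (.sym none x[j]?) =
      if j < x.length then (if x.getD j false = true then 9 else 8) else 7 := by
  by_cases hj : j < x.length
  · rw [if_pos hj, List.getElem?_eq_getElem hj, List.getD_eq_getElem _ _ hj]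
    cases x[j] <;> simp [num]
  · rw [if_neg hj, List.getElem?_eq_none_iff.mpr (by omega)]
    rfl

/-- The invariant of a rejecting run. -/
def Inv (M : Mach (Option τ)) (e : Option M.L ⊕ (τ × Option Bool) → ℕ) (N : ℕ) (x : List Bool)
    (W t₀ s m : ℕ) : Prop :=
  (∃ j, 1 ≤ j ∧ j ≤ x.length + 1 ∧ s = 10 + N + j ∧ m = j) ∨
    ∃ g t j, s = num e g ∧ m = t * W + j ∧ t ≤ t₀ ∧ j ≤ x.length + t ∧ Tru M x t j g

theorem sound (M : Mach (Option τ)) {e : Option M.L ⊕ (τ × Option Bool) → ℕ} {N : ℕ}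
    (hinj : Function.Injective e) (he : ∀ a, e a < N) {R : List TRule}
    (hR : ∀ ρ, ρ ∈ R ↔
      ∃ h a b c d, IsRule M h a b c d ∧ ρ = (num e h, num e a, num e b, num e c, d))
    (x : List Bool) {t₀ W : ℕ} (hW : t₀ + x.length + 3 ≤ W)
    (h₀ : cfg M x t₀ = (none, st [false])) {s m : ℕ} (H : Holds (horn (10 + N, R) x W) s m) :
    Inv M e N x W t₀ s m := by
  have hnum : ∀ g m, Inv M e N x W t₀ (num e g) m →
      ∃ t j, m = t * W + j ∧ t ≤ t₀ ∧ j ≤ x.length + t ∧ Tru M x t j g := by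
    rintro g m (⟨j, -, -, h, -⟩ | ⟨g', t, j, h, h1, h2, h3, h4⟩)
    · have := num_lt he g
      omega
    · obtain rfl := num_inj hinj h
      exact ⟨t, j, h1, h2, h3, h4⟩
  have hin : ∀ j m, Inv M e N x W t₀ (inS (10 + N) j) m → m = j := by
    intro j m h
    by_cases hj : j = 0
    · subst hj
      obtain ⟨t, j, h1, -, -, rfl, rfl⟩ := hnum .start m h
      simpa using h1
    · simp only [inS, if_neg hj] at h
      rcases h with ⟨j', -, -, h, rfl⟩ | ⟨g', t, j', h, -⟩
      · omega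
      · have := num_lt he g'
        omega
  induction H with
  | init => exact Or.inr ⟨.start, 0, 0, rfl, by simp, Nat.zero_le _, Nat.zero_le _, rfl, rfl⟩
  | rule ρ m hρ _ _ _ i0 i1 i2 =>
    rcases List.mem_append.mp hρ with hρ | hρ
    · obtain ⟨ρ', hρ', rfl⟩ := List.mem_map.mp hρ
      obtain ⟨h, a, b, c, d, H, rfl⟩ := (hR _).mp hρ'
      obtain ⟨t, j, rfl, ht, hj, ha⟩ := hnum a m i0
      obtain ⟨t1, j1, e1, ht1, hj1, hb⟩ := hnum b _ i1
      obtain ⟨t2, j2, e2, ht2, hj2, hc⟩ := hnum c _ i2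
      obtain ⟨rfl, rfl⟩ := pos_unique (by omega) (by omega) e1
      obtain ⟨rfl, rfl⟩ := pos_unique (by omega) (by omega) e2
      obtain ⟨t', j', e', ht', hj', hh⟩ := rule_sound M x (W := W) (by omega) h₀ H ht hj ha hb hc
      exact Or.inr ⟨h, t', j', rfl, e', ht', hj', hh⟩
    · obtain ⟨j, hj, rfl | rfl | rfl | rfl | rfl⟩ := mem_inRules.mp hρ
      all_goals obtain rfl : m = j := hin j m i0
      · exact Or.inl ⟨m + 1, by omega, by omega, by simp [rule1, inS], rfl⟩
      · exact Or.inr ⟨.sym none x[m]?, 0, m, (num_input e x m).symm, by simp [rule1, Rule.sh],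
          Nat.zero_le _, hj, rfl⟩
      · exact Or.inr ⟨.row0, 0, m, rfl, by simp [rule1, Rule.sh], Nat.zero_le _, hj, rfl⟩
      · by_cases hm : m = 0
        · exact Or.inr ⟨.z, 0, m, by simp [rule1, hm, num], by simp [rule1, Rule.sh],
            Nat.zero_le _, hj, hm⟩
        · exact Or.inr ⟨.pz, 0, m, by simp [rule1, hm, num], by simp [rule1, Rule.sh],
            Nat.zero_le _, hj, Nat.one_le_iff_ne_zero.mpr hm⟩
      · by_cases hm : m < x.length
        · exact Or.inr ⟨.mid, 0, m, by simp [rule1, hm, num], by simp [rule1, Rule.sh],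
            Nat.zero_le _, hj, hm⟩
        · exact Or.inr ⟨.en, 0, m, by simp [rule1, hm, num], by simp [rule1, Rule.sh],
            Nat.zero_le _, hj, show m = x.length + 0 by omega⟩

theorem Inv.out {M : Mach (Option τ)} {e : Option M.L ⊕ (τ × Option Bool) → ℕ} {N : ℕ}
    (hinj : Function.Injective e) {x : List Bool} {W t₀ T s m : ℕ} (hT : t₀ ≤ T)
    (hW : T + x.length + 3 ≤ W) (h : Inv M e N x W t₀ s m) : s ≠ 1 ∧ m < (T + 1) * W := by
  rcases h with ⟨j, -, h2, rfl, rfl⟩ | ⟨g, t, j, rfl, rfl, h2, h3, h4⟩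
  · refine ⟨by omega, ?_⟩
    rw [Nat.add_mul]
    omega
  · refine ⟨fun h => ?_, ?_⟩
    · obtain rfl : g = .acc := num_inj hinj h
      exact h4
    · have : t * W ≤ T * W := Nat.mul_le_mul_right _ (h2.trans hT)
      rw [Nat.add_mul]
      omega

end Crest.Agent.R290.Tab
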