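import Crest.Agent.R290.TabB

/-!
Row 290, task TAB: completeness of the table rules.
-/

set_option autoImplicit false

namespace Crest.Agent.R290.Tab

open Crest.Agent.PT Crest.Agent.QC Crest.Agent.R317

variable {τ : Type}

section

variable (M : Mach (Option τ)) {e : Option M.L ⊕ (τ × Option Bool) → ℕ} {N : ℕ} {R : List TRule}
  (hR : ∀ ρ, ρ ∈ R ↔
    ∃ h a b c d, IsRule M h a b c d ∧ ρ = (num e h, num e a, num e b, num e c, d))
  (x : List Bool) (W : ℕ)

include hR

theorem fire {h a b c : Sg M.L τ} {d m : ℕ} (H : IsRule M h a b c d)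
    (ha : Holds (horn (10 + N, R) x W) (num e a) m)
    (hb : Holds (horn (10 + N, R) x W) (num e b) m)
    (hc : Holds (horn (10 + N, R) x W) (num e c) m) :
    Holds (horn (10 + N, R) x W) (num e h) (m + shiftOf W d) :=
  Holds.rule (inst W (num e h, num e a, num e b, num e c, d)) m
    (List.mem_append_left _ (List.mem_map.mpr ⟨_, (hR _).mpr ⟨h, a, b, c, d, H, rfl⟩, rfl⟩))
    ha hb hc

omit hR in
theorem fire1 {P : List Rule} {h s d m : ℕ} (hP : rule1 h s d ∈ P) (hs : Holds P s m) :
    Holds P h (m + d) :=
  Holds.rule (rule1 h s d) m hP hs hs hs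

omit hR in
theorem holds_inS (j : ℕ) (hj : j ≤ x.length) :
    Holds (horn (10 + N, R) x W) (inS (10 + N) j) j := by
  induction j with
  | zero => exact Holds.init
  | succ j ih =>
    exact fire1 (List.mem_append_right _ (mem_inRules.mpr ⟨j, by omega, Or.inl rfl⟩))
      (ih (by omega))

/-- Labels spread along a row. -/
theorem lab_spread {t : ℕ} {o : Option M.L}
    (h0 : Holds (horn (10 + N, R) x W) (num e (.lab o)) (t * W))
    (hm : ∀ j < x.length + t, Holds (horn (10 + N, R) x W) (num e .mid) (t * W + j))
    (j : ℕ) (hj : j ≤ x.length + t) :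
    Holds (horn (10 + N, R) x W) (num e (.lab o)) (t * W + j) := by
  induction j with
  | zero => exact h0
  | succ j ih =>
    exact fire M hR x W (IsRule.labmid o) (ih (by omega)) (hm j (by omega)) (hm j (by omega))

theorem row_zero (g : Sg M.L τ) (j : ℕ) (hj : j ≤ x.length + 0) (hg : Tru M x 0 j g) :
    Holds (horn (10 + N, R) x W) (num e g) (0 * W + j) := by
  have hrow : ∀ j ≤ x.length, Holds (horn (10 + N, R) x W) (num e .row0) j := fun j hj =>
    fire1 (d := 0) (List.mem_append_right _
      (mem_inRules.mpr ⟨j, hj, Or.inr (Or.inr (Or.inl rfl))⟩)) (holds_inS x W j hj)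
  have hzp : ∀ j ≤ x.length, Holds (horn (10 + N, R) x W) (if j = 0 then 2 else 3) j := fun j hj =>
    fire1 (d := 0) (List.mem_append_right _
      (mem_inRules.mpr ⟨j, hj, Or.inr (Or.inr (Or.inr (Or.inl rfl)))⟩)) (holds_inS x W j hj)
  have hme : ∀ j ≤ x.length, Holds (horn (10 + N, R) x W) (if j < x.length then 4 else 5) j :=
    fun j hj => fire1 (d := 0) (List.mem_append_right _
      (mem_inRules.mpr ⟨j, hj, Or.inr (Or.inr (Or.inr (Or.inr rfl)))⟩)) (holds_inS x W j hj)
  have hsym : ∀ j ≤ x.length, Holds (horn (10 + N, R) x W) (num e (.sym none x[j]?)) j := by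
    intro j hj
    rw [num_input]
    exact fire1 (d := 0) (List.mem_append_right _
      (mem_inRules.mpr ⟨j, hj, Or.inr (Or.inl rfl)⟩)) (holds_inS x W j hj)
  cases g with
  | start =>
    obtain ⟨-, rfl⟩ := hg
    simpa [num] using Holds.init
  | acc => exact hg.elim
  | z =>
    obtain rfl : j = 0 := hg
    simpa [num] using hzp 0 hj
  | pz =>
    have hg' : 1 ≤ j := hg
    have := hzp j hj
    rw [if_neg (by omega)] at this
    simpa [num] using this
  | mid =>
    have hg' : j < x.length := hg
    have := hme j hj
    rw [if_pos hg'] at this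
    simpa [num] using this
  | en =>
    have hg' : j = x.length := hg
    have := hme j hj
    rw [if_neg (by omega)] at this
    simpa [num] using this
  | row0 => simpa using hrow j hj
  | lab o =>
    obtain rfl : o = M.entry := hg
    refine lab_spread M hR x W ?_ (fun j hj => ?_) j hj
    · have := fire M hR x W (N := N) IsRule.entry Holds.init Holds.init Holds.init
      simpa [shiftOf] using this
    · have hj' : j < x.length := hj
      have := hme j hj'.le
      rw [if_pos hj'] at this
      simpa [num] using this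
  | sym k o =>
    cases k with
    | none =>
      obtain rfl : o = x[j]? := hg
      simpa using hsym j hj
    | some k =>
      obtain rfl : o = none := hg
      have := fire M hR x W (IsRule.blank k) (hrow j hj) (hrow j hj) (hrow j hj)
      simpa [shiftOf] using this

theorem row_succ (hW : 1 ≤ W) {t : ℕ} {l : M.L} (hl : (cfg M x t).1 = some l)
    (ih : ∀ g j, j ≤ x.length + t → Tru M x t j g →
      Holds (horn (10 + N, R) x W) (num e g) (t * W + j))
    (g : Sg M.L τ) (j : ℕ) (hj : j ≤ x.length + (t + 1)) (hg : Tru M x (t + 1) j g) :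
    Holds (horn (10 + N, R) x W) (num e g) ((t + 1) * W + j) := by
  have s3 : ∀ j, (t + 1) * W + j = t * W + j + shiftOf W 3 := by intro j; simp [shiftOf]; ring
  have s4 : ∀ j, (t + 1) * W + (j + 1) = t * W + j + shiftOf W 4 := by
    intro j; simp [shiftOf]; ring
  have s2 : ∀ j, (t + 1) * W + j = t * W + (j + 1) + shiftOf W 2 := by
    intro j
    simp only [shiftOf]
    norm_num
    rw [Nat.add_mul]
    omega
  have hlab : ∀ j ≤ x.length + t, Holds (horn (10 + N, R) x W) (num e (.lab (some l))) (t * W + j) :=
    fun j hj => ih _ j hj hl.symm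
  have hz : Holds (horn (10 + N, R) x W) (num e .z) (t * W + 0) := ih .z 0 (Nat.zero_le _) rfl
  have hen : Holds (horn (10 + N, R) x W) (num e .en) (t * W + (x.length + t)) :=
    ih .en _ le_rfl rfl
  have hsym : ∀ k, ∀ j ≤ x.length + t, Holds (horn (10 + N, R) x W)
      (num e (.sym k ((cfg M x t).2 k)[j]?)) (t * W + j) := fun k j hj => ih _ j hj rfl
  have hmid : ∀ j < x.length + (t + 1),
      Holds (horn (10 + N, R) x W) (num e .mid) ((t + 1) * W + j) := by
    intro j hj
    rw [s3]
    exact fire M hR x W (IsRule.mid l) (hlab j (by omega)) (hlab j (by omega)) (hlab j (by omega))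
  cases g with
  | start => exact absurd hg.1 (Nat.succ_ne_zero t)
  | acc => exact hg.elim
  | z =>
    obtain rfl : j = 0 := hg
    rw [s3]
    exact fire M hR x W (IsRule.z l) (hlab 0 (Nat.zero_le _)) hz hz
  | pz =>
    have hg' : 1 ≤ j := hg
    obtain ⟨j, rfl⟩ : ∃ j', j = j' + 1 := ⟨j - 1, by omega⟩
    rw [s4]
    exact fire M hR x W (IsRule.pz l) (hlab j (by omega)) (hlab j (by omega)) (hlab j (by omega))
  | mid => exact hmid j hg
  | en =>
    obtain rfl : j = x.length + t + 1 := hg
    rw [s4]
    exact fire M hR x W (IsRule.en l) (hlab _ le_rfl) hen hen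
  | row0 => exact absurd hg (Nat.succ_ne_zero t)
  | lab o =>
    obtain rfl : o = (cfg M x (t + 1)).1 := hg
    refine lab_spread M hR x W ?_ hmid j hj
    rw [← Nat.add_zero ((t + 1) * W), s3]
    cases hp : M.prog l with
    | push k b nx =>
      rw [(cfg_push M x t hl hp).1]
      exact fire M hR x W (IsRule.pushL l k b nx hp) (hlab 0 (Nat.zero_le _)) hz hz
    | pop k nx =>
      rw [(cfg_pop M x t hl hp).1]
      exact fire M hR x W (IsRule.popL l k nx _ hp) (hlab 0 (Nat.zero_le _)) hz
        (hsym k 0 (Nat.zero_le _))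
  | sym k o =>
    obtain rfl : o = ((cfg M x (t + 1)).2 k)[j]? := hg
    rcases Nat.lt_or_ge j (x.length + (t + 1)) with hj' | hj'
    · by_cases hk : k = reg (M.prog l)
      · cases hp : M.prog l with
        | push k' b nx =>
          rw [hp] at hk
          obtain rfl : k = k' := hk
          rw [(cfg_push M x t hl hp).2]
          cases j with
          | zero =>
            rw [s3]
            exact fire M hR x W (IsRule.push0 l k b nx hp) (hlab 0 (Nat.zero_le _)) hz hz
          | succ j =>
            rw [s4, List.getElem?_cons_succ]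
            exact fire M hR x W (IsRule.push1 l k b nx _ hp) (hlab j (by omega))
              (hsym k j (by omega)) (hsym k j (by omega))
        | pop k' nx =>
          rw [hp] at hk
          obtain rfl : k = k' := hk
          rw [(cfg_pop M x t hl hp).2]
          rcases Nat.lt_or_ge j (x.length + t) with hj'' | hj''
          · rw [s2, List.getElem?_tail]
            exact fire M hR x W (IsRule.pop0 l k nx _ hp) (hlab (j + 1) hj'')
              (hsym k (j + 1) hj'') (ih .pz (j + 1) hj'' (Nat.succ_le_succ (Nat.zero_le j)))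
          · obtain rfl : j = x.length + t := by omega
            have : ((cfg M x t).2 k).tail[x.length + t]? = none := by
              rw [List.getElem?_eq_none_iff, List.length_tail]
              have := cfg_len M x t k
              omega
            rw [this, s3]
            exact fire M hR x W (IsRule.pop1 l k nx hp) (hlab _ le_rfl) hen hen
      · rw [cfg_keep M x t hl hk, s3]
        exact fire M hR x W (IsRule.keep l k _ hk) (hlab j (by omega))
          (hsym k j (by omega)) (hsym k j (by omega))
    · obtain rfl : j = x.length + t + 1 := by omega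
      have : ((cfg M x (t + 1)).2 k)[x.length + t + 1]? = none := by
        rw [List.getElem?_eq_none_iff]
        have := cfg_len M x (t + 1) k
        omega
      rw [this, s4]
      exact fire M hR x W (IsRule.symEnd l k) (hlab _ le_rfl) hen hen

theorem rows (hW : 1 ≤ W) (t : ℕ) (ht : ∀ t' < t, (cfg M x t').1 ≠ none)
    (g : Sg M.L τ) (j : ℕ) (hj : j ≤ x.length + t) (hg : Tru M x t j g) :
    Holds (horn (10 + N, R) x W) (num e g) (t * W + j) := by
  induction t generalizing g j with
  | zero => exact row_zero M hR x W g j hj hg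
  | succ t ih =>
    obtain ⟨l, hl⟩ := Option.ne_none_iff_exists'.mp (ht t (Nat.lt_succ_self t))
    exact row_succ M hR x W hW hl (ih fun t' h => ht t' (by omega)) g j hj hg

theorem complete (hW : 1 ≤ W) {t₀ : ℕ} (h₀ : cfg M x t₀ = (none, st [true])) :
    ∃ m₀, ∀ m ≥ m₀, Holds (horn (10 + N, R) x W) 1 m := by
  classical
  have hex : ∃ t, (cfg M x t).1 = none := ⟨t₀, by rw [h₀]⟩
  have h1 : (cfg M x (Nat.find hex)).1 = none := Nat.find_spec hex
  have h2 : ∀ t' < Nat.find hex, (cfg M x t').1 ≠ none := fun t' h => Nat.find_min hex h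
  have h3 : Nat.find hex ≤ t₀ := Nat.find_min' hex (by rw [h₀])
  generalize Nat.find hex = t at h1 h2 h3
  have h4 : cfg M x t = (none, st [true]) := by rw [← cfg_stay M x h1 h3, h₀]
  have hrow := rows M hR x W (N := N) hW t h2
  have hacc : Holds (horn (10 + N, R) x W) 1 (t * W + 0) :=
    fire M hR x W IsRule.acc0 (hrow _ 0 (Nat.zero_le _) h1.symm) (hrow _ 0 (Nat.zero_le _) rfl)
      (hrow _ 0 (Nat.zero_le _) (by show some true = _; rw [h4]; rfl))
  refine ⟨t * W + 0, fun m hm => ?_⟩
  induction m, hm using Nat.le_induction with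
  | base => exact hacc
  | succ m _ ih => exact fire M hR x W (N := N) IsRule.acc1 ih ih ih

end

end Crest.Agent.R290.Tab
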