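import Crest.Agent.R317.Lib
import Crest.Prelude.Def_TimeBound

/-!
Row 290: explicit running times (copied from row 317, file M2).
-/

set_option autoImplicit false

namespace Crest.Agent.R290

open Crest.Agent.PT Crest.Agent.QC Crest.Agent.R317

section
open Turing Turing.TM2

theorem timeBound_of_runs {α β τ : Type} (ea : α → List Bool) (eb : β → List Bool)
    (f : α → β) [Finite τ] (M : Mach (Option τ)) (p : ℕ → ℕ)
    (h : ∀ a, M.Runs (st (ea a)) (st (eb (f a))) (p (ea a).length)) :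
    Crest.DTime.TimeBoundComputable ea eb f (fun n => p n + 1) := by
  refine ⟨⟨⟨toTM M, Equiv.refl _, Equiv.refl _⟩, fun n => p n + 1, fun a => ?_⟩, fun _ => le_rfl⟩
  have hex : ∃ t' ≤ p (ea a).length,
      (flip bind (toTM M).step)^[t'] (some (cfgOf M (M.entry, st (ea a)))) =
        some (cfgOf M (none, st (eb (f a)))) := by
    obtain ⟨t, ht, h⟩ := h a
    obtain ⟨t', ht', h'⟩ := evals_of_iter M t _ _ h
    exact ⟨t', ht'.trans ht, h'⟩
  have hst : ∀ x : List Bool, (fun k : Option τ => @dite (List Bool) (k = none)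
      (Classical.decEq _ k none) (fun _ => x) (fun _ => [])) = st x := by
    intro x; funext k; cases k <;> simp [st]
  refine ⟨⟨hex.choose + 1, ?_⟩, ?_⟩
  · rw [Function.iterate_succ_apply]
    have e1 : flip bind (toTM M).step (some (initList (toTM M)
        (List.map (Equiv.refl Bool).invFun (ea a)))) = some (cfgOf M (M.entry, st (ea a))) := by
      show some (@stepAux (Option τ) (fun _ => Bool) (Option M.L) (Option Bool) (Classical.decEq _)
        (jumpS M M.entry) none _) = _
      rw [stepAux_jumpS]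
      congr 3
      rw [← hst]
      funext k
      simp [toTM]
    have e2 : Option.map (haltList (toTM M)) (some (List.map (Equiv.refl Bool).invFun (eb (f a)))) =
        some (cfgOf M (none, st (eb (f a)))) := by
      simp only [Option.map_some, cfgOf, haltList, Option.map_none]
      congr 2
      rw [← hst]
      funext k
      simp [toTM]
    exact (congrArg _ e1).trans (hex.choose_spec.2.trans e2.symm)
  · exact Nat.succ_le_succ hex.choose_spec.1

end

/-- Inputs measured by `B`. -/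
structure Wr {α : Type} (B : α → ℕ) : Type where
  /-- the input -/
  val : α

instance {α : Type} (B : α → ℕ) : Enc (Wr B) := ⟨fun w => List.replicate (B w.val) true⟩

theorem sz_wr {α : Type} (B : α → ℕ) (w : Wr B) : sz w = B w.val := by
  simp [sz, enc]

variable {α β γ δ : Type} [Enc α] [Enc β] [Enc γ] [Enc δ]

theorem pb_wr {B : α → ℕ} (hB : ∀ a, sz a ≤ B a) {T : α → ℕ} (hT : PB T) :
    PB (fun w : Wr B => T w.val) := by
  obtain ⟨k, hk⟩ := hT.exists_mono
  exact ⟨k, fun w => by rw [sz_wr]; exact hk _ _ (hB _)⟩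

theorem iterate_time {f : β → β} {g : α → γ} {h : α → β} {u : β → δ} (hf : PT f) (hg : PT g)
    (hh : PT h) (hu : PT u) (B : α → ℕ) (hB : ∀ a, sz a ≤ B a)
    (hb : ∀ a i, i ≤ sz (g a) → sz (f^[i] (h a)) ≤ B a) :
    ∃ (τ : Type) (_ : Finite τ) (M : Mach (Option τ)) (k : ℕ),
      ∀ a, M.Runs (st (enc a)) (st (enc (u (f^[sz (g a)] (h a))))) ((B a + 2) ^ k) := by
  have hpg := hg.pb
  obtain ⟨τ, _, M, T, hT, hM⟩ := hf
  obtain ⟨τ', _, M', T', hT', hM'⟩ := hg
  obtain ⟨τ'', _, M'', T'', hT'', hM''⟩ := hh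
  obtain ⟨τ3, _, M3, T3, hT3, hM3⟩ := hu
  obtain ⟨k, hk⟩ := hT.exists_mono
  obtain ⟨k3, hk3⟩ := hT3.exists_mono
  have hsz : PB (fun w : Wr B => B w.val) := PB.size.of_le (fun w => (sz_wr B w).ge)
  have hpb : PB (fun w : Wr B => (10 * sz w.val + 2) + (T' w.val + (T'' w.val +
      ((sz (g w.val) * ((B w.val + 2) ^ k + 1) + 1) + (B w.val + 2) ^ k3)))) :=
    (((PB.const 10).mul (pb_wr hB PB.size)).add (PB.const 2)).add ((pb_wr hB hT').add
      ((pb_wr hB hT'').add ((((pb_wr hB hpg).mul (((hsz.add (PB.const 2)).pow k).add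
        (PB.const 1))).add (PB.const 1)).add ((hsz.add (PB.const 2)).pow k3))))
  obtain ⟨K, hK⟩ := hpb
  refine ⟨Bool ⊕ (τ ⊕ τ' ⊕ τ'' ⊕ τ3), inferInstance,
    Mach.copy.seq ((M'.rename (emb r2 (Sum.inr ∘ Sum.inl))).seq
      ((M''.rename (emb none (Sum.inr ∘ Sum.inr ∘ Sum.inl))).seq
        ((Mach.loop r2 false (M.rename (emb none Sum.inl)) (M.rename (emb none Sum.inl))).seq
          (M3.rename (emb none (Sum.inr ∘ Sum.inr ∘ Sum.inr)))))), K, fun a => ?_⟩
  have hKa := hK ⟨a⟩
  rw [sz_wr] at hKa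
  refine Mach.Runs.mono ?_ hKa
  have h1 := runs_emb (τ := τ ⊕ τ' ⊕ τ'' ⊕ τ3) (r := r2) (by simp)
    (Sum.inr_injective.comp Sum.inl_injective) (hM' a) (st3 (enc a) [] (enc a)) rfl (fun _ => rfl)
  have h2 := runs_emb (τ := τ ⊕ τ' ⊕ τ'' ⊕ τ3) (r := none) (by simp)
    (Sum.inr_injective.comp (Sum.inr_injective.comp Sum.inl_injective)) (hM'' a)
    (st3 (enc a) [] (enc (g a))) rfl (fun _ => rfl)
  have h6 := runs_emb (τ := τ ⊕ τ' ⊕ τ'' ⊕ τ3) (r := none) (by simp)
    (Sum.inr_injective.comp (Sum.inr_injective.comp Sum.inr_injective))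
    (hM3 (f^[sz (g a)] (h a))) (st3 (enc (f^[sz (g a)] (h a))) [] []) rfl (fun _ => rfl)
  simp only [upd_st3_io, upd_st3_r2] at h1 h2 h6
  rw [st_eq_st3, st_eq_st3]
  refine (Mach.runs_copy _).seq (h1.seq (h2.seq (Mach.Runs.seq ?_
    (h6.mono (hk3 _ _ (hb a _ le_rfl))))))
  have key : ∀ (z : List Bool) (b : β), (∀ i, i ≤ z.length → sz (f^[i] b) ≤ B a) →
      (Mach.loop r2 false (M.rename (emb none Sum.inl)) (M.rename (emb none Sum.inl))).Runs
        (st3 (τ := τ ⊕ τ' ⊕ τ'' ⊕ τ3) (enc b) [] z) (st3 (enc (f^[z.length] b)) [] [])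
        (z.length * ((B a + 2) ^ k + 1) + 1) := by
    intro z
    induction z with
    | nil => intro b _; simpa using Mach.Runs.loop_nil rfl
    | cons c z ih =>
      intro b hb
      have h3 := runs_emb (τ := τ ⊕ τ' ⊕ τ'' ⊕ τ3) (r := none) (by simp) Sum.inl_injective (hM b)
        (st3 (enc b) [] z) rfl (fun _ => rfl)
      simp only [upd_st3_io] at h3
      have h4 := ih (f b) (fun i hi => by
        rw [← Function.iterate_succ_apply]; exact hb _ (by simp; omega))
      have h5 : T b ≤ (B a + 2) ^ k := hk b _ (hb 0 (Nat.zero_le _))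
      rw [List.length_cons, Function.iterate_succ_apply]
      cases c
      · refine (Mach.Runs.loop_false (k := r2) (S := st3 (enc b) [] (false :: z)) (x := z) rfl
          (by rw [upd_st3_r2]; exact h3) h4).mono ?_
        rw [Nat.succ_mul]; omega
      · refine (Mach.Runs.loop_true (k := r2) (S := st3 (enc b) [] (true :: z)) (x := z) rfl
          (by rw [upd_st3_r2]; exact h3) h4).mono ?_
        rw [Nat.succ_mul]; omega
  exact key _ _ (hb a)

end Crest.Agent.R290
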