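import Crest.Agent.R290.Time
import Crest.Prelude.Def_WordRAM

/-!
Row 290, task URAM: helper definitions (logs of writes, bitwise operations, one interpreter step).
-/

set_option autoImplicit false

namespace Crest.Agent.R290.URAM

open Crest.Agent.PT Crest.Agent.QC Crest.Agent.R317

variable {α : Type} [Enc α]

/-! Bitwise operations. -/

theorem sum_testBit (x n : ℕ) :
    x % 2 ^ n = ∑ i ∈ Finset.range n, if x.testBit i = true then 2 ^ i else 0 := by
  induction n with
  | zero => simp [Nat.mod_one]
  | succ n ih =>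
    rw [Finset.sum_range_succ, ← ih, Nat.mod_pow_succ, Nat.testBit_eq_decide_div_mod_eq]
    rcases Nat.mod_two_eq_zero_or_one (x / 2 ^ n) with h | h <;> simp [h]

@[fun_prop] theorem pt_testBit {f i : α → ℕ} (hf : BT f) (hi : PT i) :
    PT (fun a => (f a).testBit (i a)) := by
  have h : PT (fun a => decide (f a / 2 ^ i a % 2 = 1)) := pt_decide (by fun_prop)
  exact h.congr (fun a => (Nat.testBit_eq_decide_div_mod_eq ..).symm)

theorem bt_bits {f n : α → ℕ} {b : α → ℕ → Bool} (hn : PT n)
    (hb : PT (fun p : α × ℕ => b p.1 p.2)) (hlt : ∀ a, f a < 2 ^ n a)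
    (h : ∀ a i, (f a).testBit i = b a i) : BT f := by
  have h1 : BT (fun a => ∑ i ∈ Finset.range (n a), if b a i = true then 2 ^ i else 0) :=
    BT.sum (f := fun a i => if b a i = true then 2 ^ i else 0) hn
      (BT.ite (dt_beq hb (PT.const true)) (by fun_prop) (by fun_prop))
  refine h1.congr (fun a => ?_)
  rw [← Nat.mod_eq_of_lt (hlt a), sum_testBit]
  simp only [h]

theorem lt_pow_l (a b : ℕ) : a < 2 ^ (a.size + b.size) :=
  (Nat.lt_size_self a).trans_le (Nat.pow_le_pow_right (by omega) (by omega))

theorem lt_pow_r (a b : ℕ) : b < 2 ^ (a.size + b.size) :=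
  (Nat.lt_size_self b).trans_le (Nat.pow_le_pow_right (by omega) (by omega))

@[fun_prop] theorem bt_land {f g : α → ℕ} (hf : BT f) (hg : BT g) : BT (fun a => f a &&& g a) :=
  bt_bits (n := fun a => (f a).size + (g a).size)
    (b := fun a i => (f a).testBit i && (g a).testBit i) (hf.size.add hg.size) (by fun_prop)
    (fun _ => Nat.and_lt_two_pow _ (lt_pow_r _ _)) (fun _ _ => Nat.testBit_and ..)

@[fun_prop] theorem bt_lor {f g : α → ℕ} (hf : BT f) (hg : BT g) : BT (fun a => f a ||| g a) :=
  bt_bits (n := fun a => (f a).size + (g a).size)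
    (b := fun a i => (f a).testBit i || (g a).testBit i) (hf.size.add hg.size) (by fun_prop)
    (fun _ => Nat.or_lt_two_pow (lt_pow_l _ _) (lt_pow_r _ _)) (fun _ _ => Nat.testBit_or ..)

@[fun_prop] theorem bt_lxor {f g : α → ℕ} (hf : BT f) (hg : BT g) : BT (fun a => f a ^^^ g a) :=
  bt_bits (n := fun a => (f a).size + (g a).size)
    (b := fun a i => xor ((f a).testBit i) ((g a).testBit i)) (hf.size.add hg.size) (by fun_prop)
    (fun _ => Nat.xor_lt_two_pow (lt_pow_l _ _) (lt_pow_r _ _)) (fun _ _ => Nat.testBit_xor ..)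

/-! Logs of writes. -/

/-- A log of writes, newest first. -/
abbrev Log : Type := List (Bin × Bin)

/-- The newest value written at `k`, or `d`. -/
def look : Log → ℕ → ℕ → ℕ
  | [], _, d => d
  | e :: l, k, d => if e.1.val = k then e.2.val else look l k d

theorem look_cons (a v : ℕ) (l : Log) (k d : ℕ) :
    look ((⟨a⟩, ⟨v⟩) :: l) k d = if k = a then v else look l k d := by
  simp only [look, eq_comm]

/-- The empty entry. -/
def e0 : Bin × Bin := (⟨0⟩, ⟨0⟩)

theorem all_succ (n : ℕ) (p : ℕ → Prop) : All (n + 1) p ↔ p 0 ∧ All n (fun j => p (j + 1)) := by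
  constructor
  · intro h; exact ⟨h 0 (by omega), fun j hj => h (j + 1) (by omega)⟩
  · rintro ⟨h0, h⟩ j hj
    cases j with
    | zero => exact h0
    | succ j => exact h j (by omega)

theorem look_eq (l : Log) (k d : ℕ) :
    look l k d = (∑ i ∈ Finset.range l.length,
      if (l.getD i e0).1.val = k ∧ All i (fun j => (l.getD j e0).1.val ≠ k) then
        (l.getD i e0).2.val else 0) +
      if All l.length (fun j => (l.getD j e0).1.val ≠ k) then d else 0 := by
  induction l with
  | nil => simp [look, All]
  | cons e l ih =>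
    rw [List.length_cons, Finset.sum_range_succ']
    simp only [all_succ, List.getD_cons_succ, List.getD_cons_zero]
    by_cases h : e.1.val = k
    · simp [look, h, All]
    · simp only [look, h, ih, ne_eq, not_false_eq_true, true_and, false_and, if_false, add_zero]

@[fun_prop] theorem bt_look {l : α → Log} {k d : α → ℕ} (hl : PT l) (hk : BT k) (hd : BT d) :
    BT (fun a => look (l a) (k a) (d a)) := by
  have h : BT (fun a => (∑ i ∈ Finset.range (l a).length,
      if ((l a).getD i e0).1.val = k a ∧ All i (fun j => ((l a).getD j e0).1.val ≠ k a) then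
        ((l a).getD i e0).2.val else 0) +
      if All (l a).length (fun j => ((l a).getD j e0).1.val ≠ k a) then d a else 0) := by
    fun_prop
  exact h.congr (fun a => (look_eq _ _ _).symm)

/-! Input bits. -/

/-- Bit `i` of a raw string. -/
def rbit (x : Raw) (i : ℕ) : Bool := x.val.getD i false

@[fun_prop] theorem pt_rbit {x : α → Raw} {i : α → ℕ} (hx : PT x) (hi : PT i) :
    PT (fun a => rbit (x a) (i a)) := by
  have key : ∀ (i : ℕ) (y : Raw), (Raw.tail^[i] y).val = y.val.drop i := by
    intro i
    induction i with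
    | zero => intro y; rfl
    | succ i ih =>
      intro y
      rw [Function.iterate_succ_apply, ih, Raw.val_tail]
      cases y.val <;> simp
  have h := (pt_iterShrink (s := Raw.tail) (PT.tail PT.id') (fun y => by simp) hi hx).head
  refine h.congr (fun a => ?_)
  simp only [Raw.head, key, rbit]
  simp [List.getD_eq_getElem?_getD]

/-- Initial content of memory cell `i`. -/
def dflt (x : Raw) (w i : ℕ) : ℕ := (if rbit x (un (sz x) i) = true then 1 else 0) % 2 ^ w

@[fun_prop] theorem bt_dflt {x : α → Raw} {w i : α → ℕ} (hx : PT x) (hw : PT w) (hi : BT i) :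
    BT (fun a => dflt (x a) (w a) (i a)) := by
  unfold dflt; fun_prop

theorem dflt_eq (x : List Bool) (w i : ℕ) :
    dflt ⟨x⟩ w i = (x.map fun b => if b then 1 else 0)[i]?.getD 0 % 2 ^ w := by
  unfold dflt rbit un
  congr 1
  by_cases h : i < x.length
  · simp [h, min_eq_left h.le, List.getD_eq_getElem?_getD]
  · have h' : x.length ≤ i := by omega
    simp [min_eq_right h', List.getD_eq_getElem?_getD, List.getElem?_eq_none h']

/-! One step. -/

/-- The value computed by opcode `op`. -/
def value (w op v A B M : ℕ) : ℕ :=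
  if op = 0 then v else if op = 1 then A else if op = 2 then A + B else if op = 3 then A - B
  else if op = 4 then A * B else if op = 5 then A / B else if op = 6 then A % B
  else if op = 7 then A &&& B else if op = 8 then A ||| B else if op = 9 then A ^^^ B
  else if op = 10 then (if B < w then A * 2 ^ un w B else 0)
  else if op = 11 then (if B < w then A / 2 ^ un w B else 0) else M

@[fun_prop] theorem bt_value {w op v A B M : α → ℕ} (hw : PT w) (hop : BT op) (hv : BT v)
    (hA : BT A) (hB : BT B) (hM : BT M) :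
    BT (fun a => value (w a) (op a) (v a) (A a) (B a) (M a)) := by
  unfold value; fun_prop

/-- Whether opcode `op` takes its jump. -/
def taken (op A B : ℕ) : Bool :=
  decide (op = 14 ∨ (op = 15 ∧ A = 0) ∨ (op = 16 ∧ A = B) ∨ (op = 17 ∧ A < B))

@[fun_prop] theorem pt_taken {op A B : α → ℕ} (hop : BT op) (hA : BT A) (hB : BT B) :
    PT (fun a => taken (op a) (A a) (B a)) := by
  unfold taken; exact pt_decide (by fun_prop)

/-- Coded instructions. -/
abbrev Ins : Type := ℕ × ℕ × ℕ × ℕ

/-- Interpreter states: counter, halting flag, register writes, memory writes. -/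
abbrev St : Type := ℕ × Bool × Log × Log

/-- The halting instruction. -/
def hlt : Ins := (18, 0, 0, 0)

/-- Execute the instruction `I` whose register operands hold `A` and `B`. -/
def exec (x : Raw) (w : ℕ) (I : Ins) (A B : Bin) (s : St) : St :=
  if I.1 ≤ 12 then
    (s.1 + 1, false, ((⟨I.2.1⟩ : Bin), (⟨value w I.1 I.2.2.1 A.val B.val
      (look s.2.2.2 A.val (dflt x w A.val)) % 2 ^ w⟩ : Bin)) :: s.2.2.1, s.2.2.2)
  else if I.1 = 13 then
    (s.1 + 1, false, s.2.2.1, ((⟨A.val % 2 ^ w⟩ : Bin), (⟨B.val % 2 ^ w⟩ : Bin)) :: s.2.2.2)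
  else if I.1 ≤ 17 then
    (bif taken I.1 A.val B.val then I.2.1 else s.1 + 1, false, s.2.2.1, s.2.2.2)
  else (s.1, true, s.2.2.1, s.2.2.2)

@[fun_prop] theorem pt_exec {x : α → Raw} {w : α → ℕ} {I : α → Ins} {A B : α → Bin} {s : α → St}
    (hx : PT x) (hw : PT w) (hI : PT I) (hA : PT A) (hB : PT B) (hs : PT s) :
    PT (fun a => exec (x a) (w a) (I a) (A a) (B a) (s a)) := by
  unfold exec; fun_prop

/-- Fetch the operands and execute. -/
def fetch (x : Raw) (w : ℕ) (I : Ins) (s : St) : St :=
  exec x w I ⟨look s.2.2.1 I.2.2.1 0⟩ ⟨look s.2.2.1 I.2.2.2 0⟩ s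

@[fun_prop] theorem pt_fetch {x : α → Raw} {w : α → ℕ} {I : α → Ins} {s : α → St}
    (hx : PT x) (hw : PT w) (hI : PT I) (hs : PT s) :
    PT (fun a => fetch (x a) (w a) (I a) (s a)) := by
  unfold fetch; fun_prop

/-- One interpreter step. -/
def ustep (code : List Ins) (x : Raw) (w : ℕ) (s : St) : St :=
  bif s.2.1 then s else fetch x w (code.getD s.1 hlt) s

@[fun_prop] theorem pt_ustep {code : α → List Ins} {x : α → Raw} {w : α → ℕ} {s : α → St}
    (hc : PT code) (hx : PT x) (hw : PT w) (hs : PT s) :
    PT (fun a => ustep (code a) (x a) (w a) (s a)) := by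
  unfold ustep; fun_prop

theorem sz_getD_le {β : Type} [Enc β] (l : List β) (i : ℕ) (d : β) :
    sz (l.getD i d) ≤ sz l + sz d := by
  induction l generalizing i with
  | nil => simp
  | cons e l ih =>
    cases i with
    | zero => simp only [List.getD_cons_zero, sz_cons]; omega
    | succ i => have := ih i; simp only [List.getD_cons_succ, sz_cons]; omega

theorem size_mod_le (v w : ℕ) : (v % 2 ^ w).size ≤ w :=
  Nat.size_le.2 (Nat.mod_lt _ (by positivity))

theorem sz_exec (x : Raw) (w : ℕ) (I : Ins) (A B : Bin) (s : St) :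
    sz (exec x w I A B s) ≤ sz s + (8 * sz I + 6 * w + 10) := by
  obtain ⟨op, d, a, b⟩ := I
  obtain ⟨pc, h, R, M⟩ := s
  have h1 := size_le_self d
  have h2 := size_mod_le A.val w
  have h3 := size_mod_le B.val w
  have h4 := size_mod_le (value w op a A.val B.val (look M A.val (dflt x w A.val))) w
  unfold exec
  split_ifs
  · simp only [sz_pair, sz_cons, sz_bin, sz_nat, sz_bool]; omega
  · simp only [sz_pair, sz_cons, sz_bin, sz_nat, sz_bool]; omega
  · cases taken op A.val B.val <;> simp only [sz_pair, sz_nat, sz_bool, cond_true, cond_false] <;>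
      omega
  · simp only [sz_pair, sz_nat, sz_bool]; omega

theorem sz_ustep (code : List Ins) (x : Raw) (w : ℕ) (s : St) :
    sz (ustep code x w s) ≤ sz s + (8 * sz code + 6 * w + 330) := by
  unfold ustep fetch
  cases s.2.1
  · have h1 := sz_getD_le code s.1 hlt
    have h2 : sz hlt = 39 := by simp [hlt]
    refine (sz_exec _ _ _ _ _ _).trans ?_
    omega
  · simp

/-- The interpreter state after `T` steps. -/
def urun (code : List Ins) (x : Raw) (w T : ℕ) : St :=
  Nat.rec (0, false, [((⟨0⟩ : Bin), (⟨sz x % 2 ^ w⟩ : Bin))], []) (fun _ s => ustep code x w s) T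

@[fun_prop] theorem pt_urun {code : α → List Ins} {x : α → Raw} {w T : α → ℕ}
    (hc : PT code) (hx : PT x) (hw : PT w) (hT : PT T) :
    PT (fun a => urun (code a) (x a) (w a) (T a)) := by
  unfold urun
  refine PT.natRec_add (s := fun a _ s => ustep (code a) (x a) (w a) s) hT (by fun_prop)
    (by fun_prop) (C := fun p => 8 * sz (code p.1) + 6 * w p.1 + 330) (PT.pbNat (by fun_prop))
    (fun a _ s => sz_ustep _ _ _ _)

end Crest.Agent.R290.URAM
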