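import Crest.Agent.R290.Time
import Crest.Agent.R290.URAMX
import Crest.Prelude.Def_WordRAM

/-!
Row 290, task URAM: one polynomial-time interpreter for all word-RAM programs (random stream `0`).
-/

set_option autoImplicit false

namespace Crest.Agent.R290

open Crest.Agent.PT Crest.Agent.QC Crest.Agent.R317

namespace URAM

open Crest.WordRAM

/-- Code of an instruction (`rand` loads the constant `0`). -/
def codeI {r : ℕ} : Instr r → Ins
  | .const d v => (0, d, v, 0)
  | .copy d s => (1, d, s, 0)
  | .add d a b => (2, d, a, b)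
  | .sub d a b => (3, d, a, b)
  | .mul d a b => (4, d, a, b)
  | .quot d a b => (5, d, a, b)
  | .rem d a b => (6, d, a, b)
  | .and d a b => (7, d, a, b)
  | .or d a b => (8, d, a, b)
  | .xor d a b => (9, d, a, b)
  | .shl d a b => (10, d, a, b)
  | .shr d a b => (11, d, a, b)
  | .load d a => (12, d, a, 0)
  | .store s a => (13, 0, a, s)
  | .jump l => (14, l, 0, 0)
  | .jumpIfZero a l => (15, l, a, 0)
  | .jumpIfEq a b l => (16, l, a, b)
  | .jumpIfLt a b l => (17, l, a, b)
  | .rand d => (0, d, 0, 0)
  | .halt => hlt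

/-- The interpreter state `s` represents the configuration `c`. -/
structure Sim {r : ℕ} (x : Raw) (w : ℕ) (c : Cfg r) (s : St) : Prop where
  pc : s.1 = c.pc
  halted : s.2.1 = c.halted
  regs : ∀ j : Fin r, look s.2.2.1 j 0 = c.regs j
  mem : ∀ i, look s.2.2.2 i (dflt x w i) = c.mem i
  rlt : ∀ j, c.regs j < 2 ^ w
  mlt : ∀ i, c.mem i < 2 ^ w

theorem Sim.write {r : ℕ} {x : Raw} {w : ℕ} {c : Cfg r} {s : St} (h : Sim x w c s)
    (d : Fin r) {v v' : ℕ} (hv : v' % 2 ^ w = v) (k : ℕ) :
    Sim x w { c with pc := c.pc + 1, halted := false, regs := writeReg c.regs d v, drawn := k }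
      (s.1 + 1, false, ((⟨d⟩ : Bin), (⟨v' % 2 ^ w⟩ : Bin)) :: s.2.2.1, s.2.2.2) where
  pc := by simp [h.pc]
  halted := rfl
  regs := fun j => by
    simp only [look_cons, writeReg, Fin.ext_iff, h.regs, hv]
  mem := h.mem
  rlt := fun j => by
    simp only [writeReg]
    split_ifs
    · rw [← hv]; exact Nat.mod_lt _ (by positivity)
    · exact h.rlt j
  mlt := h.mlt

theorem Sim.jump {r : ℕ} {x : Raw} {w : ℕ} {c : Cfg r} {s : St} (h : Sim x w c s)
    {l l' : ℕ} (hl : l' = l) :
    Sim x w { c with pc := l, halted := false } (l', false, s.2.2.1, s.2.2.2) :=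
  ⟨hl, rfl, h.regs, h.mem, h.rlt, h.mlt⟩

theorem Sim.halt {r : ℕ} {x : Raw} {w : ℕ} {c : Cfg r} {s : St} (h : Sim x w c s) :
    Sim x w { c with halted := true } (s.1, true, s.2.2.1, s.2.2.2) :=
  ⟨h.pc, rfl, h.regs, h.mem, h.rlt, h.mlt⟩

theorem Sim.store {r : ℕ} {x : Raw} {w : ℕ} {c : Cfg r} {s : St} (h : Sim x w c s)
    (a b : Fin r) :
    Sim x w { c with pc := c.pc + 1, halted := false, mem := writeMem c.mem (c.regs a) (c.regs b) }
      (s.1 + 1, false, s.2.2.1,
        ((⟨c.regs a % 2 ^ w⟩ : Bin), (⟨c.regs b % 2 ^ w⟩ : Bin)) :: s.2.2.2) where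
  pc := by simp [h.pc]
  halted := rfl
  regs := h.regs
  mem := fun i => by
    simp only [look_cons, writeMem, h.mem, Nat.mod_eq_of_lt (h.rlt _)]
  rlt := h.rlt
  mlt := fun i => by
    simp only [writeMem]
    split_ifs
    · exact h.rlt b
    · exact h.mlt i

theorem Sim.step {P : Program} {x : Raw} {w : ℕ} {c : Cfg P.numRegs} {s : St}
    (h : Sim x w c s) :
    Sim x w (step P w (fun _ => 0) c) (ustep (P.code.map codeI) x w s) := by
  unfold ustep WordRAM.step
  rw [h.halted]
  cases hc : c.halted
  swap
  · simpa using h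
  simp only [cond_false, Bool.false_eq_true, if_false]
  rw [h.pc, List.getD_eq_getElem?_getD, List.getElem?_map]
  have hr := h.rlt
  cases hI : P.code[c.pc]? with
  | none => exact h.halt
  | some I =>
    simp only [Option.map_some, Option.getD_some]
    cases I with
    | const d v => exact h.write d (v' := v) rfl _
    | copy d a =>
      simp only [codeI, fetch, exec, h.regs]
      exact h.write d (v' := c.regs a) (Nat.mod_eq_of_lt (hr _)) _
    | add d a b =>
      simp only [codeI, fetch, exec, h.regs]
      exact h.write d (v' := c.regs a + c.regs b) rfl _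
    | sub d a b =>
      simp only [codeI, fetch, exec, h.regs]
      exact h.write d (v' := c.regs a - c.regs b)
        (Nat.mod_eq_of_lt ((Nat.sub_le _ _).trans_lt (hr _))) _
    | mul d a b =>
      simp only [codeI, fetch, exec, h.regs]
      exact h.write d (v' := c.regs a * c.regs b) rfl _
    | quot d a b =>
      simp only [codeI, fetch, exec, h.regs]
      exact h.write d (v' := c.regs a / c.regs b)
        (Nat.mod_eq_of_lt ((Nat.div_le_self _ _).trans_lt (hr _))) _
    | rem d a b =>
      simp only [codeI, fetch, exec, h.regs]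
      exact h.write d (v' := c.regs a % c.regs b)
        (Nat.mod_eq_of_lt ((Nat.mod_le _ _).trans_lt (hr _))) _
    | and d a b =>
      simp only [codeI, fetch, exec, h.regs]
      exact h.write d (v' := c.regs a &&& c.regs b)
        (Nat.mod_eq_of_lt (Nat.and_lt_two_pow _ (hr _))) _
    | or d a b =>
      simp only [codeI, fetch, exec, h.regs]
      exact h.write d (v' := c.regs a ||| c.regs b)
        (Nat.mod_eq_of_lt (Nat.or_lt_two_pow (hr _) (hr _))) _
    | xor d a b =>
      simp only [codeI, fetch, exec, h.regs]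
      exact h.write d (v' := c.regs a ^^^ c.regs b)
        (Nat.mod_eq_of_lt (Nat.xor_lt_two_pow (hr _) (hr _))) _
    | shl d a b =>
      simp only [codeI, fetch, exec, h.regs]
      refine h.write d
        (v' := if c.regs b < w then c.regs a * 2 ^ un w (c.regs b) else 0) ?_ _
      split_ifs with h1
      · rw [un, min_eq_left h1.le, Nat.shiftLeft_eq]
      · simp
    | shr d a b =>
      simp only [codeI, fetch, exec, h.regs]
      refine h.write d
        (v' := if c.regs b < w then c.regs a / 2 ^ un w (c.regs b) else 0) ?_ _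
      split_ifs with h1
      · rw [un, min_eq_left h1.le, Nat.shiftRight_eq_div_pow]
        exact Nat.mod_eq_of_lt ((Nat.div_le_self _ _).trans_lt (hr _))
      · simp
    | load d a =>
      simp only [codeI, fetch, exec, h.regs, h.mem]
      exact h.write d (v' := c.mem (c.regs a)) (Nat.mod_eq_of_lt (h.mlt _)) _
    | store b a =>
      simp only [codeI, fetch, exec, h.regs]
      exact h.store a b
    | jump l =>
      simp only [codeI, fetch, exec]
      exact h.jump (by simp [taken])
    | jumpIfZero a l =>
      simp only [codeI, fetch, exec, h.regs]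
      refine h.jump ?_
      by_cases h1 : c.regs a = 0 <;> simp [taken, h1, h.pc]
    | jumpIfEq a b l =>
      simp only [codeI, fetch, exec, h.regs]
      refine h.jump ?_
      by_cases h1 : c.regs a = c.regs b <;> simp [taken, h1, h.pc]
    | jumpIfLt a b l =>
      simp only [codeI, fetch, exec, h.regs]
      refine h.jump ?_
      by_cases h1 : c.regs a < c.regs b <;> simp [taken, h1, h.pc]
    | rand d => exact h.write d (v' := 0) rfl _
    | halt => exact h.halt

theorem sim_run (P : Program) (x : List Bool) (w T : ℕ) :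
    Sim ⟨x⟩ w (run P w (fun _ => 0) (x.map fun b => if b then 1 else 0) T)
      (urun (P.code.map codeI) ⟨x⟩ w T) := by
  induction T with
  | zero =>
    refine ⟨rfl, rfl, fun j => ?_, fun i => dflt_eq x w i, fun j => ?_,
      fun i => Nat.mod_lt _ (by positivity)⟩
    · simp [urun, look, run, init, eq_comm]
    · simp only [run, Function.iterate_zero, id_eq, init]
      split_ifs
      · exact Nat.mod_lt _ (by positivity)
      · positivity
  | succ T ih =>
    unfold run
    rw [Function.iterate_succ_apply']
    exact ih.step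

/-- Register `k` of a machine with `r` registers. -/
def regOf (r : ℕ) (s : St) (k : ℕ) : ℕ := if k < r then look s.2.2.1 k 0 else 0

@[fun_prop] theorem bt_regOf {α : Type} [Enc α] {r : α → ℕ} {s : α → St} (hr : PT r) (hs : PT s)
    (k : ℕ) : BT (fun a => regOf (r a) (s a) k) := by
  unfold regOf; fun_prop

theorem Sim.reg {r : ℕ} {x : Raw} {w : ℕ} {c : Cfg r} {s : St} (h : Sim x w c s) (k : ℕ) :
    regOf r s k = c.reg k := by
  unfold regOf Cfg.reg
  split_ifs with h1
  · exact h.regs ⟨k, h1⟩
  · rfl

/-- The output test. -/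
def accept (r : ℕ) (x : Raw) (w : ℕ) (s : St) : Bool :=
  decide (regOf r s 0 = 1 ∧ look s.2.2.2 (regOf r s 1) (dflt x w (regOf r s 1)) = 1)

@[fun_prop] theorem pt_accept {α : Type} [Enc α] {r w : α → ℕ} {x : α → Raw} {s : α → St}
    (hr : PT r) (hx : PT x) (hw : PT w) (hs : PT s) :
    PT (fun a => accept (r a) (x a) (w a) (s a)) := by
  unfold accept; exact pt_decide (by fun_prop)

theorem Sim.accept_iff {r : ℕ} {x : Raw} {w : ℕ} {c : Cfg r} {s : St} (h : Sim x w c s) :
    accept r x w s = true ↔ c.output = [1] := by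
  simp only [accept, decide_eq_true_eq, h.reg, h.mem, Cfg.output]
  constructor
  · rintro ⟨h0, h1⟩
    simp [h0, h1]
  · intro h0
    have h1 : c.reg 0 = 1 := by simpa using congrArg List.length h0
    rw [h1] at h0
    exact ⟨h1, by simpa using h0⟩

end URAM

/-- The program is data (e.g. number of registers and a list of `ℕ × ℕ × ℕ × ℕ × Bin`: opcode,
three register numbers or a jump target, a literal). A configuration is (pc, halted, registers as
`List Bin`, memory as an association list `List (Bin × Bin)` of the writes so far, newest first; an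
unwritten cell `i` reads the input bit `i` modulo `2 ^ w`, or `0`). All values stay below
`2 ^ w` (or cap the state size), so the size after `i ≤ T` steps is polynomial. `BT` has `add`,
`sub`, `mul`, `div`, `mod`, `pow`; bitwise operations via sums over bit positions below `w`
(`BT.sum`, `fld`/`Nat.testBit`), shifts via `* 2 ^ k`, `/ 2 ^ k` with `k < w` made unary by `un`.
The output is `[1]` iff register `0` holds `1` and the cell addressed by register `1` holds `1`. -/
theorem uram : ∃ (γ : Type) (_ : Enc γ) (U : γ × Raw × ℕ × ℕ → Bool), PT U ∧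
    ∀ P : Crest.WordRAM.Program, ∃ code : γ, ∀ (x : List Bool) (w T : ℕ),
      (U (code, ⟨x⟩, w, T) = true ↔
        (Crest.WordRAM.run P w (fun _ => 0) (x.map fun b => if b then 1 else 0) T).output = [1]) := by
  refine ⟨ℕ × List URAM.Ins, inferInstance, fun p =>
    URAM.accept p.1.1 p.2.1 p.2.2.1 (URAM.urun p.1.2 p.2.1 p.2.2.1 p.2.2.2), by fun_prop,
    fun P => ⟨(P.numRegs, P.code.map URAM.codeI), fun x w T => ?_⟩⟩
  exact (URAM.sim_run P x w T).accept_iff

end Crest.Agent.R290
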