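import Crest.Agent.R290.Time

/-!
Row 290, task UTM: one polynomial-time interpreter for all bundled stack machines.
-/

set_option autoImplicit false

namespace Crest.Agent.R290

open Crest.Agent.PT Crest.Agent.QC Crest.Agent.R317

namespace Utm

open Turing Turing.TM2 Function

/-! ### The flat machine -/

/-- Programs: a stack number and a table (next label, action) indexed by the top symbol. -/
abbrev Prog : Type := List (ℕ × List (ℕ × ℕ))

/-- Actions: `0` nothing, `1` pop, `c + 1` push `c`. -/
def act (e : ℕ) (s : List ℕ) : List ℕ := if e = 0 then s else if e = 1 then s.tail else (e - 1) :: s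

/-- The table entry used in a configuration. -/
def ent (P : Prog) (c : ℕ × List (List ℕ)) : ℕ × ℕ :=
  (P.getD c.1 (0, [])).2.getD ((c.2.getD (P.getD c.1 (0, [])).1 []).headD 0) (0, 0)

/-- One step. -/
def ustep (P : Prog) (c : ℕ × List (List ℕ)) : ℕ × List (List ℕ) :=
  ((ent P c).1, c.2.set (P.getD c.1 (0, [])).1
    (act (ent P c).2 (c.2.getD (P.getD c.1 (0, [])).1 [])))

section PTs

variable {α β : Type} [Enc α] [Enc β]

@[fun_prop] theorem pt_set {l : α → List β} {k : α → ℕ} {x : α → β} (hl : PT l) (hk : PT k)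
    (hx : PT x) : PT (fun a => (l a).set (k a) (x a)) := by
  have h : PT (fun a => mkL (l a).length (fun i => if i = k a then x a else (l a).getD i (x a))) :=
    pt_mkL (f := fun a i => if i = k a then x a else (l a).getD i (x a)) (pt_length hl)
      (by fun_prop)
  refine h.congr (fun a => List.ext_getElem (by simp) (fun i h1 h2 => ?_))
  have h3 : i < (l a).length := by simpa using h1
  simp only [mkL, List.getElem_map, List.getElem_range, List.getElem_set,
    List.getD_eq_getElem _ _ h3, eq_comm]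

theorem sz_getD_le (l : List β) (i : ℕ) (d : β) : sz (l.getD i d) ≤ sz l + sz d := by
  induction l generalizing i with
  | nil => simp
  | cons x l ih =>
    cases i with
    | zero => simp only [List.getD_cons_zero, sz_cons]; omega
    | succ i => have := ih i; simp only [List.getD_cons_succ, sz_cons]; omega

theorem sz_set_le (l : List β) (k : ℕ) (x d : β) (c : ℕ) (h : sz x ≤ sz (l.getD k d) + c) :
    sz (l.set k x) ≤ sz l + 2 * c := by
  induction l generalizing k with
  | nil => simp
  | cons y l ih =>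
    cases k with
    | zero => simp only [List.getD_cons_zero, List.set_cons_zero, sz_cons] at h ⊢; omega
    | succ k =>
      have := ih k (by simpa only [List.getD_cons_succ] using h)
      simp only [List.set_cons_succ, sz_cons]; omega

theorem sz_act (e : ℕ) (s : List ℕ) : sz (act e s) ≤ sz s + (2 * e + 1) := by
  unfold act
  split_ifs
  · omega
  · cases s with
    | nil => simp
    | cons x s => simp only [List.tail_cons, sz_cons]; omega
  · simp only [sz_cons, sz_nat]; omega

theorem sz_ustep (P : Prog) (c : ℕ × List (List ℕ)) :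
    sz (ustep P c) ≤ sz c + (6 * (sz P + 2) + 2) := by
  obtain ⟨pc, S⟩ := c
  have h1 := sz_getD_le P pc (0, [])
  have h2 : sz (ent P (pc, S)) ≤ sz (P.getD pc (0, [])).2 + sz ((0, 0) : ℕ × ℕ) := sz_getD_le _ _ _
  have h3 := sz_set_le S (P.getD pc (0, [])).1 _ [] _
    (sz_act (ent P (pc, S)).2 (S.getD (P.getD pc (0, [])).1 []))
  unfold ustep
  generalize ent P (pc, S) = e at h2 h3 ⊢
  generalize P.getD pc (0, []) = ins at h1 h2 h3 ⊢
  obtain ⟨e1, e2⟩ := e
  obtain ⟨i1, i2⟩ := ins
  simp only [sz_pair, sz_nat, sz_nil] at h1 h2 h3 ⊢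
  omega

@[fun_prop] theorem pt_act {e : α → ℕ} {s : α → List ℕ} (he : PT e) (hs : PT s) :
    PT (fun a => act (e a) (s a)) := by
  unfold act; fun_prop

@[fun_prop] theorem pt_ent {P : α → Prog} {c : α → ℕ × List (List ℕ)} (hP : PT P) (hc : PT c) :
    PT (fun a => ent (P a) (c a)) := by
  unfold ent; fun_prop

@[fun_prop] theorem pt_ustep {P : α → Prog} {c : α → ℕ × List (List ℕ)} (hP : PT P) (hc : PT c) :
    PT (fun a => ustep (P a) (c a)) := by
  unfold ustep; fun_prop

@[fun_prop] theorem pt_urun {P : α → Prog} {c : α → ℕ × List (List ℕ)} {t : α → ℕ} (hP : PT P)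
    (hc : PT c) (ht : PT t) : PT (fun a => (ustep (P a))^[t a] (c a)) := by
  refine (PT.natRec_add (s := fun a _ b => ustep (P a) b) ht hc (by fun_prop)
    (C := fun p => 6 * (sz (P p.1) + 2) + 2) (PT.pbNat (by fun_prop))
    (fun a _ b => sz_ustep _ _)).congr (fun a => ?_)
  induction t a with
  | zero => rfl
  | succ n ih => simp only [ih, Function.iterate_succ_apply']

/-- The input bits as symbols. -/
def load (c₀ c₁ : ℕ) (x : Raw) : List ℕ :=
  mkL (sz x) (fun j => bif (Raw.tail^[j] x).head then c₁ else c₀)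

@[fun_prop] theorem pt_load {c₀ c₁ : α → ℕ} {x : α → Raw} (h₀ : PT c₀) (h₁ : PT c₁) (hx : PT x) :
    PT (fun a => load (c₀ a) (c₁ a) (x a)) := by
  have h : PT (fun p : α × ℕ => Raw.tail^[p.2] (x p.1)) :=
    pt_iterShrink (PT.tail PT.id') (fun x => by simp) (by fun_prop) (by fun_prop)
  exact pt_mkL (f := fun a j => bif (Raw.tail^[j] (x a)).head then c₁ a else c₀ a) hx.len
    (PT.cond h.head (by fun_prop) (by fun_prop))

theorem load_eq (c : Bool → ℕ) (x : List Bool) : load (c false) (c true) ⟨x⟩ = x.map c := by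
  have key : ∀ (j : ℕ) (x : List Bool), Raw.tail^[j] ⟨x⟩ = ⟨x.drop j⟩ := by
    intro j
    induction j with
    | zero => intro x; rfl
    | succ j ih =>
      intro x
      rw [Function.iterate_succ_apply]
      exact (ih x.tail).trans (by cases x <;> simp)
  refine List.ext_getElem (by simp [load]) (fun i h1 h2 => ?_)
  have h3 : i < x.length := by simpa using h2
  simp only [load, mkL, List.getElem_map, List.getElem_range, key, Raw.head]
  rw [List.drop_eq_getElem_cons h3, List.headD_cons]
  cases x[i] <;> rfl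

end PTs

/-! ### Numbering -/

open Classical in
/-- Position in a list. -/
noncomputable def ix {X : Type} (x : X) : List X → ℕ
  | [] => 0
  | y :: L => if y = x then 0 else ix x L + 1

theorem getD_ix {X Y : Type} {x : X} {L : List X} (hx : x ∈ L) (f : X → Y) (d : Y) :
    (L.map f).getD (ix x L) d = f x := by
  induction L with
  | nil => cases hx
  | cons y L ih =>
    rw [ix]
    split_ifs with h
    · rw [h]; rfl
    · exact ih ((List.mem_cons.1 hx).resolve_left (Ne.symm h))

theorem set_ix {X Y : Type} {x : X} {L : List X} (hL : L.Nodup) (hx : x ∈ L) (f g : X → Y)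
    (h : ∀ y, y ≠ x → g y = f y) : (L.map f).set (ix x L) (g x) = L.map g := by
  induction L with
  | nil => rfl
  | cons y L ih =>
    rw [List.nodup_cons] at hL
    rw [ix]
    split_ifs with h1
    · subst h1
      rw [List.map_cons, List.set_cons_zero, List.map_cons]
      congr 1
      exact List.map_congr_left (fun z hz => (h z (fun e => hL.1 (e ▸ hz))).symm)
    · rw [List.map_cons, List.set_cons_succ, List.map_cons, h y h1,
        ih hL.2 ((List.mem_cons.1 hx).resolve_left (Ne.symm h1))]

/-! ### Compilation -/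

variable {K : Type} {Γ : K → Type} {Λ σ : Type}

/-- Sub-statements. -/
def subs : Stmt Γ Λ σ → List (Stmt Γ Λ σ)
  | .push k f q => .push k f q :: subs q
  | .peek k f q => .peek k f q :: subs q
  | .pop k f q => .pop k f q :: subs q
  | .load f q => .load f q :: subs q
  | .branch f q₁ q₂ => .branch f q₁ q₂ :: (subs q₁ ++ subs q₂)
  | .goto f => [.goto f]
  | .halt => [.halt]

/-- Pushed symbols. -/
def syms (vs : List σ) : Stmt Γ Λ σ → List (Σ k, Γ k)
  | .push k f q => vs.map (fun v => ⟨k, f v⟩) ++ syms vs q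
  | .peek _ _ q => syms vs q
  | .pop _ _ q => syms vs q
  | .load _ q => syms vs q
  | .branch _ q₁ q₂ => syms vs q₁ ++ syms vs q₂
  | .goto _ => []
  | .halt => []

/-- The stack used by a statement. -/
def stk (k₀ : K) : Stmt Γ Λ σ → K
  | .push k _ _ => k
  | .peek k _ _ => k
  | .pop k _ _ => k
  | _ => k₀

variable [DecidableEq K]

/-- A symbol seen on stack `k`. -/
def proj (k : K) (o : Option (Σ k, Γ k)) : Option (Γ k) :=
  o.bind (fun s => if h : s.1 = k then some (h ▸ s.2) else none)

theorem proj_map (k : K) (o : Option (Γ k)) : proj k (o.map (Sigma.mk k)) = o := by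
  cases o <;> simp [proj]

/-- Data of the compilation. -/
structure Ctx (Γ : K → Type) (Λ σ : Type) where
  /-- the program -/
  M : Λ → Stmt Γ Λ σ
  /-- a stack -/
  k₀ : K
  /-- all stacks -/
  KL : List K
  /-- all states -/
  vs : List σ
  /-- the labels -/
  L : List (Stmt Γ Λ σ × σ)
  /-- the symbols -/
  G : List (Σ k, Γ k)
  hK : KL.Nodup
  hK' : ∀ k, k ∈ KL
  hv : ∀ v, v ∈ vs

namespace Ctx

variable (C : Ctx Γ Λ σ)

/-- Number of a label. -/
noncomputable def num (q : Stmt Γ Λ σ) (v : σ) : ℕ := ix (q, v) C.L + 1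

/-- Number of a symbol. -/
noncomputable def cd (k : K) (a : Γ k) : ℕ := ix ⟨k, a⟩ C.G + 1

/-- Code of the stacks. -/
noncomputable def encS (S : ∀ k, List (Γ k)) : List (List ℕ) :=
  C.KL.map (fun k => (S k).map (C.cd k))

/-- The table entries. -/
noncomputable def tr : Stmt Γ Λ σ → σ → Option (Σ k, Γ k) → ℕ × ℕ
  | .push k f q, v, _ => (C.num q v, C.cd k (f v) + 1)
  | .peek k f q, v, o => (C.num q (f v (proj k o)), 0)
  | .pop k f q, v, o => (C.num q (f v (proj k o)), 1)
  | .load f q, v, _ => (C.num q (f v), 0)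
  | .branch f q₁ q₂, v, _ => (C.num (bif f v then q₁ else q₂) v, 0)
  | .goto f, v, _ => (C.num (C.M (f v)) v, 0)
  | .halt, _, _ => (0, 0)

/-- The flat program. -/
noncomputable def prog : Prog := (0, []) :: C.L.map (fun x =>
  (ix (stk C.k₀ x.1) C.KL, C.tr x.1 x.2 none :: C.G.map (fun s => C.tr x.1 x.2 (some s))))

/-- Code of a configuration. -/
noncomputable def cfg (c : Cfg Γ Λ σ) : ℕ × List (List ℕ) :=
  (c.l.elim 0 (fun l => C.num (C.M l) c.var), C.encS c.stk)

/-- All symbols are listed. -/
def Good (S : ∀ k, List (Γ k)) : Prop := ∀ k, ∀ a ∈ S k, (⟨k, a⟩ : Σ k, Γ k) ∈ C.G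

variable {C}

theorem Good.update {S : ∀ k, List (Γ k)} (h : C.Good S) (k : K) (s : List (Γ k))
    (hs : ∀ a ∈ s, (⟨k, a⟩ : Σ k, Γ k) ∈ C.G) : C.Good (update S k s) := by
  intro j a ha
  by_cases hj : j = k
  · subst hj; rw [update_self] at ha; exact hs a ha
  · rw [update_of_ne hj] at ha; exact h j a ha

theorem set_encS (S : ∀ k, List (Γ k)) (k : K) (s : List (Γ k)) :
    (C.encS S).set (ix k C.KL) (s.map (C.cd k)) = C.encS (update S k s) := by
  have := set_ix C.hK (C.hK' k) (fun k => (S k).map (C.cd k))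
    (fun j => (update S k s j).map (C.cd j)) (fun y hy => by rw [update_of_ne hy])
  simpa only [update_self, encS] using this

theorem step_eq {q : Stmt Γ Λ σ} {v : σ} (hq : (q, v) ∈ C.L) {S : ∀ k, List (Γ k)}
    (hS : C.Good S) {k : K} (hk : stk C.k₀ q = k) {e : ℕ × ℕ}
    (he : C.tr q v ((S k).head?.map (Sigma.mk k)) = e) {s : List (Γ k)}
    (hs : act e.2 ((S k).map (C.cd k)) = s.map (C.cd k)) :
    ustep C.prog (C.num q v, C.encS S) = (e.1, C.encS (update S k s)) := by
  have h1 : C.prog.getD (C.num q v) (0, []) =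
      (ix k C.KL, C.tr q v none :: C.G.map (fun s => C.tr q v (some s))) := by
    rw [prog, num, List.getD_cons_succ, getD_ix hq, hk]
  have h2 : (C.encS S).getD (ix k C.KL) [] = (S k).map (C.cd k) := getD_ix (C.hK' k) _ _
  have h3 : ent C.prog (C.num q v, C.encS S) = e := by
    simp only [ent, h1, h2]
    rw [← he]
    have h4 := hS k
    cases hSk : S k with
    | nil => rfl
    | cons a l =>
      rw [List.map_cons, List.headD_cons, cd, List.getD_cons_succ,
        getD_ix (h4 a (by rw [hSk]; exact List.mem_cons_self))]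
      rfl
  simp only [ustep, h1, h2, h3, hs, set_encS]

theorem step_keep {q : Stmt Γ Λ σ} {v : σ} (hq : (q, v) ∈ C.L) {S : ∀ k, List (Γ k)}
    (hS : C.Good S) {k : K} (hk : stk C.k₀ q = k) {n : ℕ}
    (he : C.tr q v ((S k).head?.map (Sigma.mk k)) = (n, 0)) :
    ustep C.prog (C.num q v, C.encS S) = (n, C.encS S) := by
  rw [step_eq hq hS hk he (s := S k) rfl, update_eq_self]

theorem sim (q : Stmt Γ Λ σ) (hq : ∀ q' ∈ subs q, ∀ v, (q', v) ∈ C.L)
    (hG : ∀ s ∈ syms C.vs q, s ∈ C.G) (v : σ) (S : ∀ k, List (Γ k)) (hS : C.Good S) :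
    C.Good (stepAux q v S).stk ∧ ∃ n ≤ (subs q).length,
      (ustep C.prog)^[n] (C.num q v, C.encS S) = C.cfg (stepAux q v S) := by
  induction q generalizing v S with
  | push k f q ih =>
    have h1 : (⟨k, f v⟩ : Σ k, Γ k) ∈ C.G :=
      hG _ (List.mem_append_left _ (List.mem_map_of_mem (C.hv v)))
    obtain ⟨h2, n, h3, h4⟩ := ih (fun q' h => hq q' (List.mem_cons_of_mem _ h))
      (fun s h => hG s (List.mem_append_right _ h)) v (update S k (f v :: S k))
      (hS.update k _ (fun a ha => by
        rcases List.mem_cons.1 ha with rfl | ha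
        exacts [h1, hS k a ha]))
    refine ⟨h2, n + 1, Nat.succ_le_succ h3, ?_⟩
    rw [iterate_succ_apply, step_eq (hq _ List.mem_cons_self v) hS (k := k) rfl rfl
      (s := f v :: S k) rfl]
    exact h4
  | peek k f q ih =>
    obtain ⟨h2, n, h3, h4⟩ := ih (fun q' h => hq q' (List.mem_cons_of_mem _ h)) hG
      (f v (S k).head?) S hS
    refine ⟨h2, n + 1, Nat.succ_le_succ h3, ?_⟩
    rw [iterate_succ_apply, step_keep (hq _ List.mem_cons_self v) hS (k := k) rfl
      (n := C.num q (f v (S k).head?)) (by rw [tr, proj_map])]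
    exact h4
  | pop k f q ih =>
    obtain ⟨h2, n, h3, h4⟩ := ih (fun q' h => hq q' (List.mem_cons_of_mem _ h)) hG
      (f v (S k).head?) (update S k (S k).tail)
      (hS.update k _ (fun a ha => hS k a (List.mem_of_mem_tail ha)))
    refine ⟨h2, n + 1, Nat.succ_le_succ h3, ?_⟩
    rw [iterate_succ_apply, step_eq (hq _ List.mem_cons_self v) hS (k := k) rfl
      (e := (C.num q (f v (S k).head?), 1)) (by rw [tr, proj_map]) (s := (S k).tail)
      List.map_tail.symm]
    exact h4
  | load f q ih =>
    obtain ⟨h2, n, h3, h4⟩ := ih (fun q' h => hq q' (List.mem_cons_of_mem _ h)) hG (f v) S hS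
    refine ⟨h2, n + 1, Nat.succ_le_succ h3, ?_⟩
    rw [iterate_succ_apply, step_keep (hq _ List.mem_cons_self v) hS rfl rfl]
    exact h4
  | branch f q₁ q₂ ih₁ ih₂ =>
    obtain ⟨h2, n, h3, h4⟩ := ih₁
      (fun q' h => hq q' (List.mem_cons_of_mem _ (List.mem_append_left _ h)))
      (fun s h => hG s (List.mem_append_left _ h)) v S hS
    obtain ⟨h2', n', h3', h4'⟩ := ih₂
      (fun q' h => hq q' (List.mem_cons_of_mem _ (List.mem_append_right _ h)))
      (fun s h => hG s (List.mem_append_right _ h)) v S hS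
    have h5 := step_keep (hq _ List.mem_cons_self v) hS rfl rfl
    rw [stepAux]
    simp only [subs, List.length_cons, List.length_append]
    cases hf : f v <;> rw [hf] at h5
    · exact ⟨h2', n' + 1, by omega, by rw [iterate_succ_apply, h5]; exact h4'⟩
    · exact ⟨h2, n + 1, by omega, by rw [iterate_succ_apply, h5]; exact h4⟩
  | goto f => exact ⟨hS, 1, le_rfl, step_keep (hq _ List.mem_cons_self v) hS rfl rfl⟩
  | halt => exact ⟨hS, 1, le_rfl, step_keep (hq _ List.mem_cons_self v) hS rfl rfl⟩

theorem sim_run (hq : ∀ l, ∀ q' ∈ subs (C.M l), ∀ v, (q', v) ∈ C.L)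
    (hG : ∀ l, ∀ s ∈ syms C.vs (C.M l), s ∈ C.G) {D : ℕ} (hD : ∀ l, (subs (C.M l)).length ≤ D)
    (s : ℕ) (c c' : Cfg Γ Λ σ) (hc : C.Good c.stk)
    (h : (flip bind (step C.M))^[s] (some c) = some c') :
    ∃ n ≤ D * s, (ustep C.prog)^[n] (C.cfg c) = C.cfg c' := by
  induction s generalizing c with
  | zero =>
    obtain rfl : c = c' := by simpa using h
    exact ⟨0, le_rfl, rfl⟩
  | succ s ih =>
    rw [iterate_succ_apply] at h
    obtain ⟨_ | l, v, S⟩ := c
    · have h2 : (flip bind (step C.M))^[s] (none : Option (Cfg Γ Λ σ)) = none :=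
        iterate_fixed rfl s
      have h3 : flip bind (step C.M) (some (⟨none, v, S⟩ : Cfg Γ Λ σ)) = none := rfl
      rw [h3, h2] at h
      cases h
    · obtain ⟨h1, n, h2, h3⟩ := sim (C.M l) (hq l) (hG l) v S hc
      obtain ⟨n', h4, h5⟩ := ih _ h1 h
      refine ⟨n' + n, ?_, ?_⟩
      · have := hD l
        rw [Nat.mul_succ]; omega
      · rw [iterate_add_apply, ← h5, ← h3]; rfl

theorem step_halt (S : List (List ℕ)) : ustep C.prog (0, S) = (0, S) := by
  cases S <;> rfl

end Ctx

/-- The interpreter. -/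
def U (p : (Prog × List (List ℕ) × ℕ × ℕ × ℕ × ℕ × ℕ × ℕ) × Raw × ℕ) : Bool :=
  decide ((((ustep p.1.1)^[p.2.2] (p.1.2.2.1, p.1.2.1.set p.1.2.2.2.1
    (load p.1.2.2.2.2.1 p.1.2.2.2.2.2.1 p.2.1))).2.getD p.1.2.2.2.2.2.2.1 []).headD 0 =
      p.1.2.2.2.2.2.2.2)

theorem pt_U : PT U := by
  unfold U
  refine pt_decide (DT.eq (BT.ofPT ?_) (BT.ofPT ?_)) <;> fun_prop

end Utm

/-- The exponent of the running time of `U` must not depend on the machine, so the machine is data.
Suggested route. (1) A flat data machine: a program is a `List` of instructions over stack numbers,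
symbol numbers and label numbers (`push k sym next`, `pop k table` / `peek k table` with a table
`List ℕ` of next labels indexed by `0` for empty and `sym + 1`, `goto next`, `halt`), e.g. coded as
`ℕ × ℕ × ℕ × List ℕ`; a configuration is `ℕ × List (List ℕ)`; `step` is `PT` in (program,
configuration), a step lengthens the configuration by `O(sz program)`, so `t` steps are `PT`
(`PT.iter`/`PT.natRec`); `U` loads the input bits as symbols on the input stack, runs `t` steps and
reads the top of the output stack. The code type may be any `Enc` type `γ`; wrap it through `Raw`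
only if convenient (the statement lets you choose `γ`).
(2) Compile `M.tm : FinTM2`: labels are pairs (sub-statement of some `tm.m l`, state `v : tm.σ`)
(`Turing.TM2.stmts₁`/`stmts`, finitely many), symbols of stack `k` that can occur are the input
symbols and the values of the `push` functions in these sub-statements (a finite set; number them by
an injection on that finite set, the input alphabet through `M.inputAlphabet`, the output through
`M.outputAlphabet`); `load`, `branch`, `goto` become jumps. One `stepAux` of a statement is at most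
`D` flat steps (`D` = maximal statement size); halted configurations stay. -/
theorem utm : ∃ (γ : Type) (_ : Enc γ) (U : γ × Raw × ℕ → Bool), PT U ∧
    ∀ (α : Type) (ea : α → List Bool) (g : α → Bool)
      (M : Turing.TM2ComputableInTime ea Computability.encodeBool g),
      ∃ (code : γ) (D : ℕ), ∀ (a : α) (t : ℕ), D * (M.time (ea a).length + 1) ≤ t →
        U (code, ⟨ea a⟩, t) = g a := by
  refine ⟨_, inferInstance, Utm.U, Utm.pt_U, fun α ea g M => ?_⟩
  classical
  obtain ⟨⟨tm, ia, oa⟩, time, hM⟩ := M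
  let _ := tm.kFin
  let _ := tm.ΛFin
  let _ := tm.σFin
  let vs := (Finset.univ : Finset tm.σ).toList
  let ls := (Finset.univ : Finset tm.Λ).toList
  let C : Utm.Ctx tm.Γ tm.Λ tm.σ :=
    { M := tm.m, k₀ := tm.k₀, KL := Finset.univ.toList, vs := vs
      L := (ls.flatMap fun l => Utm.subs (tm.m l)).flatMap fun q => vs.map fun v => (q, v)
      G := [⟨tm.k₀, ia.symm false⟩, ⟨tm.k₀, ia.symm true⟩, ⟨tm.k₁, oa.symm false⟩,
        ⟨tm.k₁, oa.symm true⟩] ++ ls.flatMap fun l => Utm.syms vs (tm.m l)
      hK := Finset.nodup_toList _, hK' := fun k => by simp, hv := fun v => by simp [vs] }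
  have hl : ∀ l, l ∈ ls := fun l => by simp [ls]
  have hi : ∀ b, (⟨tm.k₀, ia.symm b⟩ : Σ k, tm.Γ k) ∈ C.G := fun b => by cases b <;> simp [C]
  have ho : ∀ b, (⟨tm.k₁, oa.symm b⟩ : Σ k, tm.Γ k) ∈ C.G := fun b => by cases b <;> simp [C]
  refine ⟨(C.prog, C.encS (fun _ => []), C.num (tm.m tm.main) tm.initialState, Utm.ix tm.k₀ C.KL,
    C.cd _ (ia.symm false), C.cd _ (ia.symm true), Utm.ix tm.k₁ C.KL, C.cd _ (oa.symm true)),
    ∑ l, (Utm.subs (tm.m l)).length, fun a t ht => ?_⟩
  obtain ⟨⟨s, hs⟩, hs'⟩ := hM a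
  have e1 : (Turing.initList tm ((ea a).map ia.invFun)).stk =
      Function.update (fun _ => []) tm.k₀ ((ea a).map ia.symm) := by
    funext k
    by_cases hk : k = tm.k₀
    · subst hk; simp [Turing.initList]
    · simp [Turing.initList, hk]
  obtain ⟨n, h1, h2⟩ := Utm.Ctx.sim_run (C := C)
    (fun l q hq v => List.mem_flatMap.2 ⟨q, List.mem_flatMap.2 ⟨l, hl l, hq⟩,
      List.mem_map_of_mem (C.hv v)⟩)
    (fun l s hs => List.mem_append_right _ (List.mem_flatMap.2 ⟨l, hl l, hs⟩))
    (D := ∑ l, (Utm.subs (tm.m l)).length)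
    (fun l => Finset.single_le_sum (f := fun l => (Utm.subs (tm.m l)).length)
      (fun _ _ => Nat.zero_le _) (Finset.mem_univ l)) s _ _
    (by
      rw [e1]
      refine Utm.Ctx.Good.update (fun k a ha => by cases ha) _ _ (fun a ha => ?_)
      obtain ⟨b, -, rfl⟩ := List.mem_map.1 ha
      exact hi b) hs
  have h3 : n ≤ t := h1.trans ((Nat.mul_le_mul_left _ (hs'.trans (Nat.le_succ _))).trans ht)
  obtain ⟨m, rfl⟩ := Nat.exists_eq_add_of_le' h3
  have e2 : (C.num (tm.m tm.main) tm.initialState, (C.encS (fun _ => [])).set (Utm.ix tm.k₀ C.KL)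
      (Utm.load (C.cd _ (ia.symm false)) (C.cd _ (ia.symm true)) ⟨ea a⟩)) =
      C.cfg (Turing.initList tm ((ea a).map ia.invFun)) := by
    rw [Utm.load_eq (fun b => C.cd _ (ia.symm b)), Utm.Ctx.cfg, e1, ← Utm.Ctx.set_encS,
      List.map_map]
    rfl
  simp only [Utm.U]
  rw [e2, Function.iterate_add_apply, h2]
  have e3 : C.cfg (Turing.haltList tm ((Computability.encodeBool (g a)).map oa.invFun)) =
      (0, C.encS (Turing.haltList tm ((Computability.encodeBool (g a)).map oa.invFun)).stk) := rfl
  rw [e3, Function.iterate_fixed (Utm.Ctx.step_halt _), Utm.Ctx.encS, Utm.getD_ix (C.hK' _)]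
  have e4 : (Turing.haltList tm ((Computability.encodeBool (g a)).map oa.invFun)).stk tm.k₁ =
      [oa.symm (g a)] := by
    simp [Turing.haltList, Computability.encodeBool]
  rw [e4]
  cases hg : g a
  · refine decide_eq_false (fun h => ?_)
    have h4 : Utm.ix (⟨tm.k₁, oa.symm false⟩ : Σ k, tm.Γ k) C.G =
        Utm.ix (⟨tm.k₁, oa.symm true⟩ : Σ k, tm.Γ k) C.G := Nat.succ_injective h
    have h5 := Utm.getD_ix (ho false) id ⟨tm.k₁, oa.symm false⟩
    rw [h4, Utm.getD_ix (ho true)] at h5
    simp at h5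
  · exact decide_eq_true rfl

end Crest.Agent.R290
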